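import Mathlib
import Vale.Agent.P269.CI2

set_option linter.all false

section

section

namespace Vale.Agent.P269

open Finset Polynomial

/-- Classical data of a smooth projective variety `X` with `H^0 = ℂ` and `H^1 = 0`:
`phi_a` (`a : ι`) is a basis of `H^*(X; ℂ)` with `phi_a` of Hodge type `(p a, q a)`, `phi_e = 1`,
`phi_a ∪ phi_b = ∑ x, cup a b x • phi_x`, `η a b = ∫ phi_a ∪ phi_b`, `c_1(TX) = ∑ a, γ a • phi_a`,
`B` is the monoid of effective curve classes, `deg a β = ∫_β phi_a`, `c β = ∫_β c_1(TX)`,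
`t a = ∫ phi_a ∪ c_{r-1}(TX)`; `LW` is the Libgober-Wood identity. -/
structure Target (ι B : Type) [Fintype ι] [DecidableEq ι] [AddCommMonoid B] where
  r : ℕ
  p : ι → ℕ
  q : ι → ℕ
  e : ι
  e_type : p e = 0 ∧ q e = 0
  two_le : ∀ a, a ≠ e → 2 ≤ p a + q a
  cup : ι → Matrix ι ι ℂ
  cup_type : ∀ a b x, cup a b x ≠ 0 → p x = p a + p b ∧ q x = q a + q b
  cup_unit : cup e = 1
  cup_comm : ∀ a b x, cup a b x = (-1) ^ ((p a + q a) * (p b + q b)) * cup b a x
  cup_assoc : ∀ a b c y, ∑ x, cup a b x * cup x c y = ∑ x, cup b c x * cup a x y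
  η : Matrix ι ι ℂ
  η_type : ∀ a b, η a b ≠ 0 → p a + p b = r ∧ q a + q b = r
  η_comm : ∀ a b, η a b = (-1) ^ ((p a + q a) * (p b + q b)) * η b a
  η_frob : ∀ a b c, ∑ x, cup a b x * η x c = ∑ x, cup b c x * η a x
  η_unit : IsUnit η
  γ : ι → ℂ
  γ_type : ∀ a, γ a ≠ 0 → p a = 1 ∧ q a = 1
  deg : ι → B →+ ℂ
  c : B →+ ℤ
  c_eq : ∀ β, (c β : ℂ) = ∑ a, γ a * deg a β
  t : ι → ℂ
  LW : ∑ a, (-1) ^ (p a + q a) * ((p a : ℂ) - r / 2) ^ 2 =
    r / 12 * ∑ a, (-1) ^ (p a + q a) + 1 / 6 * ∑ a, γ a * t a

variable {ι B : Type} [Fintype ι] [DecidableEq ι] [AddCommMonoid B]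

namespace Target

variable (X : Target ι B)

/-- Cup product with `c_1(TX)`. -/
noncomputable def R : Matrix ι ι ℂ := ∑ a, X.γ a • X.cup a

/-- The eigenvalue of Getzler's grading operator. -/
noncomputable def μ (a : ι) : ℂ := X.p a - X.r / 2

/-- Euler characteristic. -/
noncomputable def χ : ℂ := ∑ a, (-1) ^ (X.p a + X.q a)

/-- Supertrace of `μ^2`. -/
noncomputable def strμ : ℂ := ∑ a, (-1) ^ (X.p a + X.q a) * X.μ a ^ 2

/-- Parity of the insertion `τ_m(phi_a)`, written `(a, m)`. -/
def par (x : ι × ℕ) : ℕ := X.p x.1 + X.q x.1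

/-- The virtual dimension of the moduli space of unpointed stable maps. -/
def vdim (g : ℕ) (β : B) : ℤ := (1 - g) * (X.r - 3) + X.c β

/-- Twice the complex degree of an insertion minus two: `2 (m + (p + q) / 2 - 1)`. -/
def wt (x : ι × ℕ) : ℤ := 2 * x.2 + X.p x.1 + X.q x.1 - 2

/-- Pairs `(k, l)` with `1 ≤ k ≤ vdim g β` and all insertions in `l` of positive weight, the total
weight being `2 (vdim g β - k)`. -/
def reducedSet (g : ℕ) (β : B) : Set (ℕ × List (ι × ℕ)) :=
  {s | 1 ≤ s.1 ∧ (s.1 : ℤ) ≤ X.vdim g β ∧ (∀ x ∈ s.2, 1 ≤ X.wt x) ∧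
    (s.2.map X.wt).sum = 2 * (X.vdim g β - s.1)}

end Target

/-- `act T l f` is the sum over the positions `j` of `l` of `T` applied to the insertion at `j`. -/
def act {A : Type} (T : A → (A → ℂ) → ℂ) : List A → (List A → ℂ) → ℂ
  | [], _ => 0
  | x :: l, f => T x (fun y => f (y :: l)) + act T l (fun J => f (x :: J))

/-- Sum over all splittings of `l` into two sublists `I`, `J` of `± f I * g J`, with the Koszul
sign of the reordering of `l` into `I, J`. -/
def split {A : Type} (π : A → ℕ) : List A → (List A → ℂ) → (List A → ℂ) → ℂ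
  | [], f, g => f [] * g []
  | x :: l, f, g => split π l (fun I => f (x :: I)) g +
      split π l (fun I => (-1) ^ (π x * (I.map π).sum) * f I) (fun J => g (x :: J))

/-- `τ_m(phi_b) ↦ τ_{m-1}(M phi_b)`, and `0` if `m = 0`. -/
def lower (M : Matrix ι ι ℂ) (x : ι × ℕ) (f : ι × ℕ → ℂ) : ℂ :=
  if x.2 = 0 then 0 else ∑ y, M x.1 y * f (y, x.2 - 1)

/-- `M a b` on the list `τ_0(phi_a), τ_0(phi_b)`, and `0` on every other list. -/
def two (M : Matrix ι ι ℂ) (l : List (ι × ℕ)) : ℂ :=
  ∑ a, ∑ b, if l = [(a, 0), (b, 0)] then M a b else 0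

/-- Getzler's `[x]^k_i` for `k + 1 = K`: the elementary symmetric polynomial of degree `K - i` in
`x, x + 1, …, x + K - 1`. -/
noncomputable def br (x : ℂ) (K i : ℕ) : ℂ :=
  (∏ j ∈ range K, (Polynomial.X + C (x + (j : ℂ)))).coeff i

/-- Descendant Gromov-Witten invariants: `F g β [(a₁, m₁), …, (a_n, m_n)]` is
`⟨τ_{m₁}(phi_{a₁}) ⋯ τ_{m_n}(phi_{a_n})⟩_{g, β}`. -/
structure GWTheory (X : Target ι B) [DecidableEq B] where
  F : ℕ → B → List (ι × ℕ) → ℂ
  swap : ∀ g β l x y l', F g β (l ++ x :: y :: l') =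
    (-1) ^ (X.par x * X.par y) * F g β (l ++ y :: x :: l')
  unstable : ∀ g l, 2 * g + l.length < 3 → F g 0 l = 0
  dimension : ∀ g β l, F g β l ≠ 0 →
    (l.map fun x => (x.2 : ℤ) + X.p x.1).sum = X.vdim g β + l.length ∧
    (l.map fun x => (x.2 : ℤ) + X.q x.1).sum = X.vdim g β + l.length
  string : ∀ g β l, F g β ((X.e, 0) :: l) =
    act (lower 1) l (F g β) + if g = 0 ∧ β = 0 then two X.η l else 0
  dilaton : ∀ g β l, F g β ((X.e, 1) :: l) =
    (2 * g - 2 + l.length) * F g β l + if g = 1 ∧ β = 0 ∧ l = [] then X.χ / 24 else 0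
  divisor : ∀ a, X.p a = 1 ∧ X.q a = 1 → ∀ g β l, F g β ((a, 0) :: l) =
    X.deg a β * F g β l + act (lower (X.cup a)) l (F g β) +
    (if g = 0 ∧ β = 0 then two (X.cup a * X.η) l else 0) +
    if g = 1 ∧ β = 0 ∧ l = [] then -X.t a / 24 else 0

variable [DecidableEq B] [HasAntidiagonal B] {X : Target ι B}

namespace GWTheory

variable (G : GWTheory X)

/-- The coefficient of `Z⁻¹ ħ ∂_x ∂_y Z` at genus `g`, class `β` and insertions `l`. -/
def quad (g : ℕ) (β : B) (x y : ι × ℕ) (l : List (ι × ℕ)) : ℂ :=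
  (if g = 0 then 0 else G.F (g - 1) β (x :: y :: l)) +
  ∑ h ∈ antidiagonal g, ∑ b ∈ antidiagonal β,
    split X.par l (fun I => (-1) ^ (X.par y * (I.map X.par).sum) * G.F h.1 b.1 (x :: I))
      (fun J => G.F h.2 b.2 (y :: J))

/-- The coefficient of `Z⁻¹ L_{K-1} Z` at genus `g`, class `β` and insertions `l`. -/
noncomputable def vir (K g : ℕ) (β : B) (l : List (ι × ℕ)) : ℂ :=
  - ∑ i ∈ range (K + 1), br (X.μ X.e + 3 / 2) K i *
      ∑ b, (X.R ^ i) X.e b * G.F g β ((b, K - i) :: l)
  + act (fun x f => ∑ i ∈ range (K + 1), if i < x.2 + K then br (X.μ x.1 + x.2 + 1 / 2) K i *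
      ∑ b, (X.R ^ i) x.1 b * f (b, x.2 + K - 1 - i) else 0) l (G.F g β)
  + 1 / 2 * ∑ m ∈ range K, ∑ n ∈ range K, ∑ i ∈ range K, (if m + n + i + 2 = K then
      (-1) ^ (m + 1) * ∑ a, ∑ b, br (-X.μ a - m - 1 / 2) K i * (X.η⁻¹ * X.R ^ i) a b *
        G.quad g β (a, m) (b, n) l else 0)
  + (if g = 0 ∧ β = 0 then two (X.R ^ K * X.η) l else 0)
  + (if K = 1 ∧ g = 1 ∧ β = 0 ∧ l = [] then X.χ / 16 - X.strμ / 4 else 0)

end GWTheory

end Vale.Agent.P269
end
end

section

section

namespace Vale.Agent.P269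

open Finset Polynomial

variable {ι B : Type} [Fintype ι] [DecidableEq ι] [AddCommMonoid B]

theorem two_zero_of_length {M : Matrix ι ι ℂ} {l : List (ι × ℕ)} (h : l.length ≠ 2) :
    two M l = 0 := by
  unfold two
  refine Finset.sum_eq_zero fun a _ => Finset.sum_eq_zero fun b _ => if_neg ?_
  intro hl
  rw [hl] at h
  simp at h

theorem two_pair (N : Matrix ι ι ℂ) (a b : ι) (m n : ℕ) :
    two N [(a, m), (b, n)] = if m = 0 ∧ n = 0 then N a b else 0 := by
  unfold two
  by_cases h : m = 0 ∧ n = 0
  · obtain ⟨hm, hn⟩ := h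
    subst hm; subst hn
    rw [if_pos ⟨rfl, rfl⟩, Finset.sum_eq_single a, Finset.sum_eq_single b]
    · rw [if_pos rfl]
    · intro c _ hc
      rw [if_neg]
      intro h
      apply hc
      simp only [List.cons.injEq, Prod.mk.injEq] at h
      exact h.2.1.1.symm
    · intro h; exact absurd (Finset.mem_univ _) h
    · intro c _ hc
      refine Finset.sum_eq_zero fun d _ => if_neg ?_
      intro h
      apply hc
      simp only [List.cons.injEq, Prod.mk.injEq] at h
      exact h.1.1.symm
    · intro h; exact absurd (Finset.mem_univ _) h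
  · rw [if_neg h]
    refine Finset.sum_eq_zero fun c _ => Finset.sum_eq_zero fun d _ => if_neg ?_
    intro h'
    apply h
    simp only [List.cons.injEq, Prod.mk.injEq] at h'
    exact ⟨h'.1.2, h'.2.1.2⟩

@[simp] theorem two_nil (M : Matrix ι ι ℂ) : two M [] = 0 := two_zero_of_length (by simp)

@[simp] theorem two_single (M : Matrix ι ι ℂ) (x : ι × ℕ) : two M [x] = 0 :=
  two_zero_of_length (by simp)

@[simp] theorem two_long (M : Matrix ι ι ℂ) (x y z : ι × ℕ) (l : List (ι × ℕ)) :
    two M (x :: y :: z :: l) = 0 := two_zero_of_length (by simp)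

theorem two_pair0 (N : Matrix ι ι ℂ) (a b : ι) : two N [(a, 0), (b, 0)] = N a b := by
  rw [two_pair, if_pos ⟨rfl, rfl⟩]

/-- `two` vanishes on a list starting with a descendant. -/
theorem two_succ (N : Matrix ι ι ℂ) (a : ι) (m : ℕ) (l : List (ι × ℕ)) :
    two N ((a, m + 1) :: l) = 0 := by
  by_cases h : ((a, m + 1) :: l).length = 2
  · obtain ⟨x, y, hxy⟩ := List.length_eq_two.1 h
    obtain ⟨b, n⟩ := y
    rw [hxy]
    simp only [List.cons.injEq] at hxy
    rw [← hxy.1, two_pair, if_neg (by simp)]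
  · exact two_zero_of_length h

/-- `two` only depends on the support. -/
theorem two_ne {M : Matrix ι ι ℂ} {l : List (ι × ℕ)} (h : two M l ≠ 0) :
    ∃ a b, l = [(a, 0), (b, 0)] ∧ M a b ≠ 0 := by
  by_cases hl : l.length = 2
  · obtain ⟨⟨a, m⟩, ⟨b, n⟩, rfl⟩ := List.length_eq_two.1 hl
    rw [two_pair] at h
    split_ifs at h with h1
    · obtain ⟨h1, h2⟩ := h1
      subst h1; subst h2
      exact ⟨a, b, rfl, h⟩
    · exact absurd rfl h
  · exact absurd (two_zero_of_length hl) h

theorem two_sum {κ : Type} (s : Finset κ) (M : κ → Matrix ι ι ℂ) (l : List (ι × ℕ)) :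
    two (∑ k ∈ s, M k) l = ∑ k ∈ s, two (M k) l := by
  by_cases hl : l.length = 2
  · obtain ⟨⟨a, m⟩, ⟨b, n⟩, rfl⟩ := List.length_eq_two.1 hl
    simp only [two_pair]
    split_ifs
    · rw [Matrix.sum_apply]
    · simp
  · rw [two_zero_of_length hl]
    symm
    exact Finset.sum_eq_zero fun k _ => two_zero_of_length hl

theorem two_smul (c : ℂ) (M : Matrix ι ι ℂ) (l : List (ι × ℕ)) :
    two (c • M) l = c * two M l := by
  by_cases hl : l.length = 2
  · obtain ⟨⟨a, m⟩, ⟨b, n⟩, rfl⟩ := List.length_eq_two.1 hl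
    simp only [two_pair]
    split_ifs
    · rw [Matrix.smul_apply, smul_eq_mul]
    · simp
  · rw [two_zero_of_length hl, two_zero_of_length hl, mul_zero]

end Vale.Agent.P269
end
end

section

section

namespace Vale.Agent.P269

open Finset Polynomial

variable {ι B : Type} [Fintype ι] [DecidableEq ι] [AddCommMonoid B]

section general

variable {A : Type}

theorem act_congr (T : A → (A → ℂ) → ℂ) (l : List A) :
    ∀ (f g : List A → ℂ), (∀ J, J.length = l.length → f J = g J) → act T l f = act T l g := by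
  induction l with
  | nil => intro f g _; rfl
  | cons x l ih =>
    intro f g h
    simp only [act]
    have h1 : (fun y => f (y :: l)) = fun y => g (y :: l) := by
      funext y; exact h _ (by simp)
    rw [h1, ih (fun J => f (x :: J)) (fun J => g (x :: J)) (fun J hJ => h _ (by simp [hJ]))]

theorem act_smul (T : A → (A → ℂ) → ℂ) (hT : ∀ x (c : ℂ) φ, T x (fun y => c * φ y) = c * T x φ)
    (l : List A) (c : ℂ) : ∀ (f : List A → ℂ), act T l (fun J => c * f J) = c * act T l f := by
  induction l with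
  | nil => intro f; simp [act]
  | cons x l ih =>
    intro f
    simp only [act]
    rw [hT, ih (fun J => f (x :: J)), mul_add]

theorem split_congr (π : A → ℕ) (l : List A) :
    ∀ (f f' g g' : List A → ℂ), (∀ I, f I = f' I) → (∀ I, g I = g' I) →
      split π l f g = split π l f' g' := by
  intro f f' g g' h1 h2
  have h1' : f = f' := funext h1
  have h2' : g = g' := funext h2
  rw [h1', h2']

theorem split_smul_left (π : A → ℕ) (l : List A) (c : ℂ) :
    ∀ (f g : List A → ℂ), split π l (fun I => c * f I) g = c * split π l f g := by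
  induction l with
  | nil => intro f g; simp [split, mul_assoc]
  | cons x l ih =>
    intro f g
    simp only [split]
    rw [ih (fun I => f (x :: I)) g, mul_add]
    congr 1
    rw [← ih]
    apply split_congr
    · intro I; ring
    · intro J; rfl

theorem split_smul_right (π : A → ℕ) (l : List A) (c : ℂ) :
    ∀ (f g : List A → ℂ), split π l f (fun I => c * g I) = c * split π l f g := by
  induction l with
  | nil => intro f g; simp [split]; ring
  | cons x l ih =>
    intro f g
    simp only [split]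
    rw [ih (fun I => f (x :: I)) g, ih _ (fun J => g (x :: J)), mul_add]

/-- Graded symmetry of a function of lists of insertions. -/
def SS (π : A → ℕ) (f : List A → ℂ) : Prop :=
  ∀ l x y l', f (l ++ x :: y :: l') = (-1) ^ (π x * π y) * f (l ++ y :: x :: l')

theorem SS.cons {π : A → ℕ} {f : List A → ℂ} (h : SS π f) (w : A) :
    SS π (fun J => f (w :: J)) := by
  intro l x y l'
  exact h (w :: l) x y l'

theorem SS.sgn {π : A → ℕ} {f : List A → ℂ} (h : SS π f) (n : ℕ) :
    SS π (fun I => (-1) ^ (n * (I.map π).sum) * f I) := by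
  intro l x y l'
  have e : ((l ++ x :: y :: l').map π).sum = ((l ++ y :: x :: l').map π).sum := by
    simp; omega
  simp only
  rw [e, h l x y l']
  ring

theorem SS.act {π : A → ℕ} {T : A → (A → ℂ) → ℂ}
    (hT : ∀ x φ ψ (c : ℂ), (∀ y, π y % 2 = π x % 2 → φ y = c * ψ y) → T x φ = c * T x ψ)
    {f : List A → ℂ} (hf : SS π f) : SS π (fun l => Vale.Agent.P269.act T l f) := by
  have key : ∀ (l : List A) x y l' (f : List A → ℂ), SS π f →
      Vale.Agent.P269.act T (l ++ x :: y :: l') f =
        (-1) ^ (π x * π y) * Vale.Agent.P269.act T (l ++ y :: x :: l') f := by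
    intro l
    induction l with
    | nil =>
      intro x y l' f hf
      simp only [List.nil_append, Vale.Agent.P269.act]
      have par_pow : ∀ a b c : ℕ, a % 2 = b % 2 → ((-1 : ℂ)) ^ (a * c) = (-1) ^ (b * c) := by
        intro a b c hab
        rw [pow_mul, pow_mul]
        congr 1
        rw [neg_one_pow_eq_pow_mod_two, hab, ← neg_one_pow_eq_pow_mod_two]
      have h1 : T x (fun z => f (z :: y :: l')) =
          (-1) ^ (π x * π y) * T x (fun z => f (y :: z :: l')) := by
        apply hT
        intro z hz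
        have := hf [] z y l'
        simp only [List.nil_append] at this
        rw [this, par_pow _ _ _ hz]
      have h2 : T y (fun z => f (x :: z :: l')) =
          (-1) ^ (π x * π y) * T y (fun z => f (z :: x :: l')) := by
        apply hT
        intro z hz
        have := hf [] x z l'
        simp only [List.nil_append] at this
        rw [this, mul_comm (π x) (π z), par_pow _ _ _ hz, mul_comm (π y)]
      have h3 : Vale.Agent.P269.act T l' (fun J => f (x :: y :: J)) =
          (-1) ^ (π x * π y) * Vale.Agent.P269.act T l' (fun J => f (y :: x :: J)) := by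
        have e : (fun J => f (x :: y :: J)) =
            fun J => (-1) ^ (π x * π y) * f (y :: x :: J) := by
          funext J
          exact hf [] x y J
        rw [e]
        exact act_smul T (fun x c φ => hT x _ _ c (fun y _ => rfl)) l' _
          (fun J => f (y :: x :: J))
      rw [h1, h2, h3]
      ring
    | cons w l ih =>
      intro x y l' f hf
      simp only [List.cons_append, Vale.Agent.P269.act]
      rw [ih x y l' (fun J => f (w :: J)) (hf.cons w), mul_add]
      congr 1
      apply hT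
      intro z _
      exact hf (z :: l) x y l'
  intro l x y l'
  exact key l x y l' f hf

theorem SS.split {π : A → ℕ} {f g : List A → ℂ} (hf : SS π f) (hg : SS π g) :
    SS π (fun l => Vale.Agent.P269.split π l f g) := by
  have key : ∀ (l : List A) x y l' (f g : List A → ℂ), SS π f → SS π g →
      Vale.Agent.P269.split π (l ++ x :: y :: l') f g =
        (-1) ^ (π x * π y) * Vale.Agent.P269.split π (l ++ y :: x :: l') f g := by
    intro l
    induction l with
    | nil =>
      intro x y l' f g hf hg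
      simp only [List.nil_append, Vale.Agent.P269.split, mul_add]
      have e1 : Vale.Agent.P269.split π l' (fun I => f (x :: y :: I)) g =
          (-1) ^ (π x * π y) * Vale.Agent.P269.split π l' (fun I => f (y :: x :: I)) g := by
        rw [← split_smul_left]
        apply split_congr
        · intro I; exact hf [] x y I
        · intro J; rfl
      have e2 : Vale.Agent.P269.split π l' (fun I => (-1) ^ (π y * (I.map π).sum) * f (x :: I))
            (fun J => g (y :: J)) =
          (-1) ^ (π x * π y) * Vale.Agent.P269.split π l'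
            (fun I => (-1) ^ (π y * ((x :: I).map π).sum) * f (x :: I)) (fun J => g (y :: J)) := by
        rw [← split_smul_left]
        apply split_congr
        · intro I
          have : ((-1 : ℂ)) ^ (π x * π y) * (-1) ^ (π x * π y) = 1 := by
            rw [← mul_pow]; simp
          simp only [List.map_cons, List.sum_cons, mul_add, pow_add, mul_comm (π y) (π x)]
          linear_combination (-(-1 : ℂ) ^ (π y * (I.map π).sum) * f (x :: I)) * this
        · intro J; rfl
      have e3 : Vale.Agent.P269.split π l'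
            (fun I => (-1) ^ (π x * ((y :: I).map π).sum) * f (y :: I)) (fun J => g (x :: J)) =
          (-1) ^ (π x * π y) * Vale.Agent.P269.split π l'
            (fun I => (-1) ^ (π x * (I.map π).sum) * f (y :: I)) (fun J => g (x :: J)) := by
        rw [← split_smul_left]
        apply split_congr
        · intro I
          simp only [List.map_cons, List.sum_cons, mul_add, pow_add]
          ring
        · intro J; rfl
      have e4 : Vale.Agent.P269.split π l'
            (fun I => (-1) ^ (π y * (I.map π).sum) * ((-1) ^ (π x * (I.map π).sum) * f I))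
            (fun J => g (x :: y :: J)) =
          (-1) ^ (π x * π y) * Vale.Agent.P269.split π l'
            (fun I => (-1) ^ (π x * (I.map π).sum) * ((-1) ^ (π y * (I.map π).sum) * f I))
            (fun J => g (y :: x :: J)) := by
        rw [← split_smul_right]
        apply split_congr
        · intro I; ring
        · intro J; exact hg [] x y J
      rw [e1, e2, e3, e4]
      ring
    | cons w l ih =>
      intro x y l' f g hf hg
      simp only [List.cons_append, Vale.Agent.P269.split]
      rw [ih x y l' _ _ (hf.cons w) hg, ih x y l' _ _ (hf.sgn (π w)) (hg.cons w)]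
      ring
  intro l x y l'
  exact key l x y l' f g hf hg

theorem SS.add {π : A → ℕ} {f g : List A → ℂ} (hf : SS π f) (hg : SS π g) :
    SS π (fun l => f l + g l) := by
  intro l x y l'
  simp only
  rw [hf l x y l', hg l x y l']; ring

theorem SS.smul {π : A → ℕ} {f : List A → ℂ} (hf : SS π f) (c : ℂ) :
    SS π (fun l => c * f l) := by
  intro l x y l'
  simp only
  rw [hf l x y l']; ring

theorem SS.zero {π : A → ℕ} : SS π (fun _ : List A => (0 : ℂ)) := by
  intro l x y l'
  simp

theorem SS.sum {π : A → ℕ} {κ : Type} (s : Finset κ) {f : κ → List A → ℂ}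
    (hf : ∀ k ∈ s, SS π (f k)) : SS π (fun l => ∑ k ∈ s, f k l) := by
  intro l x y l'
  simp only
  rw [Finset.mul_sum]
  exact Finset.sum_congr rfl fun k hk => hf k hk l x y l'

end general

end Vale.Agent.P269
end
end

section

section

namespace Vale.Agent.P269

open Finset Polynomial

variable {ι B : Type} [Fintype ι] [DecidableEq ι] [AddCommMonoid B]

namespace Target

variable (X : Target ι B)

theorem R_apply (a b : ι) : X.R a b = ∑ x, X.γ x * X.cup x a b := by
  simp only [R, Matrix.sum_apply, Matrix.smul_apply, smul_eq_mul]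

theorem R_type (a b : ι) (h : X.R a b ≠ 0) : X.p b = X.p a + 1 ∧ X.q b = X.q a + 1 := by
  rw [R_apply] at h
  obtain ⟨x, _, hx⟩ := Finset.exists_ne_zero_of_sum_ne_zero h
  have h1 := X.γ_type x (left_ne_zero_of_mul hx)
  have h2 := X.cup_type x a b (right_ne_zero_of_mul hx)
  omega

theorem Rpow_type (i : ℕ) : ∀ (a b : ι), (X.R ^ i) a b ≠ 0 →
    X.p b = X.p a + i ∧ X.q b = X.q a + i := by
  induction i with
  | zero =>
    intro a b h
    rw [pow_zero] at h
    by_cases hab : a = b
    · subst hab; simp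
    · rw [Matrix.one_apply_ne hab] at h; exact absurd rfl h
  | succ i ih =>
    intro a b h
    rw [pow_succ, Matrix.mul_apply] at h
    obtain ⟨x, _, hx⟩ := Finset.exists_ne_zero_of_sum_ne_zero h
    have h1 := ih a x (left_ne_zero_of_mul hx)
    have h2 := X.R_type x b (right_ne_zero_of_mul hx)
    omega

theorem isUnit_det : IsUnit X.η.det := (Matrix.isUnit_iff_isUnit_det _).1 X.η_unit

theorem η_mul_inv : X.η * X.η⁻¹ = 1 := Matrix.mul_nonsing_inv _ X.isUnit_det

theorem inv_mul_η : X.η⁻¹ * X.η = 1 := Matrix.nonsing_inv_mul _ X.isUnit_det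

theorem inv_grade (f : ι → ℂ) (c : ℂ) (h : ∀ a b, X.η a b ≠ 0 → f a + f b = c)
    (a b : ι) (hab : X.η⁻¹ a b ≠ 0) : f a + f b = c := by
  have e1 : Matrix.diagonal f * X.η + X.η * Matrix.diagonal f = c • X.η := by
    ext a b
    simp only [Matrix.add_apply, Matrix.diagonal_mul, Matrix.mul_diagonal, Matrix.smul_apply,
      smul_eq_mul]
    by_cases h0 : X.η a b = 0
    · simp [h0]
    · rw [← h a b h0]; ring
  have e2 : X.η⁻¹ * Matrix.diagonal f + Matrix.diagonal f * X.η⁻¹ = c • X.η⁻¹ := by
    have := congrArg (fun M => X.η⁻¹ * M * X.η⁻¹) e1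
    simp only [Matrix.mul_add, Matrix.add_mul, Matrix.mul_smul, Matrix.smul_mul] at this
    have a1 : X.η⁻¹ * (Matrix.diagonal f * X.η) * X.η⁻¹ = X.η⁻¹ * Matrix.diagonal f := by
      rw [Matrix.mul_assoc, Matrix.mul_assoc, X.η_mul_inv, Matrix.mul_one]
    have a2 : X.η⁻¹ * (X.η * Matrix.diagonal f) * X.η⁻¹ = Matrix.diagonal f * X.η⁻¹ := by
      rw [← Matrix.mul_assoc, X.inv_mul_η, Matrix.one_mul]
    have a3 : X.η⁻¹ * X.η * X.η⁻¹ = X.η⁻¹ := by rw [X.inv_mul_η, Matrix.one_mul]
    rw [a1, a2, a3] at this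
    exact this
  have e3 := congrFun (congrFun e2 a) b
  simp only [Matrix.add_apply, Matrix.diagonal_mul, Matrix.mul_diagonal, Matrix.smul_apply,
    smul_eq_mul] at e3
  have e4 : (f a + f b - c) * X.η⁻¹ a b = 0 := by linear_combination e3
  rcases mul_eq_zero.1 e4 with h1 | h1
  · linear_combination h1
  · exact absurd h1 hab

theorem inv_type (a b : ι) (h : X.η⁻¹ a b ≠ 0) : X.p a + X.p b = X.r ∧ X.q a + X.q b = X.r := by
  constructor
  · have := X.inv_grade (fun a => (X.p a : ℂ)) X.r
      (fun a b h => by have := (X.η_type a b h).1; exact_mod_cast this) a b h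
    exact_mod_cast this
  · have := X.inv_grade (fun a => (X.q a : ℂ)) X.r
      (fun a b h => by have := (X.η_type a b h).2; exact_mod_cast this) a b h
    exact_mod_cast this

theorem inv_mul_Rpow_type (i : ℕ) (a b : ι) (h : (X.η⁻¹ * X.R ^ i) a b ≠ 0) :
    X.p a + X.p b = X.r + i ∧ X.q a + X.q b = X.r + i := by
  rw [Matrix.mul_apply] at h
  obtain ⟨x, _, hx⟩ := Finset.exists_ne_zero_of_sum_ne_zero h
  have h1 := X.inv_type a x (left_ne_zero_of_mul hx)
  have h2 := X.Rpow_type i x b (right_ne_zero_of_mul hx)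
  omega

theorem Rpow_mul_η_type (i : ℕ) (a b : ι) (h : (X.R ^ i * X.η) a b ≠ 0) :
    X.p a + X.p b + i = X.r ∧ X.q a + X.q b + i = X.r := by
  rw [Matrix.mul_apply] at h
  obtain ⟨x, _, hx⟩ := Finset.exists_ne_zero_of_sum_ne_zero h
  have h1 := X.Rpow_type i a x (left_ne_zero_of_mul hx)
  have h2 := X.η_type x b (right_ne_zero_of_mul hx)
  omega

theorem cup_right_unit (a b : ι) : X.cup a X.e b = if a = b then 1 else 0 := by
  rw [X.cup_comm, X.cup_unit, X.e_type.1, X.e_type.2]
  simp [Matrix.one_apply]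

theorem R_e (b : ι) : X.R X.e b = X.γ b := by
  rw [R_apply]
  simp [cup_right_unit]

/-- Cup product with an even class is self-adjoint. -/
theorem cup_adj (w : ι) (hw : (X.p w + X.q w) % 2 = 0) :
    X.cup w * X.η = X.η * (X.cup w).transpose := by
  ext a b
  simp only [Matrix.mul_apply, Matrix.transpose_apply]
  have h := X.η_frob a w b
  rw [← Finset.sum_congr rfl (fun x _ => mul_comm (X.cup w b x) (X.η a x)), ← h]
  refine Finset.sum_congr rfl fun x _ => ?_
  rw [X.cup_comm a w x]
  congr 1
  have : (X.p a + X.q a) * (X.p w + X.q w) % 2 = 0 := by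
    rw [Nat.mul_mod, hw]; simp
  rw [neg_one_pow_eq_pow_mod_two, this]; simp

theorem R_adj : X.R * X.η = X.η * X.R.transpose := by
  have e : X.R * X.η = ∑ a, X.γ a • (X.cup a * X.η) := by
    simp only [R, Finset.sum_mul, Matrix.smul_mul]
  have e' : X.η * X.R.transpose = ∑ a, X.γ a • (X.η * (X.cup a).transpose) := by
    simp only [R, Matrix.transpose_sum, Matrix.transpose_smul, Finset.mul_sum, Matrix.mul_smul]
  rw [e, e']
  refine Finset.sum_congr rfl fun a _ => ?_
  by_cases h : X.γ a = 0
  · simp [h]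
  · have h1 := X.γ_type a h
    rw [X.cup_adj a (by omega)]

theorem Rpow_adj (i : ℕ) : X.R ^ i * X.η = X.η * (X.R ^ i).transpose := by
  induction i with
  | zero => simp
  | succ i ih =>
    rw [pow_succ, Matrix.mul_assoc, X.R_adj, ← Matrix.mul_assoc, ih, Matrix.mul_assoc,
      ← Matrix.transpose_mul, ← pow_succ', pow_succ]

theorem Rpow_η_symm (i : ℕ) (a b : ι) : (X.R ^ i * X.η) a b =
    (-1) ^ ((X.p a + X.q a) * (X.p b + X.q b)) * (X.R ^ i * X.η) b a := by
  rw [X.Rpow_adj i]
  conv_rhs => rw [← X.Rpow_adj i]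
  rw [Matrix.mul_apply, Matrix.mul_apply, Finset.mul_sum]
  refine Finset.sum_congr rfl fun x _ => ?_
  rw [Matrix.transpose_apply]
  by_cases h : (X.R ^ i) b x = 0
  · simp [h]
  · have h1 := X.Rpow_type i b x h
    rw [X.η_comm a x, h1.1, h1.2]
    have : ((-1 : ℂ)) ^ ((X.p a + X.q a) * (X.p b + i + (X.q b + i))) =
        (-1) ^ ((X.p a + X.q a) * (X.p b + X.q b)) := by
      rw [show (X.p a + X.q a) * (X.p b + i + (X.q b + i)) =
        (X.p a + X.q a) * (X.p b + X.q b) + 2 * ((X.p a + X.q a) * i) by ring, pow_add, pow_mul]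
      simp
    rw [this]; ring

end Target

end Vale.Agent.P269
end
end

section

section

namespace Vale.Agent.P269

open Finset Polynomial

variable {ι B : Type} [Fintype ι] [DecidableEq ι] [AddCommMonoid B]
variable [DecidableEq B] [HasAntidiagonal B] {X : Target ι B}

theorem two_SS (X : Target ι B) {M : Matrix ι ι ℂ}
    (hM : ∀ a b, M a b = (-1) ^ ((X.p a + X.q a) * (X.p b + X.q b)) * M b a) :
    SS X.par (two M) := by
  intro l x y l'
  rcases l with _ | ⟨w, l⟩
  · rcases l' with _ | ⟨w, l'⟩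
    · obtain ⟨a, m⟩ := x
      obtain ⟨b, n⟩ := y
      simp only [List.nil_append, two_pair, Target.par]
      by_cases h : m = 0 ∧ n = 0
      · rw [if_pos h, if_pos h.symm]
        exact hM a b
      · rw [if_neg h, if_neg (fun h' => h h'.symm), mul_zero]
    · rw [two_zero_of_length (by simp), two_zero_of_length (by simp)]; simp
  · rw [two_zero_of_length (by simp; omega), two_zero_of_length (by simp; omega)]; simp

namespace GWTheory

variable (G : GWTheory X)

theorem F_SS (g : ℕ) (β : B) : SS X.par (G.F g β) := G.swap g β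

theorem quad_SS (g : ℕ) (β : B) (x y : ι × ℕ) : SS X.par (G.quad g β x y) := by
  unfold quad
  apply SS.add
  · by_cases h : g = 0
    · simp only [h, if_true]; exact SS.zero
    · simp only [h, if_false]
      exact ((G.F_SS (g - 1) β).cons x).cons y
  · apply SS.sum
    intro h _
    apply SS.sum
    intro b _
    apply SS.split
    · exact ((G.F_SS h.1 b.1).cons x).sgn (X.par y)
    · exact (G.F_SS h.2 b.2).cons y

/-- The one-insertion operator of `L_{K-1}`. -/
noncomputable def Lop (X : Target ι B) (K : ℕ) (x : ι × ℕ) (f : ι × ℕ → ℂ) : ℂ :=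
  ∑ i ∈ range (K + 1), if i < x.2 + K then br (X.μ x.1 + x.2 + 1 / 2) K i *
      ∑ b, (X.R ^ i) x.1 b * f (b, x.2 + K - 1 - i) else 0

theorem Lop_par (K : ℕ) (x : ι × ℕ) (φ ψ : ι × ℕ → ℂ) (c : ℂ)
    (h : ∀ y, X.par y % 2 = X.par x % 2 → φ y = c * ψ y) :
    Lop X K x φ = c * Lop X K x ψ := by
  unfold Lop
  rw [Finset.mul_sum]
  refine Finset.sum_congr rfl fun i _ => ?_
  split_ifs with hi
  · rw [mul_left_comm]
    congr 1
    rw [Finset.mul_sum]
    refine Finset.sum_congr rfl fun b _ => ?_
    by_cases hb : (X.R ^ i) x.1 b = 0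
    · simp [hb]
    · have h1 := X.Rpow_type i _ _ hb
      rw [h (b, x.2 + K - 1 - i) (by simp only [Target.par]; omega)]
      ring
  · simp

theorem vir_SS (K g : ℕ) (β : B) : SS X.par (G.vir K g β) := by
  unfold vir
  apply SS.add
  · apply SS.add
    · apply SS.add
      · apply SS.add
        · have : SS X.par (fun l => (-1) * ∑ i ∈ range (K + 1), br (X.μ X.e + 3 / 2) K i *
              ∑ b, (X.R ^ i) X.e b * G.F g β ((b, K - i) :: l)) := by
            apply SS.smul
            apply SS.sum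
            intro i _
            apply SS.smul
            apply SS.sum
            intro b _
            apply SS.smul
            exact (G.F_SS g β).cons _
          simpa using this
        · exact SS.act (T := Lop X K) (fun x φ ψ c h => Lop_par K x φ ψ c h) (G.F_SS g β)
      · apply SS.smul
        apply SS.sum
        intro m _
        apply SS.sum
        intro n _
        apply SS.sum
        intro i _
        by_cases h : m + n + i + 2 = K
        · simp only [h, if_true]
          apply SS.smul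
          apply SS.sum
          intro a _
          apply SS.sum
          intro b _
          apply SS.smul
          exact G.quad_SS _ _ _ _
        · simp only [h, if_false]; exact SS.zero
    · by_cases h : g = 0 ∧ β = 0
      · simp only [h]
        simp only [and_self, if_true]
        exact two_SS X (X.Rpow_η_symm K)
      · simp only [h, if_false]; exact SS.zero
  · have : (fun l : List (ι × ℕ) => if K = 1 ∧ g = 1 ∧ β = 0 ∧ l = [] then
        X.χ / 16 - X.strμ / 4 else 0) = fun l => if l = [] then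
        (if K = 1 ∧ g = 1 ∧ β = 0 then X.χ / 16 - X.strμ / 4 else 0) else 0 := by
      funext l
      by_cases h1 : l = [] <;> by_cases h2 : K = 1 ∧ g = 1 ∧ β = 0 <;> simp [h1, h2]
    rw [this]
    intro l x y l'
    simp

end GWTheory

end Vale.Agent.P269
end
end

section

section

namespace Vale.Agent.P269

open Finset Polynomial

variable {ι B : Type} [Fintype ι] [DecidableEq ι] [AddCommMonoid B]

section general

variable {A : Type}

theorem act_zero {T : A → (A → ℂ) → ℂ} {w : A → ℤ} {c : ℤ}
    (hT : ∀ x φ, (∀ y, w y = w x + c → φ y = 0) → T x φ = 0) (l : List A) :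
    ∀ (f : List A → ℂ), (∀ J, (J.map w).sum = (l.map w).sum + c → f J = 0) → act T l f = 0 := by
  induction l with
  | nil => intro f _; rfl
  | cons x l ih =>
    intro f hf
    simp only [act]
    rw [hT x (fun y => f (y :: l)) (fun y hy => hf _ (by simp [hy]; ring)),
      ih (fun J => f (x :: J)) (fun J hJ => hf _ (by simp [hJ]; ring)), add_zero]

theorem split_zero {π : A → ℕ} {w : A → ℤ} (l : List A) :
    ∀ (f g : List A → ℂ), (∀ I J, (I.map w).sum + (J.map w).sum = (l.map w).sum →
      f I = 0 ∨ g J = 0) → split π l f g = 0 := by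
  induction l with
  | nil =>
    intro f g h
    rcases h [] [] (by simp) with h | h <;> simp [split, h]
  | cons x l ih =>
    intro f g h
    simp only [split]
    rw [ih (fun I => f (x :: I)) g (fun I J hIJ => h _ _ (by simp [← hIJ]; ring)),
      ih _ (fun J => g (x :: J)) (fun I J hIJ => ?_), add_zero]
    rcases h I (x :: J) (by simp [← hIJ]; ring) with h | h
    · left; rw [h, mul_zero]
    · right; exact h

end general

variable [DecidableEq B] [HasAntidiagonal B] {X : Target ι B}

namespace GWTheory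

variable (G : GWTheory X)

theorem map_wt_sum (X : Target ι B) (l : List (ι × ℕ)) : (l.map X.wt).sum =
    (l.map fun x => (x.2 : ℤ) + X.p x.1).sum + (l.map fun x => (x.2 : ℤ) + X.q x.1).sum
      - 2 * l.length := by
  induction l with
  | nil => simp
  | cons x l ih =>
    simp only [List.map_cons, List.sum_cons, List.length_cons, ih, Target.wt]
    push_cast
    ring

theorem F_wt (g : ℕ) (β : B) (l : List (ι × ℕ)) (h : G.F g β l ≠ 0) :
    (l.map X.wt).sum = 2 * X.vdim g β := by
  have := G.dimension g β l h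
  rw [map_wt_sum, this.1, this.2]; ring

theorem quad_wt (g : ℕ) (β : B) (x y : ι × ℕ) (l : List (ι × ℕ)) (h : G.quad g β x y l ≠ 0) :
    X.wt x + X.wt y + (l.map X.wt).sum = 2 * (X.vdim g β + (X.r - 3)) := by
  by_contra hne
  apply h
  unfold quad
  have h1 : (if g = 0 then 0 else G.F (g - 1) β (x :: y :: l)) = 0 := by
    split_ifs with hg
    · rfl
    · by_contra h0
      have := G.F_wt _ _ _ h0
      apply hne
      simp only [List.map_cons, List.sum_cons, Target.vdim] at this ⊢
      rw [Nat.cast_sub (by omega)] at this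
      push_cast at this
      linear_combination this
  rw [h1, zero_add]
  refine Finset.sum_eq_zero fun u hu => Finset.sum_eq_zero fun b hb => ?_
  apply split_zero (w := X.wt)
  intro I J hIJ
  by_contra hc
  rw [not_or] at hc
  have c1 := G.F_wt _ _ _ (right_ne_zero_of_mul hc.1)
  have c2 := G.F_wt _ _ _ hc.2
  apply hne
  rw [HasAntidiagonal.mem_antidiagonal] at hu hb
  simp only [List.map_cons, List.sum_cons, Target.vdim] at c1 c2 ⊢
  rw [← hIJ, ← hu, ← hb, map_add]
  push_cast
  linear_combination c1 + c2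

theorem vir_wt (K g : ℕ) (β : B) (l : List (ι × ℕ)) (h : G.vir K g β l ≠ 0) :
    (l.map X.wt).sum = 2 * (X.vdim g β - K + 1) := by
  by_contra hne
  apply h
  unfold vir
  have h1 : ∑ i ∈ range (K + 1), br (X.μ X.e + 3 / 2) K i *
      ∑ b, (X.R ^ i) X.e b * G.F g β ((b, K - i) :: l) = 0 := by
    refine Finset.sum_eq_zero fun i hi => ?_
    apply mul_eq_zero_of_right
    refine Finset.sum_eq_zero fun b _ => ?_
    by_contra h0
    have a1 := X.Rpow_type i _ _ (left_ne_zero_of_mul h0)
    have a2 := G.F_wt _ _ _ (right_ne_zero_of_mul h0)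
    rw [mem_range] at hi
    apply hne
    simp only [List.map_cons, List.sum_cons, Target.wt] at a2 ⊢
    rw [a1.1, a1.2, X.e_type.1, X.e_type.2, Nat.cast_sub (by omega)] at a2
    push_cast at a2
    linear_combination a2
  have h2 : act (Lop X K) l (G.F g β) = 0 := by
    apply act_zero (w := X.wt) (c := 2 * ((K : ℤ) - 1))
    · intro x φ hφ
      unfold Lop
      refine Finset.sum_eq_zero fun i hi => ?_
      split_ifs with hi'
      · apply mul_eq_zero_of_right
        refine Finset.sum_eq_zero fun b _ => ?_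
        by_cases hb : (X.R ^ i) x.1 b = 0
        · rw [hb, zero_mul]
        · have a1 := X.Rpow_type i _ _ hb
          rw [hφ, mul_zero]
          simp only [Target.wt]
          rw [a1.1, a1.2, Nat.sub_sub, Nat.cast_sub (by omega)]
          push_cast
          ring
      · rfl
    · intro J hJ
      by_contra h0
      have := G.F_wt _ _ _ h0
      apply hne
      rw [hJ] at this
      linear_combination this
  have h3 : ∑ m ∈ range K, ∑ n ∈ range K, ∑ i ∈ range K, (if m + n + i + 2 = K then
      (-1) ^ (m + 1) * ∑ a, ∑ b, br (-X.μ a - m - 1 / 2) K i * (X.η⁻¹ * X.R ^ i) a b *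
        G.quad g β (a, m) (b, n) l else 0) = 0 := by
    refine Finset.sum_eq_zero fun m _ => Finset.sum_eq_zero fun n _ =>
      Finset.sum_eq_zero fun i _ => ?_
    split_ifs with hK
    · apply mul_eq_zero_of_right
      refine Finset.sum_eq_zero fun a _ => Finset.sum_eq_zero fun b _ => ?_
      by_contra h0
      have a1 := X.inv_mul_Rpow_type i _ _ (right_ne_zero_of_mul (left_ne_zero_of_mul h0))
      have a2 := G.quad_wt _ _ _ _ _ (right_ne_zero_of_mul h0)
      apply hne
      simp only [Target.wt] at a2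
      have b1 : (X.p a : ℤ) + X.p b = X.r + i := by exact_mod_cast a1.1
      have b2 : (X.q a : ℤ) + X.q b = X.r + i := by exact_mod_cast a1.2
      have b3 : (m : ℤ) + n + i + 2 = K := by exact_mod_cast hK
      linear_combination a2 - b1 - b2 - 2 * b3
    · rfl
  have h4 : (if g = 0 ∧ β = 0 then two (X.R ^ K * X.η) l else 0) = 0 := by
    split_ifs with h0
    · by_contra hc
      obtain ⟨a, b, rfl, hc'⟩ := two_ne hc
      have a1 := X.Rpow_mul_η_type K a b hc'
      apply hne
      have b1 : (X.p a : ℤ) + X.p b + K = X.r := by exact_mod_cast a1.1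
      have b2 : (X.q a : ℤ) + X.q b + K = X.r := by exact_mod_cast a1.2
      simp only [List.map_cons, List.sum_cons, List.map_nil, List.sum_nil, Target.wt,
        Target.vdim, h0.1, h0.2, map_zero]
      push_cast
      linear_combination b1 + b2
    · rfl
  have h5 : (if K = 1 ∧ g = 1 ∧ β = 0 ∧ l = [] then X.χ / 16 - X.strμ / 4 else 0) = 0 := by
    split_ifs with h0
    · exfalso
      apply hne
      simp only [h0.1, h0.2.1, h0.2.2.1, h0.2.2.2, Target.vdim, map_zero]
      simp
    · rfl
  have h2' : act (fun x f => ∑ i ∈ range (K + 1), if i < x.2 + K then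
      br (X.μ x.1 + x.2 + 1 / 2) K i *
      ∑ b, (X.R ^ i) x.1 b * f (b, x.2 + K - 1 - i) else 0) l (G.F g β) = 0 := h2
  rw [h1, h2', h3, h4, h5]
  simp

end GWTheory

end Vale.Agent.P269
end
end

section

section

namespace Vale.Agent.P269

open Finset Polynomial

variable {ι B : Type} [Fintype ι] [DecidableEq ι] [AddCommMonoid B]
variable [DecidableEq B] [HasAntidiagonal B] {X : Target ι B}

theorem br_zero (x : ℂ) : br x 0 0 = 1 := by simp [br]

theorem br_one_zero (x : ℂ) : br x 1 0 = x := by simp [br]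

theorem br_one_one (x : ℂ) : br x 1 1 = 1 := by
  simp [br, coeff_X]

theorem act_ext {A : Type} {T T' : A → (A → ℂ) → ℂ} (h : ∀ x φ, T x φ = T' x φ) (l : List A)
    (f : List A → ℂ) : act T l f = act T' l f := by
  have : T = T' := by funext x φ; exact h x φ
  rw [this]

theorem act_add_op {A : Type} (T T' : A → (A → ℂ) → ℂ) (l : List A) : ∀ (f : List A → ℂ),
    act (fun x φ => T x φ + T' x φ) l f = act T l f + act T' l f := by
  induction l with
  | nil => intro f; simp [act]
  | cons x l ih => intro f; simp only [act, ih]; ring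

/-- A diagonal operator acts by the sum of its eigenvalues. -/
theorem act_diag {A : Type} (u : A → ℂ) (l : List A) : ∀ (f : List A → ℂ),
    act (fun x φ => u x * φ x) l f = (l.map u).sum * f l := by
  induction l with
  | nil => intro f; simp [act]
  | cons x l ih => intro f; simp only [act, ih, List.map_cons, List.sum_cons]; ring

theorem act_sum_op {A κ : Type} (s : Finset κ) (c : κ → ℂ) (T : κ → A → (A → ℂ) → ℂ)
    (l : List A) : ∀ (f : List A → ℂ),
    act (fun x φ => ∑ k ∈ s, c k * T k x φ) l f = ∑ k ∈ s, c k * act (T k) l f := by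
  induction l with
  | nil => intro f; simp [act]
  | cons x l ih =>
    intro f; simp only [act, ih, mul_add, Finset.sum_add_distrib]

theorem lower_R (X : Target ι B) (x : ι × ℕ) (φ : ι × ℕ → ℂ) :
    lower X.R x φ = ∑ a, X.γ a * lower (X.cup a) x φ := by
  obtain ⟨b, m⟩ := x
  rcases m with _ | m
  · simp [lower]
  · simp only [lower, Nat.add_one_ne_zero, if_false, Target.R_apply, Finset.sum_mul,
      Finset.mul_sum]
    rw [Finset.sum_comm]
    refine Finset.sum_congr rfl fun a _ => Finset.sum_congr rfl fun y _ => ?_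
    ring

theorem two_R (X : Target ι B) (l : List (ι × ℕ)) :
    two (X.R * X.η) l = ∑ a, X.γ a * two (X.cup a * X.η) l := by
  unfold Target.R
  rw [Finset.sum_mul, two_sum]
  exact Finset.sum_congr rfl fun a _ => by rw [Matrix.smul_mul, two_smul]

namespace GWTheory

variable (G : GWTheory X)

theorem vir_zero (g : ℕ) (β : B) (l : List (ι × ℕ)) : G.vir 0 g β l = 0 := by
  have h1 : act (Lop X 0) l (G.F g β) = act (lower 1) l (G.F g β) := by
    apply act_ext
    intro x φ
    obtain ⟨a, m⟩ := x
    rcases m with _ | m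
    · simp [Lop, lower]
    · simp [Lop, lower, br_zero]
  have h2 : act (fun x f => ∑ i ∈ range (0 + 1), if i < x.2 + 0 then
      br (X.μ x.1 + x.2 + 1 / 2) 0 i *
      ∑ b, (X.R ^ i) x.1 b * f (b, x.2 + 0 - 1 - i) else 0) l (G.F g β) =
      act (lower 1) l (G.F g β) := h1
  unfold vir
  rw [h2]
  have := G.string g β l
  simp [br_zero, Matrix.one_apply, this]

/-- The divisor equation for `c_1(TX)`. -/
theorem divisor_c (g : ℕ) (β : B) (l : List (ι × ℕ)) : ∑ b, X.γ b * G.F g β ((b, 0) :: l) =
    X.c β * G.F g β l + act (lower X.R) l (G.F g β) +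
    (if g = 0 ∧ β = 0 then two (X.R * X.η) l else 0) +
    if g = 1 ∧ β = 0 ∧ l = [] then -(∑ a, X.γ a * X.t a) / 24 else 0 := by
  have h1 : act (lower X.R) l (G.F g β) = ∑ a, X.γ a * act (lower (X.cup a)) l (G.F g β) := by
    rw [act_ext (lower_R X), act_sum_op]
  have h2 : ∀ b, X.γ b * G.F g β ((b, 0) :: l) = X.γ b * (X.deg b β * G.F g β l +
      act (lower (X.cup b)) l (G.F g β) +
      (if g = 0 ∧ β = 0 then two (X.cup b * X.η) l else 0) +
      if g = 1 ∧ β = 0 ∧ l = [] then -X.t b / 24 else 0) := by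
    intro b
    by_cases hb : X.γ b = 0
    · simp [hb]
    · rw [G.divisor b (X.γ_type b hb)]
  rw [Finset.sum_congr rfl fun b _ => h2 b, h1, two_R, X.c_eq]
  simp only [mul_add, Finset.sum_add_distrib]
  congr 1
  · congr 1
    · congr 1
      rw [Finset.sum_mul]
      exact Finset.sum_congr rfl fun b _ => by ring
    · split_ifs <;> simp
  · split_ifs
    · rw [neg_div, Finset.sum_div, ← Finset.sum_neg_distrib]
      exact Finset.sum_congr rfl fun b _ => by ring
    · simp

theorem vir_one (g : ℕ) (β : B) (l : List (ι × ℕ)) : G.vir 1 g β l = 0 := by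
  have h1 : act (Lop X 1) l (G.F g β) =
      (l.map fun x => X.μ x.1 + x.2 + 1 / 2).sum * G.F g β l + act (lower X.R) l (G.F g β) := by
    rw [← act_diag, ← act_add_op]
    apply act_ext
    intro x φ
    obtain ⟨a, m⟩ := x
    rcases m with _ | m
    · simp [Lop, lower, Finset.sum_range_succ, br_one_zero, Matrix.one_apply]
    · simp [Lop, lower, Finset.sum_range_succ, br_one_zero, br_one_one, Matrix.one_apply]
  have h2 : act (fun x f => ∑ i ∈ range (1 + 1), if i < x.2 + 1 then
      br (X.μ x.1 + x.2 + 1 / 2) 1 i *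
      ∑ b, (X.R ^ i) x.1 b * f (b, x.2 + 1 - 1 - i) else 0) l (G.F g β) =
      (l.map fun x => X.μ x.1 + x.2 + 1 / 2).sum * G.F g β l + act (lower X.R) l (G.F g β) := h1
  have h3 : (l.map fun x : ι × ℕ => X.μ x.1 + x.2 + 1 / 2).sum * G.F g β l =
      ((X.vdim g β : ℂ) + l.length + l.length * (1 - X.r) / 2) * G.F g β l := by
    by_cases h0 : G.F g β l = 0
    · simp [h0]
    · congr 1
      have e : (l.map fun x : ι × ℕ => X.μ x.1 + x.2 + 1 / 2).sum =
          (((l.map fun x : ι × ℕ => (x.2 : ℤ) + X.p x.1).sum : ℤ) : ℂ) +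
            l.length * (1 - X.r) / 2 := by
        clear h0 h2 h1
        induction l with
        | nil => simp
        | cons x l ih =>
          rw [List.map_cons, List.sum_cons, List.length_cons, ih, List.map_cons, List.sum_cons,
            Int.cast_add, Target.μ]
          push_cast
          ring
      rw [e, (G.dimension g β l h0).1]
      push_cast
      ring
  have hLW := X.LW
  unfold vir
  rw [h2, h3]
  have e1 := G.divisor_c g β l
  have e2 := G.dilaton g β l
  simp only [Finset.sum_range_succ, Finset.sum_range_zero, zero_add, br_one_zero, br_one_one,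
    pow_zero, pow_one, Nat.sub_zero, Nat.sub_self, one_mul, X.R_e, e1]
  have e3 : ∑ b, (1 : Matrix ι ι ℂ) X.e b * G.F g β ((b, 1) :: l) = G.F g β ((X.e, 1) :: l) := by
    simp [Matrix.one_apply]
  rw [e3, e2]
  have e4 : X.strμ = X.r / 12 * X.χ + 1 / 6 * ∑ a, X.γ a * X.t a := by
    simp only [Target.strμ, Target.χ, Target.μ]; exact hLW
  have e5 : X.μ X.e = - X.r / 2 := by
    simp [Target.μ, X.e_type.1]; ring
  have e6 : (X.vdim g β : ℂ) = (1 - g) * (X.r - 3) + X.c β := by
    simp [Target.vdim]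
  rw [e4, e5, e6]
  by_cases c1 : g = 0 ∧ β = 0 <;> by_cases c2 : g = 1 ∧ β = 0 ∧ l = []
  · exact absurd c2.1 (by omega)
  · simp only [c1, c2, if_true, if_false]
    simp
    ring
  · have c3 : (1 : ℕ) = 1 ∧ g = 1 ∧ β = 0 ∧ l = [] := ⟨rfl, c2⟩
    simp only [c1, c2, if_true, if_false]
    simp
    ring
  · simp only [c1, c2, if_false]
    simp
    ring

end GWTheory

end Vale.Agent.P269
end
end

section

section

namespace Vale.Agent.P269

open Finset Polynomial

variable {ι B : Type} [Fintype ι] [DecidableEq ι] [AddCommMonoid B]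
variable [DecidableEq B] [HasAntidiagonal B] {X : Target ι B}

theorem split_count {A : Type} (π : A → ℕ) (l : List A) : ∀ (a b : ℂ) (f g : List A → ℂ),
    split π l (fun I => (a + I.length) * f I) g + split π l f (fun J => (b + J.length) * g J) =
      (a + b + l.length) * split π l f g := by
  induction l with
  | nil => intro a b f g; simp [split]; ring
  | cons x l ih =>
    intro a b f g
    simp only [split]
    have h1 := ih (a + 1) b (fun I => f (x :: I)) g
    have h2 := ih a (b + 1) (fun I => (-1) ^ (π x * (I.map π).sum) * f I) (fun J => g (x :: J))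
    have e1 : split π l (fun I => (a + ((x :: I).length : ℂ)) * f (x :: I)) g =
        split π l (fun I => (a + 1 + I.length) * f (x :: I)) g := by
      apply split_congr
      · intro I; simp only [List.length_cons]; push_cast; ring
      · intro J; rfl
    have e2 : split π l (fun I => (-1) ^ (π x * (I.map π).sum) * ((a + I.length) * f I))
        (fun J => g (x :: J)) =
        split π l (fun I => (a + I.length) * ((-1) ^ (π x * (I.map π).sum) * f I))
        (fun J => g (x :: J)) := by
      apply split_congr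
      · intro I; ring
      · intro J; rfl
    have e3 : split π l (fun I => (-1) ^ (π x * (I.map π).sum) * f I)
        (fun J => (b + ((x :: J).length : ℂ)) * g (x :: J)) =
        split π l (fun I => (-1) ^ (π x * (I.map π).sum) * f I)
        (fun J => (b + 1 + J.length) * g (x :: J)) := by
      apply split_congr
      · intro I; rfl
      · intro J; simp only [List.length_cons]; push_cast; ring
    rw [e1, e2, e3]
    simp only [List.length_cons]
    push_cast
    linear_combination h1 + h2

theorem Lop_smul (K : ℕ) (x : ι × ℕ) (c : ℂ) (φ : ι × ℕ → ℂ) :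
    GWTheory.Lop X K x (fun y => c * φ y) = c * GWTheory.Lop X K x φ :=
  GWTheory.Lop_par K x _ φ c (fun _ _ => rfl)

namespace GWTheory

variable (G : GWTheory X)

/-- `act` of `Lop` in the form used in `vir`. -/
theorem act_Lop (X : Target ι B) (K : ℕ) (l : List (ι × ℕ)) (f : List (ι × ℕ) → ℂ) :
    act (fun x f => ∑ i ∈ range (K + 1), if i < x.2 + K then
      br (X.μ x.1 + x.2 + 1 / 2) K i *
      ∑ b, (X.R ^ i) x.1 b * f (b, x.2 + K - 1 - i) else 0) l f = act (Lop X K) l f := rfl

theorem F_dil_cons (g : ℕ) (β : B) (y : ι × ℕ) (l : List (ι × ℕ)) :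
    G.F g β (y :: (X.e, 1) :: l) = (2 * g - 1 + l.length) * G.F g β (y :: l) := by
  have h := G.swap g β [] y (X.e, 1) l
  have hp : X.par (X.e, 1) = 0 := by simp [Target.par, X.e_type.1, X.e_type.2]
  simp only [List.nil_append, hp, mul_zero, pow_zero, one_mul] at h
  rw [h, G.dilaton]
  simp
  left
  ring

theorem quad_dil (g : ℕ) (β : B) (x y : ι × ℕ) (l : List (ι × ℕ)) :
    G.quad g β x y ((X.e, 1) :: l) = (2 * g - 2 + l.length) * G.quad g β x y l := by
  have hp : X.par (X.e, 1) = 0 := by simp [Target.par, X.e_type.1, X.e_type.2]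
  unfold quad
  rw [mul_add]
  congr 1
  · by_cases hg : g = 0
    · simp [hg]
    · simp only [hg, if_false]
      have h1 := G.swap (g - 1) β [x] y (X.e, 1) l
      simp only [hp, mul_zero, pow_zero, one_mul, List.cons_append, List.nil_append] at h1
      rw [h1, G.F_dil_cons (g - 1) β x (y :: l), Nat.cast_sub (by omega)]
      simp only [List.length_cons]
      push_cast
      ring
  · rw [Finset.mul_sum]
    refine Finset.sum_congr rfl fun u hu => ?_
    rw [Finset.mul_sum]
    refine Finset.sum_congr rfl fun b _ => ?_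
    rw [HasAntidiagonal.mem_antidiagonal] at hu
    simp only [split, hp, zero_mul, pow_zero, one_mul]
    have e1 : split X.par l (fun I => (-1) ^ (X.par y * (((X.e, 1) :: I).map X.par).sum) *
          G.F u.1 b.1 (x :: (X.e, 1) :: I)) (fun J => G.F u.2 b.2 (y :: J)) =
        split X.par l (fun I => ((2 * u.1 - 1 : ℂ) + I.length) *
          ((-1) ^ (X.par y * (I.map X.par).sum) * G.F u.1 b.1 (x :: I)))
          (fun J => G.F u.2 b.2 (y :: J)) := by
      apply split_congr
      · intro I
        rw [G.F_dil_cons]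
        simp only [List.map_cons, List.sum_cons, hp, zero_add]
        ring
      · intro J; rfl
    have e2 : split X.par l (fun I => (-1) ^ (X.par y * (I.map X.par).sum) *
          G.F u.1 b.1 (x :: I)) (fun J => G.F u.2 b.2 (y :: (X.e, 1) :: J)) =
        split X.par l (fun I => (-1) ^ (X.par y * (I.map X.par).sum) *
          G.F u.1 b.1 (x :: I))
          (fun J => ((2 * u.2 - 1 : ℂ) + J.length) * G.F u.2 b.2 (y :: J)) := by
      apply split_congr
      · intro I; rfl
      · intro J; rw [G.F_dil_cons]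
    rw [e1, e2, split_count]
    congr 1
    rw [← hu]
    push_cast
    ring

theorem vir_dilaton (K g : ℕ) (β : B) (l : List (ι × ℕ)) :
    G.vir K g β ((X.e, 1) :: l) = (2 * g - 2 + l.length) * G.vir K g β l := by
  have h1 : ∑ i ∈ range (K + 1), br (X.μ X.e + 3 / 2) K i *
      ∑ b, (X.R ^ i) X.e b * G.F g β ((b, K - i) :: (X.e, 1) :: l) = (2 * g - 1 + l.length) *
      ∑ i ∈ range (K + 1), br (X.μ X.e + 3 / 2) K i *
      ∑ b, (X.R ^ i) X.e b * G.F g β ((b, K - i) :: l) := by
    simp only [G.F_dil_cons, Finset.mul_sum]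
    refine Finset.sum_congr rfl fun i _ => Finset.sum_congr rfl fun b _ => ?_
    ring
  have h2 : Lop X K (X.e, 1) (fun y => G.F g β (y :: l)) = ∑ i ∈ range (K + 1),
      br (X.μ X.e + 3 / 2) K i * ∑ b, (X.R ^ i) X.e b * G.F g β ((b, K - i) :: l) := by
    unfold Lop
    refine Finset.sum_congr rfl fun i hi => ?_
    rw [mem_range] at hi
    have e1 : X.μ X.e + ((1 : ℕ) : ℂ) + 1 / 2 = X.μ X.e + 3 / 2 := by push_cast; ring
    have e2 : 1 + K - 1 - i = K - i := by omega
    have e3 : i < 1 + K := by omega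
    simp only [e1, e2, e3, if_true]
  have h3 : act (Lop X K) l (fun J => G.F g β ((X.e, 1) :: J)) =
      (2 * g - 2 + l.length) * act (Lop X K) l (G.F g β) := by
    rw [← act_smul (Lop X K) (fun x c φ => Lop_smul (X := X) K x c φ)]
    by_cases hl : l = []
    · rw [hl]; rfl
    · apply act_congr
      intro J hJ
      have hJ' : J ≠ [] := by
        intro h
        rw [h] at hJ
        exact hl (List.eq_nil_of_length_eq_zero hJ.symm)
      rw [G.dilaton, hJ]
      simp [hJ']
  have h4 : (if g = 0 ∧ β = 0 then two (X.R ^ K * X.η) ((X.e, 1) :: l) else 0) =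
      (2 * g - 2 + l.length) *
      (if g = 0 ∧ β = 0 then two (X.R ^ K * X.η) l else 0) := by
    split_ifs with h0
    · have e1 : two (X.R ^ K * X.η) ((X.e, 1) :: l) = 0 := two_succ _ _ _ _
      rw [e1]
      by_cases hl : l.length = 2
      · rw [hl, h0.1]; simp
      · rw [two_zero_of_length hl, mul_zero]
    · simp
  have h5 : (if K = 1 ∧ g = 1 ∧ β = 0 ∧ (X.e, 1) :: l = [] then X.χ / 16 - X.strμ / 4 else 0) =
      (2 * g - 2 + l.length) *
      (if K = 1 ∧ g = 1 ∧ β = 0 ∧ l = [] then X.χ / 16 - X.strμ / 4 else 0) := by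
    by_cases h0 : K = 1 ∧ g = 1 ∧ β = 0 ∧ l = []
    · simp [h0.2.1, h0.2.2.2]
    · simp [h0]
  have h6 : ∀ c : ℂ, ∑ m ∈ range K, ∑ n ∈ range K, ∑ i ∈ range K, (if m + n + i + 2 = K then
      (-1) ^ (m + 1) * ∑ a, ∑ b, br (-X.μ a - m - 1 / 2) K i * (X.η⁻¹ * X.R ^ i) a b *
        (c * G.quad g β (a, m) (b, n) l) else 0) = c *
      ∑ m ∈ range K, ∑ n ∈ range K, ∑ i ∈ range K, (if m + n + i + 2 = K then
      (-1) ^ (m + 1) * ∑ a, ∑ b, br (-X.μ a - m - 1 / 2) K i * (X.η⁻¹ * X.R ^ i) a b *
        G.quad g β (a, m) (b, n) l else 0) := by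
    intro c
    simp only [Finset.mul_sum, mul_ite, mul_zero]
    refine Finset.sum_congr rfl fun m _ => Finset.sum_congr rfl fun n _ =>
      Finset.sum_congr rfl fun i _ => ?_
    split_ifs
    · refine Finset.sum_congr rfl fun a _ => Finset.sum_congr rfl fun b _ => ?_
      ring
    · rfl
  unfold vir
  rw [act_Lop, act_Lop, h1, h4, h5, act, h2, h3]
  simp only [G.quad_dil]
  rw [h6]
  ring

end GWTheory

end Vale.Agent.P269
end
end

section

section

namespace Vale.Agent.P269

open Finset Polynomial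

variable {ι B : Type} [Fintype ι] [DecidableEq ι] [AddCommMonoid B]

theorem SS.front {A : Type} {π : A → ℕ} {f : List A → ℂ} (hf : SS π f) {x : A}
    (hx : π x % 2 = 0) : ∀ (l l' : List A), f (l ++ x :: l') = f (x :: (l ++ l')) := by
  intro l
  induction l using List.reverseRecOn with
  | nil => intro l'; rfl
  | append_singleton l y ih =>
    intro l'
    have h1 := hf l y x l'
    have h2 : ((-1 : ℂ)) ^ (π y * π x) = 1 := by
      rw [neg_one_pow_eq_pow_mod_two, Nat.mul_mod, hx]; simp
    rw [h2, one_mul] at h1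
    rw [List.append_assoc, List.singleton_append, h1, ih (y :: l')]
    simp

theorem act_eq_zero {A : Type} (T : A → (A → ℂ) → ℂ) (hT : ∀ x, T x (fun _ => 0) = 0)
    (l : List A) (f : List A → ℂ) (hf : ∀ J, J.length = l.length → f J = 0) :
    act T l f = 0 := by
  have h1 : act T l f = act T l (fun _ => 0) := act_congr T l _ _ hf
  rw [h1]
  clear h1 hf
  induction l with
  | nil => rfl
  | cons x l ih => simp only [act, hT, ih, add_zero]

theorem lower_zero (M : Matrix ι ι ℂ) (x : ι × ℕ) : lower M x (fun _ => 0) = 0 := by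
  obtain ⟨b, m⟩ := x
  rcases m with _ | m <;> simp [lower]

variable [DecidableEq B] [HasAntidiagonal B] {X : Target ι B}

namespace GWTheory

variable (G : GWTheory X)

/-- The string identity for the Virasoro coefficients. -/
def StringId : Prop := ∀ K g β l, G.vir (K + 1) g β ((X.e, 0) :: l) =
  act (lower 1) l (G.vir (K + 1) g β) + (K + 1) * G.vir K g β l

/-- The divisor identity for the Virasoro coefficients. -/
def DivId : Prop := ∀ a, X.p a = 1 ∧ X.q a = 1 → ∀ K g β l, G.vir K g β ((a, 0) :: l) =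
  X.deg a β * G.vir K g β l + act (lower (X.cup a)) l (G.vir K g β)

theorem wt_nonneg {x : ι × ℕ} (hx : x ≠ (X.e, 0)) : 0 ≤ X.wt x := by
  obtain ⟨a, m⟩ := x
  simp only [Target.wt]
  by_cases h : a = X.e
  · have : m ≠ 0 := by
      intro h0; exact hx (by rw [h, h0])
    omega
  · have := X.two_le a h
    omega

theorem sum_nonneg_of {A : Type} (w : A → ℤ) (l : List A) (h : ∀ x ∈ l, 0 ≤ w x) :
    0 ≤ (l.map w).sum := by
  apply List.sum_nonneg
  intro y hy
  rw [List.mem_map] at hy
  obtain ⟨x, hx, rfl⟩ := hy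
  exact h x hx

/-- If `L_{K-1}` holds at `(g, β)` and `K` exceeds the virtual dimension, then `L_K` holds. -/
theorem step_up (hS : G.StringId) (K g : ℕ) (β : B) (hK : ∀ l, G.vir K g β l = 0)
    (hv : X.vdim g β < K) : ∀ l, G.vir (K + 1) g β l = 0 := by
  have key : ∀ n : ℕ, ∀ l : List (ι × ℕ), l.length = n → G.vir (K + 1) g β l = 0 := by
    intro n
    induction n using Nat.strong_induction_on with
    | _ n ih =>
      intro l hl
      by_cases h : (X.e, 0) ∈ l
      · obtain ⟨s, t, rfl⟩ := List.append_of_mem h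
        have hp : X.par (X.e, 0) % 2 = 0 := by simp [Target.par, X.e_type.1, X.e_type.2]
        rw [(G.vir_SS (K + 1) g β).front hp, hS, hK, mul_zero, add_zero]
        apply act_eq_zero _ (lower_zero 1)
        intro J hJ
        exact ih J.length (by rw [hJ, ← hl]; simp) J rfl
      · by_contra h0
        have h1 := G.vir_wt _ _ _ _ h0
        have h2 := sum_nonneg_of X.wt l (fun x hx => wt_nonneg (X := X) (by
          rintro rfl; exact h hx))
        push_cast at h1
        omega
  intro l
  exact key l.length l rfl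

theorem step_down (hS : G.StringId) (K g : ℕ) (β : B) (hK : ∀ l, G.vir (K + 1) g β l = 0) :
    ∀ l, G.vir K g β l = 0 := by
  intro l
  have h := hS K g β l
  rw [hK, act_eq_zero _ (lower_zero 1) l _ (fun J _ => hK J), zero_add] at h
  have h1 : ((K : ℂ) + 1) ≠ 0 := by exact_mod_cast Nat.succ_ne_zero K
  rcases mul_eq_zero.1 h.symm with h2 | h2
  · exact absurd h2 h1
  · exact h2

theorem all_of_one (hS : G.StringId) (g : ℕ) (β : B) (V : ℕ) (hV : X.vdim g β ≤ V)
    (h : ∀ l, G.vir (V + 1) g β l = 0) : ∀ K l, G.vir K g β l = 0 := by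
  have down : ∀ j K, K + j = V + 1 → ∀ l, G.vir K g β l = 0 := by
    intro j
    induction j with
    | zero => intro K hK; rw [add_zero] at hK; rw [hK]; exact h
    | succ j ih =>
      intro K hK
      exact G.step_down hS K g β (ih (K + 1) (by omega))
  have up : ∀ j, ∀ l, G.vir (V + 1 + j) g β l = 0 := by
    intro j
    induction j with
    | zero => exact h
    | succ j ih => exact G.step_up hS (V + 1 + j) g β ih (by push_cast; omega)
  intro K
  by_cases hK : K ≤ V + 1
  · exact down (V + 1 - K) K (by omega)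
  · have := up (K - (V + 1))
    rwa [show V + 1 + (K - (V + 1)) = K by omega] at this

/-- Part (A): all constraints hold when the virtual dimension is nonpositive. -/
theorem range_theorem (hS : G.StringId) (g : ℕ) (β : B) (hv : X.vdim g β ≤ 0) :
    ∀ K l, G.vir K g β l = 0 :=
  G.all_of_one hS g β 0 (by exact_mod_cast hv) (by simpa using G.vir_one g β)

/-- Part (B): a single operator at each genus and class. -/
theorem single_operator (hS : G.StringId) (g : ℕ) (β : B) (V : ℕ) (hV : X.vdim g β = V) :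
    (∀ K l, G.vir K g β l = 0) ↔ ∀ l, G.vir (V + 1) g β l = 0 :=
  ⟨fun h l => h _ l, fun h => G.all_of_one hS g β V (le_of_eq hV) h⟩

/-- Part (C), core: the reduced list of scalar identities suffices. -/
theorem reduced (hS : G.StringId) (hD : G.DivId)
    (h2 : ∀ a, X.p a + X.q a = 2 → X.p a = 1 ∧ X.q a = 1) (g : ℕ) (β : B)
    (h : ∀ (k : ℕ) (l : List (ι × ℕ)), 1 ≤ k → (k : ℤ) ≤ X.vdim g β → (∀ x ∈ l, 1 ≤ X.wt x) →
      (l.map X.wt).sum = 2 * (X.vdim g β - k) → G.vir (k + 1) g β l = 0) :
    ∀ K l, G.vir K g β l = 0 := by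
  intro K
  induction K with
  | zero => exact G.vir_zero g β
  | succ K ihK =>
    rcases Nat.eq_zero_or_pos K with hK0 | hK0
    · subst hK0; exact G.vir_one g β
    · have key : ∀ n : ℕ, ∀ l : List (ι × ℕ), l.length = n → G.vir (K + 1) g β l = 0 := by
        intro n
        induction n using Nat.strong_induction_on with
        | _ n ih =>
          intro l hl
          have hlow : ∀ (M : Matrix ι ι ℂ) (t : List (ι × ℕ)), t.length < n →
              act (lower M) t (G.vir (K + 1) g β) = 0 := by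
            intro M t ht
            apply act_eq_zero _ (lower_zero M)
            intro J hJ
            exact ih J.length (by omega) J rfl
          by_cases h0 : (X.e, 0) ∈ l
          · obtain ⟨s, t, rfl⟩ := List.append_of_mem h0
            have hp : X.par (X.e, 0) % 2 = 0 := by simp [Target.par, X.e_type.1, X.e_type.2]
            rw [(G.vir_SS (K + 1) g β).front hp, hS, ihK, mul_zero, add_zero]
            exact hlow _ _ (by rw [← hl]; simp)
          · by_cases h1 : (X.e, 1) ∈ l
            · obtain ⟨s, t, rfl⟩ := List.append_of_mem h1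
              have hp : X.par (X.e, 1) % 2 = 0 := by simp [Target.par, X.e_type.1, X.e_type.2]
              rw [(G.vir_SS (K + 1) g β).front hp, G.vir_dilaton]
              rw [ih (s ++ t).length (by rw [← hl]; simp) _ rfl, mul_zero]
            · by_cases h3 : ∃ a, (X.p a = 1 ∧ X.q a = 1) ∧ (a, 0) ∈ l
              · obtain ⟨a, ha, hal⟩ := h3
                obtain ⟨s, t, rfl⟩ := List.append_of_mem hal
                have hp : X.par (a, 0) % 2 = 0 := by simp [Target.par, ha.1, ha.2]
                rw [(G.vir_SS (K + 1) g β).front hp, hD a ha]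
                rw [ih (s ++ t).length (by rw [← hl]; simp) _ rfl, mul_zero, zero_add]
                exact hlow _ _ (by rw [← hl]; simp)
              · have hw : ∀ x ∈ l, 1 ≤ X.wt x := by
                  intro x hx
                  obtain ⟨a, m⟩ := x
                  simp only [Target.wt]
                  by_cases ha : a = X.e
                  · subst ha
                    have m0 : m ≠ 0 := by rintro rfl; exact h0 hx
                    have m1 : m ≠ 1 := by rintro rfl; exact h1 hx
                    omega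
                  · have b1 := X.two_le a ha
                    by_cases hm : m = 0
                    · subst hm
                      have : X.p a + X.q a ≠ 2 := by
                        intro hc
                        exact h3 ⟨a, h2 a hc, hx⟩
                      omega
                    · omega
                by_contra hne
                have e1 := G.vir_wt _ _ _ _ hne
                push_cast at e1
                have e2 := sum_nonneg_of X.wt l (fun x hx => by have := hw x hx; omega)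
                exact hne (h K l hK0 (by omega) hw (by omega))
      intro l
      exact key l.length l rfl

end GWTheory

end Vale.Agent.P269
end
end

section

section

namespace Vale.Agent.P269

open Finset Polynomial

variable {ι B : Type} [Fintype ι] [DecidableEq ι] [AddCommMonoid B]

theorem finite_lists {A : Type} (s : Set A) (hs : s.Finite) (n : ℕ) :
    {l : List A | l.length ≤ n ∧ ∀ x ∈ l, x ∈ s}.Finite := by
  induction n with
  | zero =>
    apply (Set.finite_singleton ([] : List A)).subset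
    rintro l ⟨h, -⟩
    simpa using h
  | succ n ih =>
    apply ((Set.finite_singleton ([] : List A)).union
      (Set.Finite.image2 List.cons hs ih)).subset
    rintro l ⟨h, h'⟩
    rcases l with _ | ⟨x, l⟩
    · left; rfl
    · right
      exact ⟨x, h' x (by simp), l, ⟨by simpa using h, fun y hy => h' y (by simp [hy])⟩, rfl⟩

namespace Target

variable (X : Target ι B)

theorem length_le_wt (l : List (ι × ℕ)) (h : ∀ x ∈ l, 1 ≤ X.wt x) :
    (l.length : ℤ) ≤ (l.map X.wt).sum := by
  induction l with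
  | nil => simp
  | cons x l ih =>
    have h1 := h x (by simp)
    have h2 := ih (fun y hy => h y (by simp [hy]))
    simp only [List.length_cons, List.map_cons, List.sum_cons]
    push_cast
    omega

theorem wt_le_sum (l : List (ι × ℕ)) (h : ∀ x ∈ l, 1 ≤ X.wt x) (x : ι × ℕ) (hx : x ∈ l) :
    X.wt x ≤ (l.map X.wt).sum := by
  obtain ⟨s, t, rfl⟩ := List.append_of_mem hx
  have h1 := X.length_le_wt s (fun y hy => h y (by simp [hy]))
  have h2 := X.length_le_wt t (fun y hy => h y (by simp [hy]))
  simp only [List.map_append, List.map_cons, List.sum_append, List.sum_cons]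
  omega

theorem reducedSet_finite (g : ℕ) (β : B) : (X.reducedSet g β).Finite := by
  set V := (X.vdim g β).toNat with hV
  have hs : (Set.univ ×ˢ Set.Iic (V + 1) : Set (ι × ℕ)).Finite :=
    Set.finite_univ.prod (Set.finite_Iic _)
  apply ((Set.finite_Iic V).prod (finite_lists _ hs (2 * V))).subset
  rintro ⟨k, l⟩ ⟨h1, h2, h3, h4⟩
  simp only at h1 h2 h3 h4
  have hVz : (V : ℤ) = X.vdim g β := by rw [hV]; exact Int.toNat_of_nonneg (by omega)
  refine ⟨by simp only [Set.mem_Iic]; omega, ?_, ?_⟩
  · have := X.length_le_wt l h3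
    simp only
    omega
  · intro x hx
    refine ⟨trivial, ?_⟩
    have h5 := X.wt_le_sum l h3 x hx
    simp only [Target.wt, Set.mem_Iic] at h5 ⊢
    omega

end Target

end Vale.Agent.P269
end
end

section

section

namespace Vale.Agent.P269

open Finset Polynomial

section lists

variable {A : Type} (π : A → ℕ)

/-- Parity support of a function of lists. -/
def PL (s : ℕ) (f : List A → ℂ) : Prop := ∀ I, f I ≠ 0 → (I.map π).sum % 2 = s % 2

variable {π}

theorem PL.cons {s : ℕ} {f : List A → ℂ} (h : PL π s f) (x : A) :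
    PL π (s + π x) (fun I => f (x :: I)) := by
  intro I hI
  have := h (x :: I) hI
  simp only [List.map_cons, List.sum_cons] at this
  omega

theorem neg_one_pow_congr {a b : ℕ} (h : a % 2 = b % 2) : ((-1 : ℂ)) ^ a = (-1) ^ b := by
  rw [neg_one_pow_eq_pow_mod_two, h, ← neg_one_pow_eq_pow_mod_two]

theorem PL.sign {s : ℕ} {f : List A → ℂ} (h : PL π s f) (n : ℕ) (I : List A) :
    (-1) ^ (n * (I.map π).sum) * f I = (-1) ^ (n * s) * f I := by
  by_cases h0 : f I = 0
  · rw [h0, mul_zero, mul_zero]
  · rw [neg_one_pow_congr (a := n * (I.map π).sum) (b := n * s)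
      (by rw [Nat.mul_mod, h I h0, ← Nat.mul_mod])]

theorem split_add_left' (l : List A) : ∀ (f f' g : List A → ℂ),
    split π l (fun I => f I + f' I) g = split π l f g + split π l f' g := by
  induction l with
  | nil => intro f f' g; simp [split]; ring
  | cons x l ih =>
    intro f f' g
    simp only [split, mul_add, ih]; ring

theorem split_add_right' (l : List A) : ∀ (f g g' : List A → ℂ),
    split π l f (fun J => g J + g' J) = split π l f g + split π l f g' := by
  induction l with
  | nil => intro f g g'; simp [split]; ring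
  | cons x l ih =>
    intro f g g'
    simp only [split, ih]; ring

theorem split_zero_left' (l : List A) (g : List A → ℂ) : split π l (fun _ => 0) g = 0 := by
  have := split_smul_left π l 0 (fun _ => 0) g
  simpa using this

theorem split_zero_right' (l : List A) (f : List A → ℂ) : split π l f (fun _ => 0) = 0 := by
  have := split_smul_right π l 0 f (fun _ => 0)
  simpa using this

theorem split_sum_left' {κ : Type} (s : Finset κ) (l : List A) (f : κ → List A → ℂ)
    (g : List A → ℂ) :
    split π l (fun I => ∑ k ∈ s, f k I) g = ∑ k ∈ s, split π l (f k) g := by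
  classical
  induction s using Finset.induction_on with
  | empty => simp [split_zero_left']
  | insert k s hk ih =>
    simp only [Finset.sum_insert hk, split_add_left', ih]

theorem split_sum_right' {κ : Type} (s : Finset κ) (l : List A) (f : List A → ℂ)
    (g : κ → List A → ℂ) :
    split π l f (fun J => ∑ k ∈ s, g k J) = ∑ k ∈ s, split π l f (g k) := by
  classical
  induction s using Finset.induction_on with
  | empty => simp [split_zero_right']
  | insert k s hk ih =>
    simp only [Finset.sum_insert hk, split_add_right', ih]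

/-- Distributing the sign of a total list over a splitting. -/
theorem split_sign (n : ℕ) (l : List A) : ∀ (f g : List A → ℂ),
    (-1) ^ (n * (l.map π).sum) * split π l f g =
      split π l (fun I => (-1) ^ (n * (I.map π).sum) * f I)
        (fun J => (-1) ^ (n * (J.map π).sum) * g J) := by
  induction l with
  | nil => intro f g; simp [split]
  | cons x l ih =>
    intro f g
    simp only [split, List.map_cons, List.sum_cons, mul_add, pow_add]
    have e1 : split π l (fun I => (-1) ^ (n * π x) * (-1) ^ (n * (I.map π).sum) * f (x :: I))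
        (fun J => (-1) ^ (n * (J.map π).sum) * g J) =
        (-1) ^ (n * π x) * ((-1) ^ (n * (l.map π).sum) * split π l (fun I => f (x :: I)) g) := by
      rw [ih, ← split_smul_left]
      apply split_congr
      · intro I; ring
      · intro J; rfl
    have e2 : split π l
        (fun I => (-1) ^ (π x * (I.map π).sum) * ((-1) ^ (n * (I.map π).sum) * f I))
        (fun J => (-1) ^ (n * π x) * (-1) ^ (n * (J.map π).sum) * g (x :: J)) =
        (-1) ^ (n * π x) * ((-1) ^ (n * (l.map π).sum) *
          split π l (fun I => (-1) ^ (π x * (I.map π).sum) * f I) (fun J => g (x :: J))) := by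
      rw [ih, ← split_smul_right]
      apply split_congr
      · intro I; ring
      · intro J; ring
    rw [e1, e2]; ring

theorem split_assoc (l : List A) : ∀ (f g h : List A → ℂ),
    split π l (fun L => split π L f g) h = split π l f (fun M => split π M g h) := by
  induction l with
  | nil => intro f g h; simp [split]; ring
  | cons x l ih =>
    intro f g h
    simp only [split]
    rw [split_add_left', split_add_right', ih, ih]
    have e : split π l (fun L => (-1) ^ (π x * (L.map π).sum) * split π L f g)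
        (fun J => h (x :: J)) =
        split π l (fun I => (-1) ^ (π x * (I.map π).sum) * f I)
          (fun M => split π M (fun J => (-1) ^ (π x * (J.map π).sum) * g J)
            (fun J => h (x :: J))) := by
      rw [← ih]
      apply split_congr
      · intro L; exact split_sign (π x) L f g
      · intro J; rfl
    rw [e]; ring

theorem PL.split_cons {s : ℕ} {f : List A → ℂ} (hf : PL π s f) (g : List A → ℂ) (x : A)
    (l : List A) : split π (x :: l) f g =
      split π l (fun I => f (x :: I)) g + (-1) ^ (π x * s) * split π l f (fun J => g (x :: J)) := by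
  simp only [split]
  congr 1
  rw [← split_smul_left]
  apply split_congr
  · intro I; exact hf.sign (π x) I
  · intro J; rfl

theorem split_comm (l : List A) : ∀ (s t : ℕ) (f g : List A → ℂ), PL π s f → PL π t g →
    split π l f g = (-1) ^ (s * t) * split π l g f := by
  induction l with
  | nil =>
    intro s t f g hf hg
    simp only [split]
    by_cases h0 : f [] = 0
    · rw [h0]; ring
    · by_cases h1 : g [] = 0
      · rw [h1]; ring
      · have a := hf [] h0
        simp only [List.map_nil, List.sum_nil] at a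
        rw [neg_one_pow_congr (a := s * t) (b := 0) (by rw [Nat.mul_mod, ← a]; simp)]
        ring
  | cons x l ih =>
    intro s t f g hf hg
    rw [hf.split_cons, hg.split_cons, ih _ _ _ _ (hf.cons x) hg, ih _ _ _ _ hf (hg.cons x)]
    have : ((-1 : ℂ)) ^ (π x * t) * (-1) ^ (π x * t) = 1 := by rw [← mul_pow]; simp
    have h2 : ((-1 : ℂ)) ^ (π x * s) * (-1) ^ (s * π x) = 1 := by
      rw [mul_comm (π x) s, ← mul_pow]; simp
    rw [add_mul, mul_add s, pow_add, pow_add]
    linear_combination ((-1) ^ (s * t) * split π l (fun J => g (x :: J)) f) * h2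

/-- `Th l H` is the value at `l` of `∑ z, t^z * H z` where `t^z` is the coordinate of `z`. -/
def Th (π : A → ℕ) : List A → (A → List A → ℂ) → ℂ
  | [], _ => 0
  | x :: l, H => H x l + Th π l (fun z I => (-1) ^ (π x * π z) * H z (x :: I))

theorem Th_congr (l : List A) (H H' : A → List A → ℂ) (h : ∀ z I, H z I = H' z I) :
    Th π l H = Th π l H' := by
  have : H = H' := by funext z I; exact h z I
  rw [this]

theorem Th_add (l : List A) : ∀ (H H' : A → List A → ℂ),
    Th π l (fun z I => H z I + H' z I) = Th π l H + Th π l H' := by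
  induction l with
  | nil => intro H H'; simp [Th]
  | cons x l ih =>
    intro H H'
    simp only [Th, mul_add, ih]; ring

theorem Th_smul (l : List A) (c : ℂ) : ∀ (H : A → List A → ℂ),
    Th π l (fun z I => c * H z I) = c * Th π l H := by
  induction l with
  | nil => intro H; simp [Th]
  | cons x l ih =>
    intro H
    simp only [Th, mul_add]
    congr 1
    rw [← ih]
    apply Th_congr
    intro z I; ring

theorem Th_sign (n : ℕ) (l : List A) : ∀ (H : A → List A → ℂ),
    (-1) ^ (n * (l.map π).sum) * Th π l H =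
      Th π l (fun z I => (-1) ^ (n * π z) * ((-1) ^ (n * (I.map π).sum) * H z I)) := by
  induction l with
  | nil => intro H; simp [Th]
  | cons x l ih =>
    intro H
    simp only [Th, List.map_cons, List.sum_cons, mul_add, pow_add]
    congr 1
    · ring
    · rw [mul_assoc, ih, ← Th_smul]
      apply Th_congr
      intro z I
      ring

theorem Th_split_left (l : List A) : ∀ (G : A → List A → ℂ) (h : List A → ℂ),
    Th π l (fun z I => split π I (G z) h) = split π l (fun I => Th π I G) h := by
  induction l with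
  | nil => intro G h; simp [Th, split]
  | cons x l ih =>
    intro G h
    simp only [Th, split]
    rw [split_add_left']
    have e1 : split π l (fun I => Th π I (fun z I => (-1) ^ (π x * π z) * G z (x :: I))) h =
        Th π l (fun z I => (-1) ^ (π x * π z) * split π I (fun I => G z (x :: I)) h) := by
      rw [← ih]
      apply Th_congr
      intro z I
      exact split_smul_left π I _ _ _
    have e2 : split π l (fun I => (-1) ^ (π x * (I.map π).sum) * Th π I G)
        (fun J => h (x :: J)) =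
        Th π l (fun z I => (-1) ^ (π x * π z) *
          split π I (fun J => (-1) ^ (π x * (J.map π).sum) * G z J) (fun J => h (x :: J))) := by
      have : split π l (fun I => (-1) ^ (π x * (I.map π).sum) * Th π I G)
          (fun J => h (x :: J)) = split π l (fun I => Th π I (fun z J => (-1) ^ (π x * π z) *
            ((-1) ^ (π x * (J.map π).sum) * G z J))) (fun J => h (x :: J)) := by
        apply split_congr
        · intro I; exact Th_sign (π x) I G
        · intro J; rfl
      rw [this, ← ih]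
      apply Th_congr
      intro z I
      exact split_smul_left π I _ _ _
    rw [e1, e2, add_assoc, ← Th_add]
    congr 1
    apply Th_congr
    intro z I
    ring

theorem Th_split_right (l : List A) : ∀ (s : ℕ) (f : List A → ℂ) (H : A → List A → ℂ),
    PL π s f → split π l f (fun J => Th π J H) =
      Th π l (fun z I => (-1) ^ (π z * s) * split π I f (H z)) := by
  induction l with
  | nil => intro s f H hf; simp [Th, split]
  | cons x l ih =>
    intro s f H hf
    rw [hf.split_cons]
    simp only [Th]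
    rw [split_add_right', ih _ _ _ (hf.cons x), ih _ _ _ hf, mul_add, ← Th_smul]
    rw [← add_assoc, add_comm _ ((-1) ^ (π x * s) * split π l f (H x)), add_assoc, ← Th_add]
    congr 1
    apply Th_congr
    intro z I
    rw [hf.split_cons, split_smul_right, mul_add (π z), pow_add, mul_comm (π z) (π x)]
    ring

/-- Linear, parity-preserving one-insertion operator. -/
structure Op (π : A → ℕ) (T : A → (A → ℂ) → ℂ) : Prop where
  add : ∀ x φ ψ, T x (fun y => φ y + ψ y) = T x φ + T x ψ
  par : ∀ x φ ψ (c : ℂ), (∀ y, π y % 2 = π x % 2 → φ y = c * ψ y) → T x φ = c * T x ψ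

theorem Op.smul {T : A → (A → ℂ) → ℂ} (hT : Op π T) (x : A) (c : ℂ) (φ : A → ℂ) :
    T x (fun y => c * φ y) = c * T x φ := hT.par x _ _ c fun _ _ => rfl

theorem Op.zero {T : A → (A → ℂ) → ℂ} (hT : Op π T) (x : A) : T x (fun _ => 0) = 0 := by
  have := hT.smul x 0 (fun _ => 0)
  simpa using this

theorem Op.sum {T : A → (A → ℂ) → ℂ} (hT : Op π T) {κ : Type} (s : Finset κ) (x : A)
    (φ : κ → A → ℂ) : T x (fun y => ∑ k ∈ s, φ k y) = ∑ k ∈ s, T x (φ k) := by
  classical
  induction s using Finset.induction_on with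
  | empty => simpa using hT.zero x
  | insert k s hk ih =>
    simp only [Finset.sum_insert hk, hT.add, ih]

theorem Op.split {T : A → (A → ℂ) → ℂ} (hT : Op π T) (x : A) (l : List A) :
    ∀ (f : List A → ℂ) (g : A → List A → ℂ),
    Vale.Agent.P269.split π l f (fun J => T x (fun y => g y J)) =
      T x (fun y => Vale.Agent.P269.split π l f (g y)) := by
  induction l with
  | nil => intro f g; simp only [Vale.Agent.P269.split]; rw [← hT.smul]
  | cons w l ih =>
    intro f g
    simp only [Vale.Agent.P269.split]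
    rw [ih, ih _ (fun y J => g y (w :: J)), ← hT.add]

theorem Op.split_left {T : A → (A → ℂ) → ℂ} (hT : Op π T) (x : A) (l : List A) :
    ∀ (f : A → List A → ℂ) (g : List A → ℂ),
    Vale.Agent.P269.split π l (fun J => T x (fun y => f y J)) g =
      T x (fun y => Vale.Agent.P269.split π l (f y) g) := by
  induction l with
  | nil =>
    intro f g
    simp only [Vale.Agent.P269.split]
    rw [mul_comm, ← hT.smul]
    congr 1
    funext y; ring
  | cons w l ih =>
    intro f g
    simp only [Vale.Agent.P269.split]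
    rw [ih (fun y J => f y (w :: J)), hT.add, ← ih (fun y I =>
      (-1) ^ (π w * (I.map π).sum) * f y I)]
    congr 2
    funext I
    exact (hT.smul x _ _).symm

/-- `act` in terms of `Th`. -/
theorem act_eq_Th {T : A → (A → ℂ) → ℂ} (hT : Op π T) (l : List A) : ∀ (G : List A → ℂ),
    SS π G → act T l G = Th π l (fun z I => T z (fun y => G (y :: I))) := by
  induction l with
  | nil => intro G _; rfl
  | cons x l ih =>
    intro G hG
    simp only [act, Th]
    rw [ih _ (hG.cons x)]
    congr 1
    apply Th_congr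
    intro z I
    apply hT.par
    intro y hy
    have := hG [] x y I
    simp only [List.nil_append] at this
    rw [this]
    congr 1
    exact neg_one_pow_congr (by rw [Nat.mul_mod, hy, ← Nat.mul_mod])

/-- If all derivatives of `P` are `∑ f_i * (derivative of g_i)`, so is the image under a
derivation. -/
theorem act_of_deriv {T : A → (A → ℂ) → ℂ} (hT : Op π T) {κ : Type} (s : Finset κ)
    (P : List A → ℂ) (hP : SS π P) (f g : κ → List A → ℂ) (t : κ → ℕ) (hf : ∀ k ∈ s, PL π (t k) (f k))
    (hg : ∀ k ∈ s, SS π (g k))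
    (h : ∀ u I, P (u :: I) = ∑ k ∈ s, (-1) ^ (π u * t k) * split π I (f k) (fun J => g k (u :: J)))
    (l : List A) : act T l P = ∑ k ∈ s, split π l (f k) (fun J => act T J (g k)) := by
  rw [act_eq_Th hT l P hP]
  have e1 : ∀ k ∈ s, split π l (f k) (fun J => act T J (g k)) =
      Th π l (fun z I => (-1) ^ (π z * t k) *
        split π I (f k) (fun J => T z (fun y => g k (y :: J)))) := by
    intro k hk
    rw [← Th_split_right l (t k) (f k) _ (hf k hk)]
    apply split_congr
    · intro I; rfl
    · intro J; exact act_eq_Th hT J (g k) (hg k hk)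
  rw [Finset.sum_congr rfl e1]
  have e2 : ∀ (H : κ → A → List A → ℂ), ∑ k ∈ s, Th π l (H k) =
      Th π l (fun z I => ∑ k ∈ s, H k z I) := by
    classical
    intro H
    clear h e1 hf hg
    induction s using Finset.induction_on with
    | empty =>
      have := Th_smul (π := π) l 0 (fun _ _ => 0)
      simpa using this.symm
    | insert k s hk ih =>
      simp only [Finset.sum_insert hk, Th_add, ih]
  rw [e2]
  apply Th_congr
  intro z I
  have e3 : ∀ y, P (y :: I) = ∑ k ∈ s, (-1) ^ (π y * t k) *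
      split π I (f k) (fun J => g k (y :: J)) := fun y => h y I
  have e4 : T z (fun y => P (y :: I)) = T z (fun y => ∑ k ∈ s, (-1) ^ (π y * t k) *
      split π I (f k) (fun J => g k (y :: J))) := by
    congr 1; funext y; exact e3 y
  rw [e4, hT.sum]
  refine Finset.sum_congr rfl fun k _ => ?_
  rw [hT.split z I (f k) (fun y J => g k (y :: J))]
  apply hT.par
  intro y hy
  rw [neg_one_pow_congr (a := π y * t k) (b := π z * t k)
    (by rw [Nat.mul_mod, hy, ← Nat.mul_mod])]

end lists

end Vale.Agent.P269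
end
end

section

section

namespace Vale.Agent.P269

open Finset Polynomial

section series

variable {A B : Type} [AddCommMonoid B] [DecidableEq B] [HasAntidiagonal B]

/-- Product of series in the Novikov variables and the insertion variables. -/
def star (π : A → ℕ) (f g : B → List A → ℂ) : B → List A → ℂ :=
  fun β l => ∑ b ∈ antidiagonal β, split π l (f b.1) (g b.2)

/-- The unit series. -/
def unitS (A B : Type) [AddCommMonoid B] [DecidableEq B] : B → List A → ℂ :=
  fun β l => if β = 0 ∧ l.length = 0 then 1 else 0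

variable {π : A → ℕ}

theorem star_congr {f f' g g' : B → List A → ℂ} (h1 : ∀ β I, f β I = f' β I)
    (h2 : ∀ β J, g β J = g' β J) (β : B) (l : List A) : star π f g β l = star π f' g' β l := by
  have e1 : f = f' := by funext β I; exact h1 β I
  have e2 : g = g' := by funext β I; exact h2 β I
  rw [e1, e2]

theorem star_add_left (f f' g : B → List A → ℂ) (β : B) (l : List A) :
    star π (fun β I => f β I + f' β I) g β l = star π f g β l + star π f' g β l := by
  simp only [star, split_add_left', Finset.sum_add_distrib]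

theorem star_add_right (f g g' : B → List A → ℂ) (β : B) (l : List A) :
    star π f (fun β J => g β J + g' β J) β l = star π f g β l + star π f g' β l := by
  simp only [star, split_add_right', Finset.sum_add_distrib]

theorem star_smul_left (c : ℂ) (f g : B → List A → ℂ) (β : B) (l : List A) :
    star π (fun β I => c * f β I) g β l = c * star π f g β l := by
  simp only [star, split_smul_left, Finset.mul_sum]

theorem star_smul_right (c : ℂ) (f g : B → List A → ℂ) (β : B) (l : List A) :
    star π f (fun β J => c * g β J) β l = c * star π f g β l := by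
  simp only [star, split_smul_right, Finset.mul_sum]

theorem star_sum_left {κ : Type} (s : Finset κ) (f : κ → B → List A → ℂ) (g : B → List A → ℂ)
    (β : B) (l : List A) :
    star π (fun β I => ∑ k ∈ s, f k β I) g β l = ∑ k ∈ s, star π (f k) g β l := by
  simp only [star, split_sum_left']
  rw [Finset.sum_comm]

theorem star_sum_right {κ : Type} (s : Finset κ) (f : B → List A → ℂ) (g : κ → B → List A → ℂ)
    (β : B) (l : List A) :
    star π f (fun β J => ∑ k ∈ s, g k β J) β l = ∑ k ∈ s, star π f (g k) β l := by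
  simp only [star, split_sum_right']
  rw [Finset.sum_comm]

theorem sum_anti_assoc (φ : B → B → B → ℂ) (β : B) :
    ∑ b ∈ antidiagonal β, ∑ c ∈ antidiagonal b.1, φ c.1 c.2 b.2 =
      ∑ b ∈ antidiagonal β, ∑ c ∈ antidiagonal b.2, φ b.1 c.1 c.2 := by
  rw [Finset.sum_sigma', Finset.sum_sigma']
  apply Finset.sum_nbij' (fun ⟨⟨_i, j⟩, ⟨k, l⟩⟩ ↦ ⟨(k, l + j), (l, j)⟩)
    (fun ⟨⟨i, _j⟩, ⟨k, l⟩⟩ ↦ ⟨(i + k, l), (i, k)⟩) <;> aesop (add simp [add_assoc])

theorem star_assoc (f g h : B → List A → ℂ) (β : B) (l : List A) :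
    star π (star π f g) h β l = star π f (star π g h) β l := by
  have e1 : star π (star π f g) h β l = ∑ b ∈ antidiagonal β, ∑ c ∈ antidiagonal b.1,
      split π l (fun L => split π L (f c.1) (g c.2)) (h b.2) := by
    refine Finset.sum_congr rfl fun b _ => ?_
    exact split_sum_left' (antidiagonal b.1) l (fun c L => split π L (f c.1) (g c.2)) (h b.2)
  have e2 : star π f (star π g h) β l = ∑ b ∈ antidiagonal β, ∑ c ∈ antidiagonal b.2,
      split π l (f b.1) (fun M => split π M (g c.1) (h c.2)) := by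
    refine Finset.sum_congr rfl fun b _ => ?_
    exact split_sum_right' (antidiagonal b.2) l (f b.1) (fun c M => split π M (g c.1) (h c.2))
  rw [e1, e2, sum_anti_assoc (fun x y z => split π l (fun L => split π L (f x) (g y)) (h z))]
  refine Finset.sum_congr rfl fun b _ => Finset.sum_congr rfl fun c _ => ?_
  exact split_assoc l _ _ _

theorem split_unit_left (l : List A) (g : List A → ℂ) :
    split π l (fun I => if I.length = 0 then 1 else 0) g = g l := by
  induction l generalizing g with
  | nil => simp [split]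
  | cons x l ih =>
    simp only [split]
    have e1 : split π l (fun I => if (x :: I).length = 0 then (1 : ℂ) else 0) g = 0 := by
      have e0 : (fun I => if (x :: I).length = 0 then (1 : ℂ) else 0) = fun _ => 0 := by
        funext I; simp
      rw [e0]
      exact split_zero_left' l g
    have e2 : split π l (fun I => (-1) ^ (π x * (I.map π).sum) *
        (if I.length = 0 then (1 : ℂ) else 0)) (fun J => g (x :: J)) =
        split π l (fun I => if I.length = 0 then 1 else 0) (fun J => g (x :: J)) := by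
      apply split_congr
      · intro I
        by_cases hI : I.length = 0
        · have : I = [] := List.eq_nil_of_length_eq_zero hI
          simp [this]
        · simp [hI]
      · intro J; rfl
    rw [e1, e2, ih, zero_add]

theorem star_unit_left (h : B → List A → ℂ) (β : B) (l : List A) :
    star π (unitS A B) h β l = h β l := by
  unfold star unitS
  rw [Finset.sum_eq_single (0, β)]
  · simp only [true_and]
    exact split_unit_left l (h β)
  · intro b hb hne
    have hb1 : b.1 ≠ 0 := by
      intro h0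
      apply hne
      rw [HasAntidiagonal.mem_antidiagonal, h0, zero_add] at hb
      exact Prod.ext h0 hb
    simp only [hb1, false_and, if_false]
    exact split_zero_left' l _
  · intro hn
    exact absurd (HasAntidiagonal.mem_antidiagonal.2 (by simp)) hn

/-- Parity support of a series. -/
def PS (π : A → ℕ) (s : ℕ) (f : B → List A → ℂ) : Prop := ∀ β, PL π s (f β)

/-- Graded symmetry of a series. -/
def SSS (π : A → ℕ) (f : B → List A → ℂ) : Prop := ∀ β, SS π (f β)

theorem star_comm {s t : ℕ} {f g : B → List A → ℂ} (hf : PS π s f) (hg : PS π t g)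
    (β : B) (l : List A) : star π f g β l = (-1) ^ (s * t) * star π g f β l := by
  unfold star
  rw [Finset.mul_sum]
  refine Finset.sum_nbij' Prod.swap Prod.swap ?_ ?_ ?_ ?_ ?_
  · intro b hb
    rw [HasAntidiagonal.mem_antidiagonal] at hb ⊢
    rw [← hb, Prod.fst_swap, Prod.snd_swap, add_comm]
  · intro b hb
    rw [HasAntidiagonal.mem_antidiagonal] at hb ⊢
    rw [← hb, Prod.fst_swap, Prod.snd_swap, add_comm]
  · intro b _; rfl
  · intro b _; rfl
  · intro b _
    exact split_comm l s t _ _ (hf _) (hg _)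

theorem PS.star_cons {s : ℕ} {f : B → List A → ℂ} (hf : PS π s f) (g : B → List A → ℂ)
    (β : B) (x : A) (l : List A) : Vale.Agent.P269.star π f g β (x :: l) =
      Vale.Agent.P269.star π (fun β I => f β (x :: I)) g β l +
      (-1) ^ (π x * s) * Vale.Agent.P269.star π f (fun β J => g β (x :: J)) β l := by
  unfold Vale.Agent.P269.star
  rw [Finset.mul_sum, ← Finset.sum_add_distrib]
  exact Finset.sum_congr rfl fun b _ => (hf b.1).split_cons (g b.2) x l

theorem act_star_right {T : A → (A → ℂ) → ℂ} (hT : Op π T) {κ : Type} (s : Finset κ)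
    (P : B → List A → ℂ) (hP : SSS π P) (f g : κ → B → List A → ℂ) (t : κ → ℕ)
    (hf : ∀ k ∈ s, PS π (t k) (f k)) (hg : ∀ k ∈ s, SSS π (g k))
    (h : ∀ u β I, P β (u :: I) = ∑ k ∈ s, (-1) ^ (π u * t k) *
      star π (f k) (fun β J => g k β (u :: J)) β I)
    (β : B) (l : List A) :
    act T l (P β) = ∑ k ∈ s, star π (f k) (fun β J => act T J (g k β)) β l := by
  unfold star
  rw [Finset.sum_sigma' s (fun _ => antidiagonal β)]
  refine act_of_deriv hT (s.sigma fun _ => antidiagonal β) (P β) (hP β)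
    (fun k => f k.1 k.2.1) (fun k => g k.1 k.2.2) (fun k => t k.1) ?_ ?_ ?_ l
  · intro k hk
    rw [Finset.mem_sigma] at hk
    exact hf k.1 hk.1 k.2.1
  · intro k hk
    rw [Finset.mem_sigma] at hk
    exact hg k.1 hk.1 k.2.2
  · intro u I
    rw [h u β I, Finset.sum_sigma]
    refine Finset.sum_congr rfl fun k _ => ?_
    rw [star, Finset.mul_sum]

end series

end Vale.Agent.P269
end
end

section

section

namespace Vale.Agent.P269

open Finset Polynomial

section General

variable {A : Type}

/-- `T` is at each point a finite combination of evaluations. -/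
def Fin' (T : A → (A → ℂ) → ℂ) : Prop :=
  ∃ w : A → (A →₀ ℂ), ∀ x f, T x f = (w x).sum fun y c => c * f y

/-- `T` is a finite combination of evaluations, and preserves the parity `π`. -/
def Ev (π : A → ℕ) (T : A → (A → ℂ) → ℂ) : Prop :=
  ∃ w : A → (A →₀ ℂ), (∀ x f, T x f = (w x).sum fun y c => c * f y) ∧
    ∀ x y, w x y ≠ 0 → ((-1 : ℂ)) ^ π y = (-1) ^ π x

theorem Ev.fin {π : A → ℕ} {T : A → (A → ℂ) → ℂ} (h : Ev π T) : Fin' T := by
  obtain ⟨w, hw, -⟩ := h
  exact ⟨w, hw⟩

theorem Fin'.add {T : A → (A → ℂ) → ℂ} (h : Fin' T) (x : A) (f g : A → ℂ) :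
    T x (fun y => f y + g y) = T x f + T x g := by
  obtain ⟨w, hw⟩ := h
  simp only [hw, Finsupp.sum, mul_add, Finset.sum_add_distrib]

theorem Fin'.smul {T : A → (A → ℂ) → ℂ} (h : Fin' T) (x : A) (c : ℂ) (f : A → ℂ) :
    T x (fun y => c * f y) = c * T x f := by
  obtain ⟨w, hw⟩ := h
  simp only [hw, Finsupp.sum, Finset.mul_sum]
  exact Finset.sum_congr rfl fun y _ => by ring

theorem Fin'.zero {T : A → (A → ℂ) → ℂ} (h : Fin' T) (x : A) :
    T x (fun _ => 0) = 0 := by
  obtain ⟨w, hw⟩ := h
  simp [hw, Finsupp.sum]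

theorem Fin'.sum {T : A → (A → ℂ) → ℂ} (h : Fin' T) (x : A) {κ : Type} (s : Finset κ)
    (f : κ → A → ℂ) : T x (fun y => ∑ k ∈ s, f k y) = ∑ k ∈ s, T x (f k) := by
  obtain ⟨w, hw⟩ := h
  simp only [hw, Finsupp.sum, Finset.mul_sum]
  rw [Finset.sum_comm]

theorem Fin'.comm {T S : A → (A → ℂ) → ℂ} (hT : Fin' T) (hS : Fin' S) (x z : A)
    (f : A → A → ℂ) : T x (fun y => S z (fun w => f y w)) = S z (fun w => T x (fun y => f y w)) := by
  obtain ⟨w, hw⟩ := hT
  obtain ⟨v, hv⟩ := hS
  simp only [hw, hv, Finsupp.sum, Finset.mul_sum]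
  rw [Finset.sum_comm]
  exact Finset.sum_congr rfl fun _ _ => Finset.sum_congr rfl fun _ _ => by ring

@[simp] theorem act_nil (T : A → (A → ℂ) → ℂ) (f : List A → ℂ) : act T [] f = 0 := rfl

theorem act_cons (T : A → (A → ℂ) → ℂ) (x : A) (l : List A) (f : List A → ℂ) :
    act T (x :: l) f = T x (fun y => f (y :: l)) + act T l (fun J => f (x :: J)) := rfl

theorem act_add {T : A → (A → ℂ) → ℂ} (hT : Fin' T) (l : List A) (f g : List A → ℂ) :
    act T l (fun J => f J + g J) = act T l f + act T l g := by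
  induction l generalizing f g with
  | nil => simp
  | cons x l ih =>
    simp only [act_cons]
    rw [hT.add x (fun y => f (y :: l)) (fun y => g (y :: l)), ih]
    ring

theorem act_smulC {T : A → (A → ℂ) → ℂ} (hT : Fin' T) (l : List A) (c : ℂ) (f : List A → ℂ) :
    act T l (fun J => c * f J) = c * act T l f := by
  induction l generalizing f with
  | nil => simp
  | cons x l ih =>
    simp only [act_cons]
    rw [hT.smul x c (fun y => f (y :: l)), ih]
    ring

theorem act_zeroC {T : A → (A → ℂ) → ℂ} (hT : Fin' T) (l : List A) :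
    act T l (fun _ => 0) = 0 := by
  have := act_smulC hT l 0 (fun _ => 0)
  simpa using this

theorem act_sum {T : A → (A → ℂ) → ℂ} (hT : Fin' T) (l : List A) {κ : Type} (s : Finset κ)
    (f : κ → List A → ℂ) :
    act T l (fun J => ∑ k ∈ s, f k J) = ∑ k ∈ s, act T l (f k) := by
  induction l generalizing f with
  | nil => simp
  | cons x l ih =>
    simp only [act_cons]
    rw [hT.sum x s (fun k y => f k (y :: l)), ih, Finset.sum_add_distrib]

/-- An operator at one position commutes with `act`. -/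
theorem act_exch {T S : A → (A → ℂ) → ℂ} (hT : Fin' T) (hS : Fin' S) (x : A) (l : List A)
    (f : A → List A → ℂ) :
    T x (fun y => act S l (fun J => f y J)) = act S l (fun J => T x (fun y => f y J)) := by
  induction l generalizing f with
  | nil => simp [hT.zero]
  | cons z l ih =>
    simp only [act_cons]
    rw [hT.add x (fun y => S z (fun w => f y (w :: l))) (fun y => act S l (fun J => f y (z :: J))),
      ih, hT.comm hS]

theorem act_comm {T S : A → (A → ℂ) → ℂ} (hT : Fin' T) (hS : Fin' S) (l : List A)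
    (f : List A → ℂ) :
    act T l (fun J => act S J f) = act S l (fun J => act T J f) +
      act (fun x φ => T x (fun y => S y φ) - S x (fun y => T y φ)) l f := by
  induction l generalizing f with
  | nil => simp
  | cons x l ih =>
    simp only [act_cons]
    rw [hT.add x (fun y => S y (fun z => f (z :: l))) (fun y => act S l (fun J => f (y :: J))),
      hS.add x (fun y => T y (fun z => f (z :: l))) (fun y => act T l (fun J => f (y :: J))),
      act_exch hT hS, act_exch hS hT, act_add hT, act_add hS, ih]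
    ring

theorem act_congrC {T S : A → (A → ℂ) → ℂ} (h : ∀ x f, T x f = S x f) (l : List A)
    (f : List A → ℂ) : act T l f = act S l f := by
  induction l generalizing f with
  | nil => rfl
  | cons x l ih => simp only [act_cons, h, ih]

theorem act_add' {T S : A → (A → ℂ) → ℂ} (l : List A) (f : List A → ℂ) :
    act (fun x φ => T x φ + S x φ) l f = act T l f + act S l f := by
  induction l generalizing f with
  | nil => simp
  | cons x l ih => simp only [act_cons, ih]; ring

theorem act_smul' {T : A → (A → ℂ) → ℂ} (c : ℂ) (l : List A) (f : List A → ℂ) :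
    act (fun x φ => c * T x φ) l f = c * act T l f := by
  induction l generalizing f with
  | nil => simp
  | cons x l ih => simp only [act_cons, ih]; ring

/-- Only the values of `f` on lists of the same length as `l` matter. -/
theorem act_congr_fun {T : A → (A → ℂ) → ℂ} (l : List A) (f g : List A → ℂ)
    (h : ∀ J : List A, J.length = l.length → f J = g J) : act T l f = act T l g := by
  induction l generalizing f g with
  | nil => rfl
  | cons x l ih =>
    simp only [act_cons]
    congr 1
    · congr 1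
      funext y
      exact h _ (by simp)
    · exact ih _ _ fun J hJ => h _ (by simp [hJ])

theorem neg_one_pow_mul_congr {a b : ℕ} (k : ℕ) (h : ((-1 : ℂ)) ^ a = (-1) ^ b) :
    ((-1 : ℂ)) ^ (k * a) = (-1) ^ (k * b) := by
  rw [mul_comm k a, mul_comm k b, pow_mul, pow_mul, h]

/-- Parity preserving operators commute with sign twists. -/
theorem act_sign {π : A → ℕ} {T : A → (A → ℂ) → ℂ} (hT : Ev π T) (k : ℕ) (l : List A)
    (f : List A → ℂ) :
    act T l (fun J => (-1) ^ (k * (J.map π).sum) * f J) =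
      (-1) ^ (k * (l.map π).sum) * act T l f := by
  induction l generalizing f with
  | nil => simp
  | cons x l ih =>
    simp only [act_cons, List.map_cons, List.sum_cons]
    have h1 : T x (fun y => (-1 : ℂ) ^ (k * (π y + (l.map π).sum)) * f (y :: l)) =
        (-1) ^ (k * (π x + (l.map π).sum)) * T x (fun y => f (y :: l)) := by
      obtain ⟨w, hw, hπ⟩ := hT
      simp only [hw, Finsupp.sum, Finset.mul_sum]
      refine Finset.sum_congr rfl fun y hy => ?_
      have := hπ x y (Finsupp.mem_support_iff.1 hy)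
      have h2 : ((-1 : ℂ)) ^ (k * (π y + (l.map π).sum)) = (-1) ^ (k * (π x + (l.map π).sum)) :=
        neg_one_pow_mul_congr k (by rw [pow_add, pow_add, this])
      rw [h2]
      ring
    rw [h1]
    have h3 : act T l (fun J => (-1 : ℂ) ^ (k * (π x + (J.map π).sum)) * f (x :: J)) =
        (-1) ^ (k * (π x + (l.map π).sum)) * act T l (fun J => f (x :: J)) := by
      have : (fun J : List A => (-1 : ℂ) ^ (k * (π x + (J.map π).sum)) * f (x :: J)) =
          fun J => (-1 : ℂ) ^ (k * (J.map π).sum) * ((-1) ^ (k * π x) * f (x :: J)) := by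
        funext J
        rw [mul_add, pow_add]; ring
      rw [this, ih, act_smulC hT.fin, mul_add, pow_add]
      ring
    rw [h3]
    ring

@[simp] theorem split_nil (π : A → ℕ) (f g : List A → ℂ) : split π [] f g = f [] * g [] := rfl

theorem split_cons (π : A → ℕ) (x : A) (l : List A) (f g : List A → ℂ) :
    split π (x :: l) f g = split π l (fun I => f (x :: I)) g +
      split π l (fun I => (-1) ^ (π x * (I.map π).sum) * f I) (fun J => g (x :: J)) := rfl

theorem split_add_left (π : A → ℕ) (l : List A) (f f' g : List A → ℂ) :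
    split π l (fun I => f I + f' I) g = split π l f g + split π l f' g := by
  induction l generalizing f f' g with
  | nil => simp [add_mul]
  | cons x l ih =>
    simp only [split_cons]
    rw [ih]
    have : (fun I : List A => (-1 : ℂ) ^ (π x * (I.map π).sum) * (f I + f' I)) =
      fun I => (-1 : ℂ) ^ (π x * (I.map π).sum) * f I +
        (-1 : ℂ) ^ (π x * (I.map π).sum) * f' I := by funext I; ring
    rw [this, ih]
    ring

theorem split_add_right (π : A → ℕ) (l : List A) (f g g' : List A → ℂ) :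
    split π l f (fun I => g I + g' I) = split π l f g + split π l f g' := by
  induction l generalizing f g g' with
  | nil => simp [mul_add]
  | cons x l ih =>
    simp only [split_cons]
    rw [ih, ih]
    ring

theorem split_smul_leftC (π : A → ℕ) (l : List A) (c : ℂ) (f g : List A → ℂ) :
    split π l (fun I => c * f I) g = c * split π l f g := by
  induction l generalizing f g with
  | nil => simp [mul_assoc]
  | cons x l ih =>
    simp only [split_cons]
    rw [ih]
    have : (fun I : List A => (-1 : ℂ) ^ (π x * (I.map π).sum) * (c * f I)) =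
      fun I => c * ((-1 : ℂ) ^ (π x * (I.map π).sum) * f I) := by funext I; ring
    rw [this, ih]
    ring

theorem split_smul_rightC (π : A → ℕ) (l : List A) (c : ℂ) (f g : List A → ℂ) :
    split π l f (fun I => c * g I) = c * split π l f g := by
  induction l generalizing f g with
  | nil => simp; ring
  | cons x l ih =>
    simp only [split_cons]
    rw [ih, ih]
    ring

theorem split_zero_left (π : A → ℕ) (l : List A) (g : List A → ℂ) :
    split π l (fun _ => 0) g = 0 := by
  have := split_smul_leftC π l 0 (fun _ => 0) g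
  simpa using this

theorem split_zero_right (π : A → ℕ) (l : List A) (f : List A → ℂ) :
    split π l f (fun _ => 0) = 0 := by
  have := split_smul_rightC π l 0 f (fun _ => 0)
  simpa using this

theorem split_sum_left (π : A → ℕ) (l : List A) {κ : Type} (s : Finset κ)
    (f : κ → List A → ℂ) (g : List A → ℂ) :
    split π l (fun I => ∑ k ∈ s, f k I) g = ∑ k ∈ s, split π l (f k) g := by
  classical
  induction s using Finset.induction_on with
  | empty => simp [split_zero_left]
  | insert k s hk ih =>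
    simp only [Finset.sum_insert hk]
    rw [split_add_left, ih]

theorem split_sum_right (π : A → ℕ) (l : List A) {κ : Type} (s : Finset κ)
    (f : List A → ℂ) (g : κ → List A → ℂ) :
    split π l f (fun I => ∑ k ∈ s, g k I) = ∑ k ∈ s, split π l f (g k) := by
  classical
  induction s using Finset.induction_on with
  | empty => simp [split_zero_right]
  | insert k s hk ih =>
    simp only [Finset.sum_insert hk]
    rw [split_add_right, ih]

theorem split_T_left (π : A → ℕ) {T : A → (A → ℂ) → ℂ} (hT : Fin' T) (x : A) (l : List A)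
    (f : A → List A → ℂ) (g : List A → ℂ) :
    split π l (fun I => T x (fun y => f y I)) g = T x (fun y => split π l (f y) g) := by
  obtain ⟨w, hw⟩ := hT
  simp only [hw, Finsupp.sum]
  rw [split_sum_left]
  exact Finset.sum_congr rfl fun y _ => split_smul_leftC _ _ _ _ _

theorem split_T_right (π : A → ℕ) {T : A → (A → ℂ) → ℂ} (hT : Fin' T) (x : A) (l : List A)
    (f : List A → ℂ) (g : A → List A → ℂ) :
    split π l f (fun I => T x (fun y => g y I)) = T x (fun y => split π l f (g y)) := by
  obtain ⟨w, hw⟩ := hT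
  simp only [hw, Finsupp.sum]
  rw [split_sum_right]
  exact Finset.sum_congr rfl fun y _ => split_smul_rightC _ _ _ _ _

/-- Leibniz rule. -/
theorem act_split {π : A → ℕ} {T : A → (A → ℂ) → ℂ} (hT : Ev π T) (l : List A)
    (f g : List A → ℂ) :
    act T l (fun L => split π L f g) =
      split π l (fun I => act T I f) g + split π l f (fun J => act T J g) := by
  induction l generalizing f g with
  | nil => simp
  | cons x l ih =>
    simp only [act_cons, split_cons]
    have h1 : T x (fun y => split π l (fun I => f (y :: I)) g +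
        split π l (fun I => (-1) ^ (π y * (I.map π).sum) * f I) (fun J => g (y :: J))) =
        split π l (fun I => T x (fun y => f (y :: I))) g +
        split π l (fun I => (-1) ^ (π x * (I.map π).sum) * f I)
          (fun J => T x (fun y => g (y :: J))) := by
      rw [hT.fin.add x (fun y => split π l (fun I => f (y :: I)) g)
        (fun y => split π l (fun I => (-1) ^ (π y * (I.map π).sum) * f I) (fun J => g (y :: J))),
        split_T_left π hT.fin, split_T_right π hT.fin]
      congr 1
      obtain ⟨w, hw, hπ⟩ := hT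
      simp only [hw, Finsupp.sum]
      refine Finset.sum_congr rfl fun y hy => ?_
      have h2 := hπ x y (Finsupp.mem_support_iff.1 hy)
      congr 2
      funext I
      rw [mul_comm (π y), mul_comm (π x), neg_one_pow_mul_congr _ h2]
    rw [h1, act_add hT.fin, ih, ih, split_add_left]
    have h4 : (fun I : List A => (-1 : ℂ) ^ (π x * (I.map π).sum) * act T I f) =
        fun I => act T I (fun J => (-1 : ℂ) ^ (π x * (J.map π).sum) * f J) := by
      funext I
      rw [act_sign hT]
    rw [h4, split_add_right]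
    ring

end General

end Vale.Agent.P269
end
end

section

section

namespace Vale.Agent.P269

open Finset Polynomial Matrix

variable {ι B : Type} [Fintype ι] [DecidableEq ι] [AddCommMonoid B]

namespace Target

variable (X : Target ι B)

theorem μ_eq_iff {a b : ι} {k : ℕ} : X.μ b = X.μ a + k ↔ X.p b = X.p a + k := by
  unfold μ
  constructor
  · intro h
    have : (X.p b : ℂ) = (X.p a + k : ℕ) := by push_cast; linear_combination h
    exact_mod_cast this
  · intro h
    rw [h]; push_cast; ring

theorem sgn_sq (n : ℕ) : ((-1 : ℂ)) ^ n * (-1) ^ n = 1 := by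
  rw [← mul_pow]; norm_num

theorem R_applyC (a b : ι) : X.R a b = ∑ x, X.γ x * X.cup x a b := by
  unfold R
  rw [Matrix.sum_apply]
  simp [Matrix.smul_apply]

theorem R_typeC {a b : ι} (h : X.R a b ≠ 0) : X.p b = X.p a + 1 ∧ X.q b = X.q a + 1 := by
  rw [R_applyC] at h
  obtain ⟨x, -, hx⟩ := Finset.exists_ne_zero_of_sum_ne_zero h
  have h1 := X.γ_type x (left_ne_zero_of_mul hx)
  have h2 := X.cup_type x a b (right_ne_zero_of_mul hx)
  omega

theorem Rpow_typeC {i : ℕ} : ∀ {a b : ι}, (X.R ^ i) a b ≠ 0 → X.p b = X.p a + i ∧ X.q b = X.q a + i := by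
  induction i with
  | zero =>
    intro a b h
    rw [pow_zero, Matrix.one_apply] at h
    split_ifs at h with hab
    · subst hab; simp
    · exact absurd rfl h
  | succ i ih =>
    intro a b h
    rw [pow_succ, Matrix.mul_apply] at h
    obtain ⟨x, -, hx⟩ := Finset.exists_ne_zero_of_sum_ne_zero h
    have h1 := ih (left_ne_zero_of_mul hx)
    have h2 := X.R_typeC (right_ne_zero_of_mul hx)
    omega

theorem even_comm {a : ι} (ha : Even (X.p a + X.q a)) (b x : ι) : X.cup a b x = X.cup b a x := by
  rw [X.cup_comm a b x]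
  have : ((-1 : ℂ)) ^ ((X.p a + X.q a) * (X.p b + X.q b)) = 1 := (ha.mul_right _).neg_one_pow
  rw [this, one_mul]

theorem cup_mul_comm {a b : ι} (ha : Even (X.p a + X.q a)) :
    X.cup a * X.cup b = X.cup b * X.cup a := by
  ext c y
  rw [Matrix.mul_apply, Matrix.mul_apply]
  rw [← X.cup_assoc b a c y, ← X.cup_assoc a b c y]
  exact Finset.sum_congr rfl fun x _ => by rw [X.even_comm ha]

theorem cup_R_comm {a : ι} (ha : Even (X.p a + X.q a)) : X.cup a * X.R = X.R * X.cup a := by
  unfold R
  rw [Finset.mul_sum, Finset.sum_mul]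
  exact Finset.sum_congr rfl fun x _ => by
    rw [Matrix.mul_smul, Matrix.smul_mul, X.cup_mul_comm ha]

theorem cup_adjC {a : ι} (ha : Even (X.p a + X.q a)) : X.cup a * X.η = X.η * (X.cup a)ᵀ := by
  ext b c
  rw [Matrix.mul_apply, Matrix.mul_apply]
  simp only [Matrix.transpose_apply]
  have h1 : ∑ x, X.cup a b x * X.η x c = ∑ x, X.cup b a x * X.η x c :=
    Finset.sum_congr rfl fun x _ => by rw [X.even_comm ha]
  rw [h1, X.η_frob b a c]
  exact Finset.sum_congr rfl fun x _ => mul_comm _ _

theorem γ_even {a : ι} (h : X.γ a ≠ 0) : Even (X.p a + X.q a) := by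
  obtain ⟨h1, h2⟩ := X.γ_type a h
  rw [h1, h2]
  exact ⟨1, rfl⟩

theorem R_adjC : X.R * X.η = X.η * X.Rᵀ := by
  unfold R
  rw [Finset.sum_mul, Matrix.transpose_sum, Finset.mul_sum]
  refine Finset.sum_congr rfl fun x _ => ?_
  rw [Matrix.smul_mul, Matrix.transpose_smul, Matrix.mul_smul]
  by_cases h : X.γ x = 0
  · rw [h]; simp
  · rw [X.cup_adjC (X.γ_even h)]

theorem Rpow_adjC (i : ℕ) : X.R ^ i * X.η = X.η * (X.R ^ i)ᵀ := by
  induction i with
  | zero => simp
  | succ i ih =>
    calc X.R ^ (i + 1) * X.η = X.R ^ i * (X.R * X.η) := by rw [pow_succ, Matrix.mul_assoc]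
      _ = X.R ^ i * X.η * X.Rᵀ := by rw [X.R_adjC, Matrix.mul_assoc]
      _ = X.η * (X.R * X.R ^ i)ᵀ := by rw [ih, Matrix.mul_assoc, Matrix.transpose_mul]
      _ = X.η * (X.R ^ (i + 1))ᵀ := by rw [pow_succ']

theorem det_unit : IsUnit X.η.det := (Matrix.isUnit_iff_isUnit_det _).1 X.η_unit

theorem η_mul_invC : X.η * X.η⁻¹ = 1 := Matrix.mul_nonsing_inv _ X.det_unit

theorem inv_mul_ηC : X.η⁻¹ * X.η = 1 := Matrix.nonsing_inv_mul _ X.det_unit

/-- If `D η = c η D'` for diagonal matrices then the same relation holds for the inverse. -/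
theorem inv_diag (f g : ι → ℂ) (h : ∀ a b, f a * X.η a b = g b * X.η a b) :
    ∀ a b, g a * X.η⁻¹ a b = f b * X.η⁻¹ a b := by
  have h1 : Matrix.diagonal f * X.η = X.η * Matrix.diagonal g := by
    ext a b
    rw [Matrix.diagonal_mul, Matrix.mul_diagonal, h, mul_comm]
  have h2 : X.η⁻¹ * Matrix.diagonal f = Matrix.diagonal g * X.η⁻¹ := by
    calc X.η⁻¹ * Matrix.diagonal f = X.η⁻¹ * Matrix.diagonal f * (X.η * X.η⁻¹) := by
          rw [X.η_mul_invC, Matrix.mul_one]
      _ = X.η⁻¹ * (Matrix.diagonal f * X.η) * X.η⁻¹ := by simp only [Matrix.mul_assoc]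
      _ = X.η⁻¹ * X.η * Matrix.diagonal g * X.η⁻¹ := by rw [h1]; simp only [Matrix.mul_assoc]
      _ = Matrix.diagonal g * X.η⁻¹ := by rw [X.inv_mul_ηC, Matrix.one_mul]
  intro a b
  have h3 := congrFun (congrFun h2 a) b
  rw [Matrix.mul_diagonal, Matrix.diagonal_mul] at h3
  rw [← h3, mul_comm]

theorem inv_typeC {a b : ι} (h : X.η⁻¹ a b ≠ 0) : X.p a + X.p b = X.r ∧ X.q a + X.q b = X.r := by
  constructor
  · have h1 := X.inv_diag (fun a => (X.p a : ℂ)) (fun b => (X.r : ℂ) - X.p b) (by
      intro a b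
      by_cases h : X.η a b = 0
      · simp [h]
      · have := (X.η_type a b h).1
        have h2 : (X.p a : ℂ) + X.p b = X.r := by exact_mod_cast this
        have h3 : (X.p a : ℂ) = X.r - X.p b := by linear_combination h2
        simp only [h3]) a b
    have h2 := mul_right_cancel₀ h h1
    have h3 : (X.p a : ℂ) + X.p b = X.r := by linear_combination -h2
    exact_mod_cast h3
  · have h1 := X.inv_diag (fun a => (X.q a : ℂ)) (fun b => (X.r : ℂ) - X.q b) (by
      intro a b
      by_cases h : X.η a b = 0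
      · simp [h]
      · have := (X.η_type a b h).2
        have h2 : (X.q a : ℂ) + X.q b = X.r := by exact_mod_cast this
        have h3 : (X.q a : ℂ) = X.r - X.q b := by linear_combination h2
        simp only [h3]) a b
    have h2 := mul_right_cancel₀ h h1
    have h3 : (X.q a : ℂ) + X.q b = X.r := by linear_combination -h2
    exact_mod_cast h3

/-- The sign of a basis element. -/
noncomputable def sg (a : ι) : ℂ := (-1) ^ (X.p a + X.q a)

theorem sg_sq (a : ι) : X.sg a * X.sg a = 1 := sgn_sq _

theorem η_sg {a b : ι} (h : X.η a b ≠ 0) : X.sg a = X.sg b := by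
  obtain ⟨h1, h2⟩ := X.η_type a b h
  unfold sg
  have h3 : X.p a + X.q a + (X.p b + X.q b) = 2 * X.r := by omega
  have h4 : ((-1 : ℂ)) ^ (X.p a + X.q a) * (-1) ^ (X.p b + X.q b) = 1 := by
    rw [← pow_add, h3, pow_mul]; norm_num
  have h5 := sgn_sq (X.p b + X.q b)
  calc ((-1 : ℂ)) ^ (X.p a + X.q a) = (-1) ^ (X.p a + X.q a) * ((-1) ^ (X.p b + X.q b) *
        (-1) ^ (X.p b + X.q b)) := by rw [h5, mul_one]
    _ = _ := by rw [← mul_assoc, h4, one_mul]

theorem sg_of_add_even {a b : ι} (h : Even (X.p a + X.q a + (X.p b + X.q b))) :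
    X.sg a = X.sg b := by
  unfold sg
  have h4 : ((-1 : ℂ)) ^ (X.p a + X.q a) * (-1) ^ (X.p b + X.q b) = 1 := by
    rw [← pow_add]; exact h.neg_one_pow
  have h5 := sgn_sq (X.p b + X.q b)
  calc ((-1 : ℂ)) ^ (X.p a + X.q a) = (-1) ^ (X.p a + X.q a) * ((-1) ^ (X.p b + X.q b) *
        (-1) ^ (X.p b + X.q b)) := by rw [h5, mul_one]
    _ = _ := by rw [← mul_assoc, h4, one_mul]

theorem inv_sg {a b : ι} (h : X.η⁻¹ a b ≠ 0) : X.sg a = X.sg b := by
  obtain ⟨h1, h2⟩ := X.inv_typeC h
  exact X.sg_of_add_even ⟨X.r, by omega⟩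

theorem Rpow_sg {i : ℕ} {a b : ι} (h : (X.R ^ i) a b ≠ 0) : X.sg a = X.sg b := by
  obtain ⟨h1, h2⟩ := X.Rpow_typeC h
  exact X.sg_of_add_even ⟨X.p a + X.q a + i, by omega⟩

theorem sg_mul {a b : ι} (h : X.sg a = X.sg b) :
    ((-1 : ℂ)) ^ ((X.p a + X.q a) * (X.p b + X.q b)) = X.sg b := by
  unfold sg at *
  rw [pow_mul, h, ← pow_mul]
  rcases Nat.even_or_odd (X.p b + X.q b) with h1 | h1
  · rw [h1.neg_one_pow, (h1.mul_right _).neg_one_pow]
  · rw [h1.neg_one_pow, (h1.mul h1).neg_one_pow]

/-- Graded symmetry of the pairing. -/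
theorem η_swap (a b : ι) : X.η a b = X.sg a * X.η b a := by
  rw [X.η_comm a b]
  by_cases h : X.η b a = 0
  · simp [h]
  · rw [X.sg_mul (X.η_sg h).symm, X.η_sg h]

/-- Graded symmetry of the inverse pairing. -/
theorem inv_swap (a b : ι) : X.η⁻¹ a b = X.sg b * X.η⁻¹ b a := by
  have h1 : X.ηᵀ = Matrix.diagonal X.sg * X.η := by
    ext a b
    rw [Matrix.transpose_apply, Matrix.diagonal_mul, X.η_swap b a]
    by_cases h : X.η a b = 0
    · simp [h]
    · rw [X.η_sg h]
  have hS : Matrix.diagonal X.sg * Matrix.diagonal X.sg = 1 := by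
    rw [Matrix.diagonal_mul_diagonal]
    have : (fun i => X.sg i * X.sg i) = fun _ => 1 := by funext i; exact X.sg_sq i
    rw [this, Matrix.diagonal_one]
  have h2 : (X.η⁻¹)ᵀ = X.η⁻¹ * Matrix.diagonal X.sg := by
    rw [Matrix.transpose_nonsing_inv, h1]
    refine Matrix.inv_eq_left_inv ?_
    rw [Matrix.mul_assoc, ← Matrix.mul_assoc (Matrix.diagonal X.sg), hS, Matrix.one_mul,
      X.inv_mul_ηC]
  have h3 := congrFun (congrFun h2 b) a
  rw [Matrix.transpose_apply, Matrix.mul_diagonal] at h3
  rw [h3]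
  by_cases h : X.η⁻¹ b a = 0
  · simp [h]
  · rw [X.inv_sg h, mul_comm]

end Target

end Vale.Agent.P269
end
end

section

section

namespace Vale.Agent.P269

open Finset Polynomial Matrix

section General

variable {A : Type}

/-- `c` on the empty list, `0` elsewhere. -/
def nilf (c : ℂ) : List A → ℂ
  | [] => c
  | _ => 0

/-- `φ x` on the list `[x]`, `0` elsewhere. -/
def one (φ : A → ℂ) : List A → ℂ
  | [x] => φ x
  | _ => 0

@[simp] theorem nilf_nil (c : ℂ) : nilf c ([] : List A) = c := rfl
@[simp] theorem nilf_cons (c : ℂ) (x : A) (l : List A) : nilf c (x :: l) = 0 := rfl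
@[simp] theorem one_nil (φ : A → ℂ) : one φ ([] : List A) = 0 := rfl
@[simp] theorem one_cons (φ : A → ℂ) (x : A) (l : List A) : one φ (x :: l) = nilf (φ x) l := by
  cases l <;> rfl

theorem split_nilf_left (π : A → ℕ) (l : List A) (c : ℂ) (g : List A → ℂ) :
    split π l (nilf c) g = c * g l := by
  induction l generalizing g with
  | nil => simp
  | cons x l ih =>
    simp only [split_cons, nilf_cons]
    have : (fun I : List A => (-1 : ℂ) ^ (π x * (I.map π).sum) * nilf c I) = nilf c := by
      funext I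
      cases I <;> simp
    rw [this, ih, split_zero_left, zero_add]

theorem split_nilf_right (π : A → ℕ) (l : List A) (c : ℂ) (f : List A → ℂ) :
    split π l f (nilf c) = f l * c := by
  induction l generalizing f with
  | nil => simp
  | cons x l ih =>
    simp only [split_cons, nilf_cons]
    rw [ih, split_zero_right, add_zero]

/-- Graded symmetry. -/
def Sym (π : A → ℕ) (f : List A → ℂ) : Prop :=
  ∀ l x y l', f (l ++ x :: y :: l') = (-1) ^ (π x * π y) * f (l ++ y :: x :: l')

theorem Sym.cons {π : A → ℕ} {f : List A → ℂ} (h : Sym π f) (x : A) :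
    Sym π (fun l => f (x :: l)) := fun l y z l' => h (x :: l) y z l'

theorem Sym.head {π : A → ℕ} {f : List A → ℂ} (h : Sym π f) (x y : A) (l : List A) :
    f (x :: y :: l) = (-1) ^ (π x * π y) * f (y :: x :: l) := h [] x y l

theorem sign_self (n : ℕ) : ((-1 : ℂ)) ^ (n * n) = (-1) ^ n := by
  rcases Nat.even_or_odd n with h | h
  · rw [h.neg_one_pow, (h.mul_right _).neg_one_pow]
  · rw [h.neg_one_pow, (h.mul h).neg_one_pow]

theorem sign_mul_of_eq {a b : ℕ} (h : ((-1 : ℂ)) ^ a = (-1) ^ b) : ((-1 : ℂ)) ^ (a * b) = (-1) ^ b := by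
  rw [pow_mul, h, ← pow_mul, sign_self]

/-- First exceptional splitting. -/
theorem split_one_left {π : A → ℕ} (y : A) (φ : A → ℂ)
    (hφ : ∀ x, φ x ≠ 0 → ((-1 : ℂ)) ^ π x = (-1) ^ π y) (l : List A) (F : List A → ℂ)
    (hF : Sym π F) :
    split π l (fun I => (-1) ^ (π y * (I.map π).sum) * one φ I) (fun J => F (y :: J)) =
      act (fun x ψ => (-1) ^ π y * φ x * ψ y) l F := by
  induction l generalizing F with
  | nil => simp
  | cons x l ih =>
    rw [split_cons, act_cons]
    congr 1
    · have : (fun I : List A => (-1 : ℂ) ^ (π y * ((x :: I).map π).sum) * one φ (x :: I)) =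
        nilf ((-1) ^ π y * φ x) := by
        funext I
        cases I with
        | nil =>
          by_cases h : φ x = 0
          · simp [h]
          · have h1 : ((-1 : ℂ)) ^ (π y * π x) = (-1) ^ π y := by
              rw [mul_comm]; exact sign_mul_of_eq (hφ x h)
            simp [h1]
        | cons z I => simp
      rw [this, split_nilf_left]
    · rw [← ih _ (hF.cons x)]
      have h1 : (fun J : List A => F (x :: y :: J)) =
          fun J => (-1 : ℂ) ^ (π x * π y) * F (y :: x :: J) := by
        funext J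
        rw [hF.head x y J]
      have h2 : (fun I : List A => (-1 : ℂ) ^ (π x * (I.map π).sum) *
          ((-1) ^ (π y * (I.map π).sum) * one φ I)) =
          fun I => (-1 : ℂ) ^ (π x * π y) * ((-1) ^ (π y * (I.map π).sum) * one φ I) := by
        funext I
        cases I with
        | nil => simp
        | cons z I =>
          cases I with
          | nil =>
            by_cases h : φ z = 0
            · simp [h]
            · have h3 : ((-1 : ℂ)) ^ (π x * π z) = (-1) ^ (π x * π y) :=
                neg_one_pow_mul_congr _ (hφ z h)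
              simp [h3]
          | cons w I => simp
      rw [h1, h2, split_smul_leftC, split_smul_rightC]

/-- Second exceptional splitting. -/
theorem split_one_right {π : A → ℕ} (x₀ y : A) (h0 : ((-1 : ℂ)) ^ π x₀ = (-1) ^ π y) (ψ : A → ℂ)
    (hψ : ∀ x, ψ x ≠ 0 → ((-1 : ℂ)) ^ π x = (-1) ^ π y) (l : List A) (F : List A → ℂ)
    (hF : Sym π F) :
    split π l (fun I => (-1) ^ (π y * (I.map π).sum) * F (x₀ :: I)) (one ψ) =
      act (fun x θ => ψ x * θ x₀) l F := by
  induction l generalizing F with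
  | nil => simp
  | cons x l ih =>
    rw [split_cons, act_cons, add_comm]
    congr 1
    · have h1 : (fun J : List A => one ψ (x :: J)) = nilf (ψ x) := by
        funext J; simp
      rw [h1, split_nilf_right]
      by_cases h : ψ x = 0
      · simp [h]
      · have h2 : ((-1 : ℂ)) ^ (π x * (l.map π).sum) = (-1) ^ (π y * (l.map π).sum) := by
          rw [mul_comm (π x), mul_comm (π y)]
          exact neg_one_pow_mul_congr _ (hψ x h)
        rw [h2, ← mul_assoc, Target.sgn_sq, one_mul, mul_comm]
    · rw [← ih _ (hF.cons x)]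
      congr 1
      funext I
      rw [hF.head x₀ x I, List.map_cons, List.sum_cons, mul_add, pow_add]
      have h2 : ((-1 : ℂ)) ^ (π x₀ * π x) = (-1) ^ (π y * π x) := by
        rw [mul_comm (π x₀), mul_comm (π y)]
        exact neg_one_pow_mul_congr _ h0
      rw [h2]
      have h3 := Target.sgn_sq (π y * π x)
      linear_combination ((-1 : ℂ)) ^ (π y * (I.map π).sum) * F (x :: x₀ :: I) * h3

end General

section

variable {ι : Type} [Fintype ι] [DecidableEq ι]

theorem two_cons (N : Matrix ι ι ℂ) (a : ι) (m : ℕ) (I : List (ι × ℕ)) :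
    two N ((a, m) :: I) =
      if m = 0 then one (fun z => if z.2 = 0 then N a z.1 else 0) I else 0 := by
  cases I with
  | nil => simp
  | cons z I =>
    obtain ⟨c, n⟩ := z
    cases I with
    | nil => cases m <;> cases n <;> simp [two_pair]
    | cons w I => simp

end

end Vale.Agent.P269
end
end

section

section

namespace Vale.Agent.P269

open Finset Polynomial Matrix

/-- The polynomial whose coefficients are `br x K i`. -/
noncomputable def brP (x : ℂ) (K : ℕ) : ℂ[X] := ∏ j ∈ range K, (Polynomial.X + C (x + (j : ℂ)))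

theorem br_eq (x : ℂ) (K i : ℕ) : br x K i = (brP x K).coeff i := rfl

theorem brP_succ (x : ℂ) (K : ℕ) : brP x (K + 1) = brP x K * (Polynomial.X + C (x + (K : ℂ))) := by
  unfold brP
  rw [Finset.prod_range_succ]

theorem brP_succ' (x : ℂ) (K : ℕ) : brP (x - 1) (K + 1) = brP x K * (Polynomial.X + C (x - 1)) := by
  unfold brP
  rw [Finset.prod_range_succ']
  congr 1
  · refine Finset.prod_congr rfl fun j _ => ?_
    congr 2
    push_cast
    ring
  · simp

theorem br_zero_right (x : ℂ) (i : ℕ) : br x 0 i = if i = 0 then 1 else 0 := by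
  rw [br_eq]
  simp [brP, Polynomial.coeff_one]

theorem br_diff (x : ℂ) (K i : ℕ) :
    br x (K + 1) i - br (x - 1) (K + 1) i = (K + 1) * br x K i := by
  simp only [br_eq]
  rw [brP_succ, brP_succ', ← Polynomial.coeff_sub, ← mul_sub]
  have : (Polynomial.X + C (x + (K : ℂ)) - (Polynomial.X + C (x - 1)) : ℂ[X]) =
      C ((K : ℂ) + 1) := by
    rw [add_sub_add_left_eq_sub, ← C_sub]
    congr 1
    ring
  rw [this, Polynomial.coeff_mul_C]
  ring

theorem br_succ_zero (x : ℂ) (K : ℕ) : br x (K + 1) 0 = (x + K) * br x K 0 := by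
  simp only [br_eq]
  rw [brP_succ, mul_add, Polynomial.coeff_add, Polynomial.coeff_mul_C, Polynomial.mul_coeff_zero]
  simp
  ring

theorem br_succ_succ (x : ℂ) (K i : ℕ) :
    br x (K + 1) (i + 1) = br x K i + (x + K) * br x K (i + 1) := by
  simp only [br_eq]
  rw [brP_succ, mul_add, Polynomial.coeff_add, Polynomial.coeff_mul_C, Polynomial.coeff_mul_X]
  ring

theorem br_gt (x : ℂ) {K i : ℕ} (h : K < i) : br x K i = 0 := by
  induction K generalizing i with
  | zero => rw [br_zero_right, if_neg (by omega)]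
  | succ K ih =>
    obtain ⟨i, rfl⟩ : ∃ j, i = j + 1 := ⟨i - 1, by omega⟩
    rw [br_succ_succ, ih (by omega), ih (by omega)]
    ring

theorem br_self (x : ℂ) (K : ℕ) : br x K K = 1 := by
  induction K with
  | zero => simp [br_zero_right]
  | succ K ih => rw [br_succ_succ, ih, br_gt x (Nat.lt_succ_self K)]; ring

theorem br_pred (x : ℂ) (K : ℕ) : br x (K + 1) K = (K + 1) * x + K * (K + 1) / 2 := by
  induction K with
  | zero => rw [br_succ_zero, br_zero_right]; simp
  | succ K ih =>
    rw [br_succ_succ, ih, br_self]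
    push_cast
    ring

theorem br_reflect (x : ℂ) (K i : ℕ) :
    br (-x - K + 1) K i = (-1) ^ (K + i) * br x K i := by
  have h : br (-x - K + 1) K i = (∏ j ∈ range K, (Polynomial.X + C (-x - (j : ℂ)))).coeff i := by
    unfold br
    rw [← Finset.prod_range_reflect]
    congr 1
    refine Finset.prod_congr rfl fun j hj => ?_
    have hj' := Finset.mem_range.1 hj
    congr 2
    have : ((K - 1 - j : ℕ) : ℂ) = (K : ℂ) - 1 - j := by
      rw [Nat.sub_sub, Nat.cast_sub (by omega)]; push_cast; ring
    rw [this]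
    ring
  rw [h]
  clear h
  induction K generalizing i with
  | zero =>
    rw [br_zero_right]
    simp only [Finset.range_zero, Finset.prod_empty, Polynomial.coeff_one]
    split_ifs with h
    · subst h; simp
    · simp
  | succ K ih =>
    rw [Finset.prod_range_succ, mul_add, Polynomial.coeff_add, Polynomial.coeff_mul_C]
    cases i with
    | zero =>
      rw [ih, br_succ_zero, Polynomial.mul_coeff_zero]
      simp only [Polynomial.coeff_X_zero, mul_zero, zero_add, add_zero]
      rw [pow_succ]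
      ring
    | succ i =>
      rw [Polynomial.coeff_mul_X, ih, ih, br_succ_succ]
      rw [show K + 1 + (i + 1) = K + i + 1 + 1 from by ring, show K + (i + 1) = K + i + 1 from by ring,
        pow_succ, pow_succ]
      ring

/-- Sum over `m + n + i + 2 = K`. -/
noncomputable def trip (K : ℕ) (f : ℕ → ℕ → ℕ → ℂ) : ℂ :=
  ∑ m ∈ range K, ∑ n ∈ range K, ∑ i ∈ range K, if m + n + i + 2 = K then f m n i else 0

theorem trip_congr {K : ℕ} {f g : ℕ → ℕ → ℕ → ℂ}
    (h : ∀ m n i, m + n + i + 2 = K → f m n i = g m n i) : trip K f = trip K g := by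
  unfold trip
  refine Finset.sum_congr rfl fun m _ => Finset.sum_congr rfl fun n _ =>
    Finset.sum_congr rfl fun i _ => ?_
  split_ifs with h1
  · exact h m n i h1
  · rfl

theorem trip_add (K : ℕ) (f g : ℕ → ℕ → ℕ → ℂ) :
    trip K (fun m n i => f m n i + g m n i) = trip K f + trip K g := by
  unfold trip
  simp only [← Finset.sum_add_distrib]
  refine Finset.sum_congr rfl fun m _ => Finset.sum_congr rfl fun n _ =>
    Finset.sum_congr rfl fun i _ => ?_
  split_ifs <;> simp

theorem trip_smul (K : ℕ) (c : ℂ) (f : ℕ → ℕ → ℕ → ℂ) :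
    trip K (fun m n i => c * f m n i) = c * trip K f := by
  unfold trip
  simp only [Finset.mul_sum]
  refine Finset.sum_congr rfl fun m _ => Finset.sum_congr rfl fun n _ =>
    Finset.sum_congr rfl fun i _ => ?_
  split_ifs <;> simp

theorem sum_range_ext {K M : ℕ} (hM : K ≤ M) (f : ℕ → ℂ) (h : ∀ i, K ≤ i → f i = 0) :
    ∑ i ∈ range M, f i = ∑ i ∈ range K, f i := by
  symm
  refine Finset.sum_subset (Finset.range_subset_range.2 hM) fun i _ hi => ?_
  exact h i (by simpa using hi)

/-- The bounds in `trip` may be enlarged. -/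
theorem trip_ext {K M : ℕ} (hM : K ≤ M) (f : ℕ → ℕ → ℕ → ℂ) :
    (∑ m ∈ range M, ∑ n ∈ range M, ∑ i ∈ range M, if m + n + i + 2 = K then f m n i else 0) =
      trip K f := by
  unfold trip
  rw [sum_range_ext hM]
  · refine Finset.sum_congr rfl fun m _ => ?_
    rw [sum_range_ext hM]
    · refine Finset.sum_congr rfl fun n _ => ?_
      rw [sum_range_ext hM]
      intro i hi
      rw [if_neg (by omega)]
    · intro n hn
      exact Finset.sum_eq_zero fun i _ => if_neg (by omega)
  · intro m hm
    exact Finset.sum_eq_zero fun n _ => Finset.sum_eq_zero fun i _ => if_neg (by omega)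

theorem trip_shift_left (K : ℕ) (f : ℕ → ℕ → ℕ → ℂ) :
    trip (K + 1) (fun m n i => if m = 0 then 0 else f m n i) =
      trip K (fun m n i => f (m + 1) n i) := by
  have h1 := trip_ext (Nat.le_succ K) (fun m n i => f (m + 1) n i)
  have h2 : trip (K + 1) (fun m n i => if m = 0 then 0 else f m n i) =
      ∑ m ∈ range K, ∑ n ∈ range (K + 1), ∑ i ∈ range (K + 1),
        if m + n + i + 2 = K then f (m + 1) n i else 0 := by
    unfold trip
    rw [Finset.sum_range_succ']
    simp only [if_true, ite_self, Finset.sum_const_zero, add_zero]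
    refine Finset.sum_congr rfl fun m _ => Finset.sum_congr rfl fun n _ =>
      Finset.sum_congr rfl fun i _ => ?_
    by_cases h : m + n + i + 2 = K
    · rw [if_pos h, if_pos (by omega), if_neg (by omega)]
    · rw [if_neg h, if_neg (by omega)]
  rw [h2, ← h1, Finset.sum_range_succ]
  symm
  refine (add_eq_left).2 ?_
  exact Finset.sum_eq_zero fun n _ => Finset.sum_eq_zero fun i _ => if_neg (by omega)

theorem trip_swap (K : ℕ) (f : ℕ → ℕ → ℕ → ℂ) :
    trip K f = trip K (fun m n i => f n m i) := by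
  unfold trip
  rw [Finset.sum_comm]
  refine Finset.sum_congr rfl fun m _ => Finset.sum_congr rfl fun n _ =>
    Finset.sum_congr rfl fun i _ => ?_
  rw [show n + m + i + 2 = m + n + i + 2 from by ring]

theorem trip_shift_right (K : ℕ) (f : ℕ → ℕ → ℕ → ℂ) :
    trip (K + 1) (fun m n i => if n = 0 then 0 else f m n i) =
      trip K (fun m n i => f m (n + 1) i) := by
  rw [trip_swap, trip_shift_left K (fun m n i => f n m i), trip_swap]

theorem trip_left_zero (K : ℕ) (f : ℕ → ℕ → ℕ → ℂ) :
    trip (K + 1) (fun m n i => if m = 0 then f m n i else 0) =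
      ∑ i ∈ range K, f 0 (K - 1 - i) i := by
  unfold trip
  rw [Finset.sum_range_succ']
  simp only [Nat.add_one_ne_zero, if_false, ite_self, Finset.sum_const_zero, zero_add, if_true]
  rw [Finset.sum_comm, Finset.sum_range_succ]
  have h0 : ∑ n ∈ range (K + 1), (if n + K + 2 = K + 1 then f 0 n K else 0) = 0 :=
    Finset.sum_eq_zero fun n _ => if_neg (by omega)
  rw [h0, add_zero]
  refine Finset.sum_congr rfl fun i hi => ?_
  have hi' := Finset.mem_range.1 hi
  rw [Finset.sum_eq_single (K - 1 - i)]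
  · rw [if_pos (by omega)]
  · intro n _ hn
    rw [if_neg (by omega)]
  · intro h
    exact absurd (Finset.mem_range.2 (by omega)) h

theorem trip_right_zero (K : ℕ) (f : ℕ → ℕ → ℕ → ℂ) :
    trip (K + 1) (fun m n i => if n = 0 then f m n i else 0) =
      ∑ i ∈ range K, f (K - 1 - i) 0 i := by
  rw [trip_swap, trip_left_zero K (fun m n i => f n m i)]

end Vale.Agent.P269
end
end

section

section

namespace Vale.Agent.P269

set_option linter.unusedSectionVars false

open Finset Polynomial Matrix

variable {ι B : Type} [Fintype ι] [DecidableEq ι] [AddCommMonoid B]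
variable [DecidableEq B] [HasAntidiagonal B] {X : Target ι B}

theorem lower_eq (M : Matrix ι ι ℂ) (b : ι) (m : ℕ) (f : ι × ℕ → ℂ) :
    lower M (b, m) f = if m = 0 then 0 else ∑ x, M b x * f (x, m - 1) := by
  cases m <;> simp [lower]

/-- A criterion for `Ev`. -/
theorem ev_of_sum {A κ : Type} {π : A → ℕ} {T : A → (A → ℂ) → ℂ} (s : A → Finset κ)
    (c : A → κ → ℂ) (y : A → κ → A)
    (hT : ∀ x f, T x f = ∑ k ∈ s x, c x k * f (y x k))
    (h : ∀ x, ∀ k ∈ s x, c x k ≠ 0 → ((-1 : ℂ)) ^ π (y x k) = (-1) ^ π x) : Ev π T := by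
  classical
  refine ⟨fun x => ∑ k ∈ s x, Finsupp.single (y x k) (c x k), ?_, ?_⟩
  · intro x f
    rw [hT, ← Finsupp.sum_finsetSum_index]
    · refine Finset.sum_congr rfl fun k _ => ?_
      rw [Finsupp.sum_single_index]
      ring
    · intro; ring
    · intros; ring
  · intro x z hz
    rw [Finsupp.finsetSum_apply] at hz
    obtain ⟨k, hk, hk'⟩ := Finset.exists_ne_zero_of_sum_ne_zero hz
    rw [Finsupp.single_apply] at hk'
    split_ifs at hk' with h1
    · rw [← h1]
      exact h x k hk hk'
    · exact absurd rfl hk'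

theorem par_sg (X : Target ι B) (x : ι × ℕ) : ((-1 : ℂ)) ^ X.par x = X.sg x.1 := rfl

theorem lower_ev (M : Matrix ι ι ℂ) (hM : ∀ b c, M b c ≠ 0 → X.sg b = X.sg c) :
    Ev X.par (lower M) := by
  refine ev_of_sum (fun _ => Finset.univ) (fun x k => if x.2 = 0 then 0 else M x.1 k)
    (fun x k => (k, x.2 - 1)) ?_ ?_
  · rintro ⟨b, m⟩ f
    rw [lower_eq]
    split_ifs with h
    · simp [h]
    · simp [h]
  · rintro ⟨b, m⟩ k - hk
    simp only [par_sg]
    by_cases h : m = 0
    · simp [h] at hk
    · simp only [h, if_false] at hk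
      exact (hM b k hk).symm

variable (G : GWTheory X)

theorem GWTheory.sym (g : ℕ) (β : B) : Sym X.par (G.F g β) := fun l x y l' => G.swap g β l x y l'

/-- An insertion obeying a puncture equation: the unit (`s = 0`) or a divisor (`s = 1`). -/
structure Pun where
  a0 : ι
  M : Matrix ι ι ℂ
  s : ℂ
  dg : B →+ ℂ
  ε : ℂ
  s_or : (s = 0 ∧ M = 1) ∨ s = 1
  even : Even (X.p a0 + X.q a0)
  μ0 : X.μ a0 = X.μ X.e + s
  M_μ : ∀ b c, M b c ≠ 0 → X.μ c = X.μ b + s
  M_sg : ∀ b c, M b c ≠ 0 → X.sg b = X.sg c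
  MR : M * X.R = X.R * M
  Mη : M * X.η = X.η * Mᵀ
  row : ∀ x, M X.e x = if x = a0 then 1 else 0
  F_eq : ∀ g β l, G.F g β ((a0, 0) :: l) = dg β * G.F g β l + act (lower M) l (G.F g β) +
    (if g = 0 ∧ β = 0 then two (M * X.η) l else 0) + (if g = 1 ∧ β = 0 ∧ l = [] then ε else 0)

variable {G} (P : Pun G)

namespace Pun

theorem ev : Ev X.par (lower P.M) := lower_ev P.M P.M_sg

theorem sign_even (k : ℕ) : ((-1 : ℂ)) ^ (k * X.par (P.a0, 0)) = 1 :=
  (Even.mul_left (show Even (X.par (P.a0, 0)) from P.even) k).neg_one_pow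

theorem sign_even' (k : ℕ) : ((-1 : ℂ)) ^ (X.par (P.a0, 0) * k) = 1 := by
  rw [mul_comm]; exact P.sign_even k

theorem head (g : ℕ) (β : B) (x : ι × ℕ) (l : List (ι × ℕ)) :
    G.F g β (x :: (P.a0, 0) :: l) = G.F g β ((P.a0, 0) :: x :: l) := by
  rw [(G.sym g β).head x (P.a0, 0) l, P.sign_even, one_mul]

theorem head2 (g : ℕ) (β : B) (x y : ι × ℕ) (l : List (ι × ℕ)) :
    G.F g β (x :: y :: (P.a0, 0) :: l) = G.F g β ((P.a0, 0) :: x :: y :: l) := by
  rw [((G.sym g β).cons x).head y (P.a0, 0) l, P.sign_even, one_mul]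
  exact P.head g β x (y :: l)

theorem F_cons (g : ℕ) (β : B) (x : ι × ℕ) (l : List (ι × ℕ)) :
    G.F g β (x :: (P.a0, 0) :: l) = P.dg β * G.F g β (x :: l) +
      lower P.M x (fun z => G.F g β (z :: l)) + act (lower P.M) l (fun J => G.F g β (x :: J)) +
      (if g = 0 ∧ β = 0 then two (P.M * X.η) (x :: l) else 0) := by
  rw [P.head, P.F_eq, act_cons, if_neg (show ¬ (g = 1 ∧ β = 0 ∧ x :: l = []) from by simp)]
  ring

theorem F_cons2 (g : ℕ) (β : B) (x y : ι × ℕ) (l : List (ι × ℕ)) :
    G.F g β (x :: y :: (P.a0, 0) :: l) = P.dg β * G.F g β (x :: y :: l) +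
      lower P.M x (fun z => G.F g β (z :: y :: l)) + lower P.M y (fun z => G.F g β (x :: z :: l)) +
      act (lower P.M) l (fun J => G.F g β (x :: y :: J)) +
      (if g = 0 ∧ β = 0 then two (P.M * X.η) (x :: y :: l) else 0) := by
  rw [P.head2, P.F_eq, act_cons, act_cons,
    if_neg (show ¬ (g = 1 ∧ β = 0 ∧ x :: y :: l = []) from by simp)]
  ring

/-- The exceptional part of the puncture equation for `quad`. -/
noncomputable def excQ (g : ℕ) (β : B) (x y : ι × ℕ) (l : List (ι × ℕ)) : ℂ :=
  (if g = 1 ∧ β = 0 then two (P.M * X.η) (x :: y :: l) else 0) +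
  split X.par l (fun I => (-1) ^ (X.par y * (I.map X.par).sum) * two (P.M * X.η) (x :: I))
      (fun J => G.F g β (y :: J)) +
  split X.par l (fun I => (-1) ^ (X.par y * (I.map X.par).sum) * G.F g β (x :: I))
      (fun J => two (P.M * X.η) (y :: J))

theorem split_punct (g g' : ℕ) (β β' : B) (x y : ι × ℕ) (l : List (ι × ℕ)) :
    split X.par ((P.a0, 0) :: l)
      (fun I => (-1) ^ (X.par y * (I.map X.par).sum) * G.F g β (x :: I))
      (fun J => G.F g' β' (y :: J)) =
    (P.dg β + P.dg β') * split X.par l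
      (fun I => (-1) ^ (X.par y * (I.map X.par).sum) * G.F g β (x :: I))
      (fun J => G.F g' β' (y :: J)) +
    act (lower P.M) l (fun L => split X.par L
      (fun I => (-1) ^ (X.par y * (I.map X.par).sum) * G.F g β (x :: I))
      (fun J => G.F g' β' (y :: J))) +
    lower P.M x (fun z => split X.par l
      (fun I => (-1) ^ (X.par y * (I.map X.par).sum) * G.F g β (z :: I))
      (fun J => G.F g' β' (y :: J))) +
    lower P.M y (fun z => split X.par l
      (fun I => (-1) ^ (X.par z * (I.map X.par).sum) * G.F g β (x :: I))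
      (fun J => G.F g' β' (z :: J))) +
    (if g = 0 ∧ β = 0 then split X.par l
      (fun I => (-1) ^ (X.par y * (I.map X.par).sum) * two (P.M * X.η) (x :: I))
      (fun J => G.F g' β' (y :: J)) else 0) +
    (if g' = 0 ∧ β' = 0 then split X.par l
      (fun I => (-1) ^ (X.par y * (I.map X.par).sum) * G.F g β (x :: I))
      (fun J => two (P.M * X.η) (y :: J)) else 0) := by
  rw [split_cons, act_split P.ev]
  have h1 : (fun I : List (ι × ℕ) => (-1 : ℂ) ^ (X.par y * (((P.a0, 0) :: I).map X.par).sum) *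
      G.F g β (x :: (P.a0, 0) :: I)) = fun I =>
      (P.dg β * ((-1 : ℂ) ^ (X.par y * (I.map X.par).sum) * G.F g β (x :: I)) +
      lower P.M x (fun z => (-1 : ℂ) ^ (X.par y * (I.map X.par).sum) * G.F g β (z :: I)) +
      act (lower P.M) I (fun J => (-1 : ℂ) ^ (X.par y * (J.map X.par).sum) * G.F g β (x :: J))) +
      (-1 : ℂ) ^ (X.par y * (I.map X.par).sum) *
        (if g = 0 ∧ β = 0 then two (P.M * X.η) (x :: I) else 0) := by
    funext I
    have hs : ((-1 : ℂ)) ^ (X.par y * (X.par (P.a0, 0) + (I.map X.par).sum)) =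
        (-1) ^ (X.par y * (I.map X.par).sum) := by rw [mul_add, pow_add, P.sign_even, one_mul]
    rw [P.F_cons, act_sign P.ev, P.ev.fin.smul, List.map_cons, List.sum_cons, hs]
    ring
  have h2 : (fun J : List (ι × ℕ) => G.F g' β' (y :: (P.a0, 0) :: J)) = fun J =>
      (P.dg β' * G.F g' β' (y :: J) + lower P.M y (fun z => G.F g' β' (z :: J)) +
      act (lower P.M) J (fun J => G.F g' β' (y :: J))) +
      (if g' = 0 ∧ β' = 0 then two (P.M * X.η) (y :: J) else 0) := by
    funext J
    rw [P.F_cons]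
  have h3 : (fun I : List (ι × ℕ) => (-1 : ℂ) ^ (X.par (P.a0, 0) * (I.map X.par).sum) *
      ((-1 : ℂ) ^ (X.par y * (I.map X.par).sum) * G.F g β (x :: I))) =
      fun I => (-1 : ℂ) ^ (X.par y * (I.map X.par).sum) * G.F g β (x :: I) := by
    funext I
    rw [P.sign_even', one_mul]
  rw [h1, h2, h3, split_add_left, split_add_left, split_add_left, split_smul_leftC,
    split_add_right, split_add_right, split_add_right, split_smul_rightC,
    split_T_left _ P.ev.fin, split_T_right _ P.ev.fin]
  have h4 : lower P.M y (fun z => split X.par l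
      (fun I => (-1 : ℂ) ^ (X.par z * (I.map X.par).sum) * G.F g β (x :: I))
      (fun J => G.F g' β' (z :: J))) =
      lower P.M y (fun z => split X.par l
      (fun I => (-1 : ℂ) ^ (X.par y * (I.map X.par).sum) * G.F g β (x :: I))
      (fun J => G.F g' β' (z :: J))) := by
    obtain ⟨b, n⟩ := y
    rw [lower_eq, lower_eq]
    split_ifs with hn
    · rfl
    · refine Finset.sum_congr rfl fun c _ => ?_
      by_cases hc : P.M b c = 0
      · simp [hc]
      · congr 2
        funext I
        congr 1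
        rw [mul_comm (X.par (c, n - 1)), mul_comm (X.par (b, n))]
        refine neg_one_pow_mul_congr _ ?_
        rw [par_sg, par_sg]
        exact (P.M_sg b c hc).symm
  rw [h4]
  have h5 : split X.par l (fun I => (-1 : ℂ) ^ (X.par y * (I.map X.par).sum) *
        (if g = 0 ∧ β = 0 then two (P.M * X.η) (x :: I) else 0)) (fun J => G.F g' β' (y :: J)) =
      (if g = 0 ∧ β = 0 then split X.par l
      (fun I => (-1) ^ (X.par y * (I.map X.par).sum) * two (P.M * X.η) (x :: I))
      (fun J => G.F g' β' (y :: J)) else 0) := by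
    split_ifs
    · rfl
    · simp only [mul_zero]
      rw [split_zero_left]
  have h6 : split X.par l (fun I => (-1 : ℂ) ^ (X.par y * (I.map X.par).sum) * G.F g β (x :: I))
        (fun J => if g' = 0 ∧ β' = 0 then two (P.M * X.η) (y :: J) else 0) =
      (if g' = 0 ∧ β' = 0 then split X.par l
      (fun I => (-1) ^ (X.par y * (I.map X.par).sum) * G.F g β (x :: I))
      (fun J => two (P.M * X.η) (y :: J)) else 0) := by
    split_ifs
    · rfl
    · rw [split_zero_right]
  rw [h5, h6]
  ring

theorem sum_anti_left (g : ℕ) (β : B) (f : ℕ → ℕ → B → B → ℂ) :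
    ∑ h ∈ antidiagonal g, ∑ b ∈ antidiagonal β,
      (if h.1 = 0 ∧ b.1 = 0 then f h.1 h.2 b.1 b.2 else 0) = f 0 g 0 β := by
  rw [Finset.sum_eq_single (0, g)]
  · rw [Finset.sum_eq_single (0, β)]
    · simp
    · rintro ⟨b1, b2⟩ hb hne
      rw [Finset.HasAntidiagonal.mem_antidiagonal] at hb
      rw [if_neg]
      rintro ⟨-, h2⟩
      simp only at h2 hb
      apply hne
      rw [h2, zero_add] at hb
      rw [h2, hb]
    · intro h
      exact absurd (Finset.HasAntidiagonal.mem_antidiagonal.2 (zero_add β)) h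
  · rintro ⟨h1, h2⟩ hh hne
    rw [Finset.HasAntidiagonal.mem_antidiagonal] at hh
    refine Finset.sum_eq_zero fun b _ => if_neg ?_
    rintro ⟨h3, -⟩
    simp only at h3 hh
    apply hne
    rw [h3, zero_add] at hh
    rw [h3, hh]
  · intro h
    exact absurd (Finset.HasAntidiagonal.mem_antidiagonal.2 (zero_add g)) h

theorem sum_anti_right (g : ℕ) (β : B) (f : ℕ → ℕ → B → B → ℂ) :
    ∑ h ∈ antidiagonal g, ∑ b ∈ antidiagonal β,
      (if h.2 = 0 ∧ b.2 = 0 then f h.1 h.2 b.1 b.2 else 0) = f g 0 β 0 := by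
  rw [Finset.sum_eq_single (g, 0)]
  · rw [Finset.sum_eq_single (β, 0)]
    · simp
    · rintro ⟨b1, b2⟩ hb hne
      rw [Finset.HasAntidiagonal.mem_antidiagonal] at hb
      rw [if_neg]
      rintro ⟨-, h2⟩
      simp only at h2 hb
      apply hne
      rw [h2, add_zero] at hb
      rw [h2, hb]
    · intro h
      exact absurd (Finset.HasAntidiagonal.mem_antidiagonal.2 (add_zero β)) h
  · rintro ⟨h1, h2⟩ hh hne
    rw [Finset.HasAntidiagonal.mem_antidiagonal] at hh
    refine Finset.sum_eq_zero fun b _ => if_neg ?_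
    rintro ⟨h3, -⟩
    simp only at h3 hh
    apply hne
    rw [h3, add_zero] at hh
    rw [h3, hh]
  · intro h
    exact absurd (Finset.HasAntidiagonal.mem_antidiagonal.2 (add_zero g)) h

/-- Puncture equation for `quad`. -/
theorem quad_punct (g : ℕ) (β : B) (x y : ι × ℕ) (l : List (ι × ℕ)) :
    G.quad g β x y ((P.a0, 0) :: l) = P.dg β * G.quad g β x y l +
      act (lower P.M) l (fun J => G.quad g β x y J) +
      lower P.M x (fun z => G.quad g β z y l) + lower P.M y (fun z => G.quad g β x z l) +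
      P.excQ g β x y l := by
  unfold GWTheory.quad
  rw [act_add P.ev.fin, P.ev.fin.add x, P.ev.fin.add y]
  simp only [act_sum P.ev.fin, P.ev.fin.sum]
  have h1 : ∑ h ∈ antidiagonal g, ∑ b ∈ antidiagonal β,
      split X.par ((P.a0, 0) :: l)
        (fun I => (-1) ^ (X.par y * (I.map X.par).sum) * G.F h.1 b.1 (x :: I))
        (fun J => G.F h.2 b.2 (y :: J)) =
      P.dg β * (∑ h ∈ antidiagonal g, ∑ b ∈ antidiagonal β, split X.par l
        (fun I => (-1) ^ (X.par y * (I.map X.par).sum) * G.F h.1 b.1 (x :: I))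
        (fun J => G.F h.2 b.2 (y :: J))) +
      (∑ h ∈ antidiagonal g, ∑ b ∈ antidiagonal β, act (lower P.M) l (fun L => split X.par L
        (fun I => (-1) ^ (X.par y * (I.map X.par).sum) * G.F h.1 b.1 (x :: I))
        (fun J => G.F h.2 b.2 (y :: J)))) +
      (∑ h ∈ antidiagonal g, ∑ b ∈ antidiagonal β, lower P.M x (fun z => split X.par l
        (fun I => (-1) ^ (X.par y * (I.map X.par).sum) * G.F h.1 b.1 (z :: I))
        (fun J => G.F h.2 b.2 (y :: J)))) +
      (∑ h ∈ antidiagonal g, ∑ b ∈ antidiagonal β, lower P.M y (fun z => split X.par l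
        (fun I => (-1) ^ (X.par z * (I.map X.par).sum) * G.F h.1 b.1 (x :: I))
        (fun J => G.F h.2 b.2 (z :: J)))) +
      split X.par l (fun I => (-1) ^ (X.par y * (I.map X.par).sum) * two (P.M * X.η) (x :: I))
        (fun J => G.F g β (y :: J)) +
      split X.par l (fun I => (-1) ^ (X.par y * (I.map X.par).sum) * G.F g β (x :: I))
        (fun J => two (P.M * X.η) (y :: J)) := by
    rw [← sum_anti_left g β (fun h h' b b' => split X.par l
        (fun I => (-1) ^ (X.par y * (I.map X.par).sum) * two (P.M * X.η) (x :: I))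
        (fun J => G.F h' b' (y :: J))),
      ← sum_anti_right g β (fun h h' b b' => split X.par l
        (fun I => (-1) ^ (X.par y * (I.map X.par).sum) * G.F h b (x :: I))
        (fun J => two (P.M * X.η) (y :: J))), Finset.mul_sum]
    simp only [Finset.mul_sum, ← Finset.sum_add_distrib]
    refine Finset.sum_congr rfl fun h _ => Finset.sum_congr rfl fun b hb => ?_
    rw [P.split_punct]
    have : P.dg b.1 + P.dg b.2 = P.dg β := by
      rw [← map_add, Finset.HasAntidiagonal.mem_antidiagonal.1 hb]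
    rw [this]
  rw [h1]
  unfold excQ
  have h2 : (if g = 0 then 0 else G.F (g - 1) β (x :: y :: (P.a0, 0) :: l)) =
      P.dg β * (if g = 0 then 0 else G.F (g - 1) β (x :: y :: l)) +
      act (lower P.M) l (fun J => if g = 0 then 0 else G.F (g - 1) β (x :: y :: J)) +
      lower P.M x (fun z => if g = 0 then 0 else G.F (g - 1) β (z :: y :: l)) +
      lower P.M y (fun z => if g = 0 then 0 else G.F (g - 1) β (x :: z :: l)) +
      (if g = 1 ∧ β = 0 then two (P.M * X.η) (x :: y :: l) else 0) := by
    by_cases hg : g = 0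
    · subst hg
      simp [act_zeroC P.ev.fin, P.ev.fin.zero]
    · simp only [hg, if_false]
      rw [P.F_cons2]
      have : (g - 1 = 0 ∧ β = 0) ↔ (g = 1 ∧ β = 0) := by
        constructor
        · rintro ⟨h, h'⟩; exact ⟨by omega, h'⟩
        · rintro ⟨h, h'⟩; exact ⟨by omega, h'⟩
      simp only [this]
      ring
  rw [h2]
  ring

end Pun

end Vale.Agent.P269
end
end

section

section

namespace Vale.Agent.P269

set_option linter.unusedSectionVars false

open Finset Polynomial Matrix

variable {ι B : Type} [Fintype ι] [DecidableEq ι] [AddCommMonoid B]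
variable [DecidableEq B] [HasAntidiagonal B] {X : Target ι B}

/-- The one-insertion operator of `L_{K-1}`, twisted by a matrix. -/
noncomputable def vT (X : Target ι B) (N : Matrix ι ι ℂ) (K : ℕ) :
    ι × ℕ → (ι × ℕ → ℂ) → ℂ := fun x f =>
  ∑ i ∈ range (K + 1), if i < x.2 + K then br (X.μ x.1 + x.2 + 1 / 2) K i *
      ∑ b, (X.R ^ i * N) x.1 b * f (b, x.2 + K - 1 - i) else 0

theorem vT_fin (N : Matrix ι ι ℂ) (K : ℕ) : Fin' (vT X N K) := by
  refine Ev.fin (π := fun _ => 0) (ev_of_sum (fun _ => range (K + 1) ×ˢ Finset.univ)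
    (fun x k => if k.1 < x.2 + K then br (X.μ x.1 + x.2 + 1 / 2) K k.1 *
      (X.R ^ k.1 * N) x.1 k.2 else 0) (fun x k => (k.2, x.2 + K - 1 - k.1)) ?_ ?_)
  · intro x f
    unfold vT
    rw [Finset.sum_product]
    refine Finset.sum_congr rfl fun i _ => ?_
    split_ifs
    · rw [Finset.mul_sum]
      exact Finset.sum_congr rfl fun b _ => by ring
    · simp
  · intros; rfl

variable (G : GWTheory X)

namespace GWTheory

noncomputable def tT (N : Matrix ι ι ℂ) (K g : ℕ) (β : B) (l : List (ι × ℕ)) : ℂ :=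
  ∑ i ∈ range (K + 1), br (X.μ X.e + 3 / 2) K i *
      ∑ b, (X.R ^ i * N) X.e b * G.F g β ((b, K - i) :: l)

noncomputable def cC (N : Matrix ι ι ℂ) (K g : ℕ) (β : B) (l : List (ι × ℕ)) : ℂ :=
  trip K fun m n i => (-1) ^ (m + 1) * ∑ a, ∑ b, br (-X.μ a - m - 1 / 2) K i *
    (X.η⁻¹ * (X.R ^ i * N)) a b * G.quad g β (a, m) (b, n) l

noncomputable def eE (X : Target ι B) (K g : ℕ) (β : B) (l : List (ι × ℕ)) : ℂ :=
  if K = 1 ∧ g = 1 ∧ β = 0 ∧ l = [] then X.χ / 16 - X.strμ / 4 else 0

noncomputable def virM (N : Matrix ι ι ℂ) (K g : ℕ) (β : B) (l : List (ι × ℕ)) : ℂ :=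
  - G.tT N K g β l + act (vT X N K) l (G.F g β) + 1 / 2 * G.cC N K g β l +
  (if g = 0 ∧ β = 0 then two (X.R ^ K * N * X.η) l else 0) + eE X K g β l

theorem vir_eq (K g : ℕ) (β : B) (l : List (ι × ℕ)) : G.vir K g β l = G.virM 1 K g β l := by
  unfold vir virM tT cC eE vT trip
  simp only [Matrix.mul_one]

end GWTheory

variable {G} (P : Pun G)

namespace Pun

/-- The unit/divisor weights enter only through `s ∈ {0, 1}`. -/
theorem br_s (x : ℂ) (K i : ℕ) :
    br x (K + 1) i - br (x + P.s - 1) (K + 1) i = (1 - P.s) * (K + 1) * br x K i := by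
  rcases P.s_or with ⟨h, -⟩ | h
  · rw [h, add_zero, br_diff]; ring
  · rw [h]; ring_nf

theorem MRpow (i : ℕ) : P.M * X.R ^ i = X.R ^ i * P.M := by
  have : Commute P.M X.R := P.MR
  exact (this.pow_right i)

theorem row_mul (N : Matrix ι ι ℂ) (b : ι) : (P.M * N) X.e b = N P.a0 b := by
  rw [Matrix.mul_apply, Finset.sum_eq_single P.a0]
  · rw [P.row, if_pos rfl, one_mul]
  · intro x _ hx
    rw [P.row, if_neg hx, zero_mul]
  · intro h; exact absurd (Finset.mem_univ _) h

theorem Rpow_row (i : ℕ) (b : ι) : (X.R ^ i) P.a0 b = (X.R ^ i * P.M) X.e b := by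
  rw [← P.MRpow, P.row_mul]

theorem Rpow_μ {i : ℕ} {a b : ι} (h : (X.R ^ i) a b ≠ 0) : X.μ b = X.μ a + i :=
  X.μ_eq_iff.2 (X.Rpow_typeC h).1

theorem RM_μ {i : ℕ} {a b : ι} (h : (X.R ^ i * P.M) a b ≠ 0) : X.μ b = X.μ a + i + P.s := by
  rw [Matrix.mul_apply] at h
  obtain ⟨x, -, hx⟩ := Finset.exists_ne_zero_of_sum_ne_zero h
  rw [P.M_μ _ _ (right_ne_zero_of_mul hx), Rpow_μ (left_ne_zero_of_mul hx)]

theorem η_μ {a b : ι} (h : X.η a b ≠ 0) : X.μ a + X.μ b = 0 := by
  have h1 : (X.p a : ℂ) + X.p b = X.r := by exact_mod_cast (X.η_type a b h).1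
  unfold Target.μ
  linear_combination h1

theorem inv_μ {a b : ι} (h : X.η⁻¹ a b ≠ 0) : X.μ a + X.μ b = 0 := by
  have h1 : (X.p a : ℂ) + X.p b = X.r := by exact_mod_cast (X.inv_typeC h).1
  unfold Target.μ
  linear_combination h1

theorem Mη_μ {a b : ι} (h : (P.M * X.η) a b ≠ 0) : X.μ a + P.s + X.μ b = 0 := by
  rw [Matrix.mul_apply] at h
  obtain ⟨x, -, hx⟩ := Finset.exists_ne_zero_of_sum_ne_zero h
  rw [← P.M_μ _ _ (left_ne_zero_of_mul hx), η_μ (right_ne_zero_of_mul hx)]

theorem Mη_sg {a b : ι} (h : (P.M * X.η) a b ≠ 0) : X.sg a = X.sg b := by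
  rw [Matrix.mul_apply] at h
  obtain ⟨x, -, hx⟩ := Finset.exists_ne_zero_of_sum_ne_zero h
  rw [P.M_sg _ _ (left_ne_zero_of_mul hx), X.η_sg (right_ne_zero_of_mul hx)]

theorem RMη_μ {i : ℕ} {a b : ι} (h : (X.R ^ i * P.M * X.η) a b ≠ 0) :
    X.μ a + i + P.s + X.μ b = 0 := by
  rw [Matrix.mul_apply] at h
  obtain ⟨x, -, hx⟩ := Finset.exists_ne_zero_of_sum_ne_zero h
  rw [← P.RM_μ (left_ne_zero_of_mul hx), η_μ (right_ne_zero_of_mul hx)]

/-- Self-adjointness of `c_1^i M`. -/
theorem RM_adj (i : ℕ) : X.R ^ i * P.M * X.η = X.η * (X.R ^ i * P.M)ᵀ := by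
  calc X.R ^ i * P.M * X.η = X.R ^ i * X.η * P.Mᵀ := by
        rw [Matrix.mul_assoc, P.Mη, Matrix.mul_assoc]
    _ = X.η * (P.M * X.R ^ i)ᵀ := by rw [X.Rpow_adjC, Matrix.transpose_mul, Matrix.mul_assoc]
    _ = X.η * (X.R ^ i * P.M)ᵀ := by rw [P.MRpow]

/-- (I1) the term of the dilaton shift. -/
theorem tT_punct (K g : ℕ) (β : B) (l : List (ι × ℕ)) :
    G.tT 1 (K + 1) g β ((P.a0, 0) :: l) = P.dg β * G.tT 1 (K + 1) g β l +
      act (lower P.M) l (fun J => G.tT 1 (K + 1) g β J) +
      (∑ i ∈ range (K + 1), br (X.μ X.e + 3 / 2) (K + 1) i *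
        ∑ b, (X.R ^ i * P.M) X.e b * G.F g β ((b, K - i) :: l)) +
      (if g = 0 ∧ β = 0 then two (X.R ^ (K + 1) * X.η) ((P.a0, 0) :: l) else 0) := by
  unfold GWTheory.tT
  simp only [Matrix.mul_one]
  have h1 : ∀ i ∈ range (K + 1 + 1), br (X.μ X.e + 3 / 2) (K + 1) i *
      ∑ b, (X.R ^ i) X.e b * G.F g β ((b, K + 1 - i) :: (P.a0, 0) :: l) =
      P.dg β * (br (X.μ X.e + 3 / 2) (K + 1) i *
        ∑ b, (X.R ^ i) X.e b * G.F g β ((b, K + 1 - i) :: l)) +
      act (lower P.M) l (fun J => br (X.μ X.e + 3 / 2) (K + 1) i *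
        ∑ b, (X.R ^ i) X.e b * G.F g β ((b, K + 1 - i) :: J)) +
      (if i = K + 1 then 0 else br (X.μ X.e + 3 / 2) (K + 1) i *
        ∑ b, (X.R ^ i * P.M) X.e b * G.F g β ((b, K - i) :: l)) +
      (if i = K + 1 then (if g = 0 ∧ β = 0 then
        two (X.R ^ (K + 1) * X.η) ((P.a0, 0) :: l) else 0) else 0) := by
    intro i hi
    have hi' := Finset.mem_range.1 hi
    rw [act_smulC P.ev.fin, act_sum P.ev.fin]
    simp only [act_smulC P.ev.fin]
    have h2 : ∀ b, G.F g β ((b, K + 1 - i) :: (P.a0, 0) :: l) =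
        P.dg β * G.F g β ((b, K + 1 - i) :: l) +
        act (lower P.M) l (fun J => G.F g β ((b, K + 1 - i) :: J)) +
        (if i = K + 1 then 0 else ∑ x, P.M b x * G.F g β ((x, K - i) :: l)) +
        (if g = 0 ∧ β = 0 then two (P.M * X.η) ((b, K + 1 - i) :: l) else 0) := by
      intro b
      rw [P.F_cons, lower_eq]
      have : (K + 1 - i = 0) ↔ (i = K + 1) := by omega
      simp only [this]
      have h3 : K + 1 - i - 1 = K - i := by omega
      rw [h3]
      ring
    simp only [h2, mul_add, Finset.sum_add_distrib]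
    have h4 : ∑ b, (X.R ^ i) X.e b * (P.dg β * G.F g β ((b, K + 1 - i) :: l)) =
        P.dg β * ∑ b, (X.R ^ i) X.e b * G.F g β ((b, K + 1 - i) :: l) := by
      rw [Finset.mul_sum]
      exact Finset.sum_congr rfl fun b _ => by ring
    have h5 : ∑ b, (X.R ^ i) X.e b *
        (if i = K + 1 then 0 else ∑ x, P.M b x * G.F g β ((x, K - i) :: l)) =
        (if i = K + 1 then 0 else
          ∑ b, (X.R ^ i * P.M) X.e b * G.F g β ((b, K - i) :: l)) := by
      split_ifs
      · simp
      · simp only [Finset.mul_sum, Matrix.mul_apply, Finset.sum_mul]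
        rw [Finset.sum_comm]
        exact Finset.sum_congr rfl fun _ _ => Finset.sum_congr rfl fun _ _ => by ring
    have h6 : ∑ b, (X.R ^ i) X.e b *
        (if g = 0 ∧ β = 0 then two (P.M * X.η) ((b, K + 1 - i) :: l) else 0) =
        (if i = K + 1 then (if g = 0 ∧ β = 0 then
        two (X.R ^ (K + 1) * X.η) ((P.a0, 0) :: l) else 0) else 0) := by
      split_ifs with hz hk hk
      · subst hk
        simp only [Nat.sub_self]
        rcases l with _ | ⟨⟨c, n⟩, _ | ⟨w, l⟩⟩
        · simp
        · cases n with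
          | zero =>
            simp only [two_pair0]
            have e1 : ∑ b, (X.R ^ (K + 1)) X.e b * (P.M * X.η) b c =
                (X.R ^ (K + 1) * (P.M * X.η)) X.e c := (Matrix.mul_apply).symm
            rw [e1, ← P.row_mul (X.R ^ (K + 1) * X.η) c, ← Matrix.mul_assoc, ← Matrix.mul_assoc,
              P.MRpow]
          | succ n => simp [two_pair]
        · simp
      · refine Finset.sum_eq_zero fun b _ => ?_
        rw [two_cons, if_neg (by omega), mul_zero]
      · simp
      · simp
    rw [h4, h5, h6]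
    by_cases hk : i = K + 1
    · subst hk
      simp only [if_true]
      rw [br_self]
      ring
    · simp only [hk, if_false]
      ring
  rw [Finset.sum_congr rfl h1]
  simp only [Finset.sum_add_distrib]
  rw [← Finset.mul_sum, act_sum P.ev.fin]
  congr 1
  · congr 1
    rw [Finset.sum_range_succ, if_pos rfl, add_zero]
    refine Finset.sum_congr rfl fun i hi => ?_
    rw [if_neg (by have := Finset.mem_range.1 hi; omega)]
  · rw [Finset.sum_range_succ, if_pos rfl]
    rw [Finset.sum_eq_zero, zero_add]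
    intro i hi
    rw [if_neg (by have := Finset.mem_range.1 hi; omega)]

end Pun

end Vale.Agent.P269
end
end

section

section

namespace Vale.Agent.P269

set_option linter.unusedSectionVars false

open Finset Polynomial Matrix

variable {ι B : Type} [Fintype ι] [DecidableEq ι] [AddCommMonoid B]
variable [DecidableEq B] [HasAntidiagonal B] {X : Target ι B}
variable {G : GWTheory X} (P : Pun G)

namespace Pun

/-- The part of the commutator at insertions without descendants. -/
noncomputable def left (K : ℕ) : ι × ℕ → (ι × ℕ → ℂ) → ℂ := fun x f =>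
  if x.2 = 0 then ∑ i ∈ range K, br (X.μ x.1 + P.s - 1 / 2) (K + 1) i *
    ∑ c, (X.R ^ i * P.M) x.1 c * f (c, K - 1 - i) else 0

theorem vT_comm (K : ℕ) (x : ι × ℕ) (f : ι × ℕ → ℂ) :
    vT X 1 (K + 1) x (fun y => lower P.M y f) - lower P.M x (fun y => vT X 1 (K + 1) y f) =
      (1 - P.s) * (K + 1) * vT X P.M K x f + P.left K x f := by
  obtain ⟨b, m⟩ := x
  have e1 : vT X 1 (K + 1) (b, m) (fun y => lower P.M y f) =
      ∑ i ∈ range (K + 1 + 1), if i < m + K then br (X.μ b + m + 1 / 2) (K + 1) i *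
        ∑ c, (X.R ^ i * P.M) b c * f (c, m + K - 1 - i) else 0 := by
    unfold vT
    simp only [Matrix.mul_one]
    refine Finset.sum_congr rfl fun i _ => ?_
    by_cases h : i < m + K
    · rw [if_pos (by omega), if_pos h]
      congr 1
      have : ∀ x, (X.R ^ i) b x * lower P.M (x, m + (K + 1) - 1 - i) f =
          ∑ c, (X.R ^ i) b x * P.M x c * f (c, m + K - 1 - i) := by
        intro x
        rw [lower_eq, if_neg (by omega), Finset.mul_sum]
        refine Finset.sum_congr rfl fun c _ => ?_
        rw [show m + (K + 1) - 1 - i - 1 = m + K - 1 - i from by omega]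
        ring
      simp only [this]
      rw [Finset.sum_comm]
      refine Finset.sum_congr rfl fun c _ => ?_
      rw [Matrix.mul_apply, Finset.sum_mul]
    · rw [if_neg h]
      split_ifs with h2
      · have : ∀ x, (X.R ^ i) b x * lower P.M (x, m + (K + 1) - 1 - i) f = 0 := by
          intro x
          rw [lower_eq, if_pos (by omega), mul_zero]
        simp only [this]
        simp
      · rfl
  have e2 : lower P.M (b, m) (fun y => vT X 1 (K + 1) y f) =
      if m = 0 then 0 else ∑ i ∈ range (K + 1 + 1), if i < m + K then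
        br (X.μ b + m + 1 / 2 + P.s - 1) (K + 1) i *
        ∑ c, (X.R ^ i * P.M) b c * f (c, m + K - 1 - i) else 0 := by
    rw [lower_eq]
    split_ifs with hm
    · rfl
    · unfold vT
      simp only [Matrix.mul_one, Finset.mul_sum]
      rw [Finset.sum_comm]
      refine Finset.sum_congr rfl fun i _ => ?_
      by_cases h : i < m + K
      · rw [if_pos h]
        have : ∀ x, P.M b x * (if i < m - 1 + (K + 1) then
            ∑ c, br (X.μ x + ((m - 1 : ℕ) : ℂ) + 1 / 2) (K + 1) i *
              ((X.R ^ i) x c * f (c, m - 1 + (K + 1) - 1 - i)) else 0) =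
            ∑ c, br (X.μ b + m + 1 / 2 + P.s - 1) (K + 1) i *
              (P.M b x * (X.R ^ i) x c * f (c, m + K - 1 - i)) := by
          intro x
          rw [if_pos (by omega), Finset.mul_sum]
          refine Finset.sum_congr rfl fun c _ => ?_
          by_cases hM : P.M b x = 0
          · simp [hM]
          · rw [P.M_μ b x hM, show m - 1 + (K + 1) - 1 - i = m + K - 1 - i from by omega,
              Nat.cast_sub (by omega : 1 ≤ m)]
            push_cast
            rw [show X.μ b + P.s + ((m : ℂ) - 1) + 1 / 2 = X.μ b + m + 1 / 2 + P.s - 1 from by ring]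
            ring
        simp only [this]
        rw [Finset.sum_comm]
        refine Finset.sum_congr rfl fun c _ => ?_
        rw [← P.MRpow, Matrix.mul_apply, ← Finset.mul_sum, Finset.sum_mul]
      · rw [if_neg h]
        refine Finset.sum_eq_zero fun x _ => ?_
        rw [if_neg (by omega), mul_zero]
  have e3 : (1 - P.s) * (K + 1) * vT X P.M K (b, m) f =
      ∑ i ∈ range (K + 1 + 1), if i < m + K then
        (1 - P.s) * (K + 1) * br (X.μ b + m + 1 / 2) K i *
        ∑ c, (X.R ^ i * P.M) b c * f (c, m + K - 1 - i) else 0 := by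
    unfold vT
    rw [Finset.sum_range_succ _ (K + 1), br_gt _ (Nat.lt_succ_self K), Finset.mul_sum]
    simp only [mul_zero, zero_mul, ite_self, add_zero]
    refine Finset.sum_congr rfl fun i _ => ?_
    split_ifs <;> ring
  rw [e1, e2, e3]
  unfold left
  simp only
  by_cases hm : m = 0
  · subst hm
    simp only [if_true, sub_zero]
    have e4 : ∑ i ∈ range K, br (X.μ b + P.s - 1 / 2) (K + 1) i *
        ∑ c, (X.R ^ i * P.M) b c * f (c, K - 1 - i) =
        ∑ i ∈ range (K + 1 + 1), if i < 0 + K then br (X.μ b + P.s - 1 / 2) (K + 1) i *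
        ∑ c, (X.R ^ i * P.M) b c * f (c, 0 + K - 1 - i) else 0 := by
      rw [Finset.sum_range_succ, Finset.sum_range_succ, if_neg (by omega), if_neg (by omega),
        add_zero, add_zero]
      refine Finset.sum_congr rfl fun i hi => ?_
      rw [if_pos (by have := Finset.mem_range.1 hi; omega), zero_add]
    rw [e4, ← Finset.sum_add_distrib]
    refine Finset.sum_congr rfl fun i _ => ?_
    split_ifs with h
    · have := P.br_s (X.μ b + ((0 : ℕ) : ℂ) + 1 / 2) K i
      rw [show X.μ b + ((0 : ℕ) : ℂ) + 1 / 2 + P.s - 1 = X.μ b + P.s - 1 / 2 from by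
        push_cast; ring] at this
      linear_combination (∑ c, (X.R ^ i * P.M) b c * f (c, 0 + K - 1 - i)) * this
    · ring
  · simp only [hm, if_false, add_zero]
    rw [← Finset.sum_sub_distrib]
    refine Finset.sum_congr rfl fun i _ => ?_
    split_ifs with h
    · have := P.br_s (X.μ b + m + 1 / 2) K i
      linear_combination (∑ c, (X.R ^ i * P.M) b c * f (c, m + K - 1 - i)) * this
    · ring

/-- (I2) the one-insertion operator. -/
theorem act_punct (K g : ℕ) (β : B) (l : List (ι × ℕ)) :
    act (vT X 1 (K + 1)) ((P.a0, 0) :: l) (G.F g β) =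
      P.dg β * act (vT X 1 (K + 1)) l (G.F g β) +
      act (lower P.M) l (fun J => act (vT X 1 (K + 1)) J (G.F g β)) +
      (1 - P.s) * (K + 1) * act (vT X P.M K) l (G.F g β) +
      act (P.left K) l (G.F g β) +
      (∑ i ∈ range (K + 1), br (X.μ X.e + P.s + 1 / 2) (K + 1) i *
        ∑ b, (X.R ^ i * P.M) X.e b * G.F g β ((b, K - i) :: l)) +
      (if g = 0 ∧ β = 0 then act (vT X 1 (K + 1)) l (two (P.M * X.η)) else 0) := by
  rw [act_cons]
  have hv := vT_fin (X := X) 1 (K + 1)
  have h1 : vT X 1 (K + 1) (P.a0, 0) (fun y => G.F g β (y :: l)) =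
      ∑ i ∈ range (K + 1), br (X.μ X.e + P.s + 1 / 2) (K + 1) i *
        ∑ b, (X.R ^ i * P.M) X.e b * G.F g β ((b, K - i) :: l) := by
    unfold vT
    simp only [Matrix.mul_one]
    rw [Finset.sum_range_succ, if_neg (by omega), add_zero]
    refine Finset.sum_congr rfl fun i hi => ?_
    rw [if_pos (by have := Finset.mem_range.1 hi; omega), P.μ0]
    simp only [Nat.cast_zero, add_zero]
    congr 1
    refine Finset.sum_congr rfl fun b _ => ?_
    rw [P.Rpow_row, show 0 + (K + 1) - 1 - i = K - i from by omega]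
  have h2 : act (vT X 1 (K + 1)) l (fun J => G.F g β ((P.a0, 0) :: J)) =
      P.dg β * act (vT X 1 (K + 1)) l (G.F g β) +
      (act (lower P.M) l (fun J => act (vT X 1 (K + 1)) J (G.F g β)) +
      ((1 - P.s) * (K + 1) * act (vT X P.M K) l (G.F g β) +
      act (P.left K) l (G.F g β))) +
      (if g = 0 ∧ β = 0 then act (vT X 1 (K + 1)) l (two (P.M * X.η)) else 0) := by
    simp only [P.F_eq]
    rw [act_add hv, act_add hv, act_add hv, act_smulC hv, act_comm hv P.ev.fin,
      act_congrC (fun x f => P.vT_comm K x f), act_add', act_smul']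
    have e1 : act (vT X 1 (K + 1)) l (fun J => if g = 1 ∧ β = 0 ∧ J = [] then P.ε else 0) = 0 := by
      cases l with
      | nil => rfl
      | cons x l =>
        rw [act_congr_fun (x :: l) _ (fun _ => 0), act_zeroC hv]
        intro J hJ
        rw [if_neg]
        rintro ⟨-, -, h⟩
        rw [h] at hJ
        simp at hJ
    have e2 : act (vT X 1 (K + 1)) l (fun J => if g = 0 ∧ β = 0 then two (P.M * X.η) J else 0) =
        (if g = 0 ∧ β = 0 then act (vT X 1 (K + 1)) l (two (P.M * X.η)) else 0) := by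
      split_ifs
      · rfl
      · rw [act_zeroC hv]
    rw [e1, e2, add_zero]
  rw [h1, h2]
  ring

end Pun

end Vale.Agent.P269
end
end

section

section

namespace Vale.Agent.P269

set_option linter.unusedSectionVars false

open Finset Polynomial Matrix

variable {ι B : Type} [Fintype ι] [DecidableEq ι] [AddCommMonoid B]
variable [DecidableEq B] [HasAntidiagonal B] {X : Target ι B}
variable {G : GWTheory X} (P : Pun G)

theorem act_sum' {A κ : Type} (s : Finset κ) (T : κ → A → (A → ℂ) → ℂ) (l : List A)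
    (f : List A → ℂ) :
    act (fun x φ => ∑ k ∈ s, T k x φ) l f = ∑ k ∈ s, act (T k) l f := by
  induction l generalizing f with
  | nil => simp
  | cons x l ih => simp only [act_cons, ih, Finset.sum_add_distrib]

theorem act_trip {A : Type} {T : A → (A → ℂ) → ℂ} (hT : Fin' T) (K : ℕ) (l : List A)
    (f : List A → ℕ → ℕ → ℕ → ℂ) :
    act T l (fun J => trip K (f J)) = trip K (fun m n i => act T l (fun J => f J m n i)) := by
  unfold trip
  rw [act_sum hT]
  refine Finset.sum_congr rfl fun m _ => ?_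
  rw [act_sum hT]
  refine Finset.sum_congr rfl fun n _ => ?_
  rw [act_sum hT]
  refine Finset.sum_congr rfl fun i _ => ?_
  split_ifs
  · rfl
  · exact act_zeroC hT l

namespace Pun

/-- Weighted double sum over the basis. -/
noncomputable def dbl (X : Target ι B) (N : Matrix ι ι ℂ) (K i : ℕ) (x : ι → ℂ)
    (h : ι → ι → ℂ) : ℂ := ∑ a, ∑ b, br (x a) K i * (X.η⁻¹ * N) a b * h a b

theorem dbl_add (N : Matrix ι ι ℂ) (K i : ℕ) (x : ι → ℂ) (h h' : ι → ι → ℂ) :
    dbl X N K i x (fun a b => h a b + h' a b) = dbl X N K i x h + dbl X N K i x h' := by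
  unfold dbl
  simp only [mul_add, Finset.sum_add_distrib]

theorem dbl_smul (N : Matrix ι ι ℂ) (K i : ℕ) (x : ι → ℂ) (c : ℂ) (h : ι → ι → ℂ) :
    dbl X N K i x (fun a b => c * h a b) = c * dbl X N K i x h := by
  unfold dbl
  simp only [Finset.mul_sum]
  exact Finset.sum_congr rfl fun _ _ => Finset.sum_congr rfl fun _ _ => by ring

theorem act_dbl {A : Type} {T : A → (A → ℂ) → ℂ} (hT : Fin' T) (N : Matrix ι ι ℂ) (K i : ℕ)
    (x : ι → ℂ) (l : List A) (h : List A → ι → ι → ℂ) :
    act T l (fun J => dbl X N K i x (h J)) =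
      dbl X N K i x (fun a b => act T l (fun J => h J a b)) := by
  unfold dbl
  simp only [act_sum hT, act_smulC hT]

theorem MT_inv : P.Mᵀ * X.η⁻¹ = X.η⁻¹ * P.M := by
  calc P.Mᵀ * X.η⁻¹ = X.η⁻¹ * (X.η * P.Mᵀ) * X.η⁻¹ := by
        rw [← Matrix.mul_assoc, X.inv_mul_ηC, Matrix.one_mul]
    _ = X.η⁻¹ * P.M * (X.η * X.η⁻¹) := by rw [← P.Mη]; simp only [Matrix.mul_assoc]
    _ = X.η⁻¹ * P.M := by rw [X.η_mul_invC, Matrix.mul_one]

theorem MT_C (i : ℕ) : P.Mᵀ * (X.η⁻¹ * X.R ^ i) = X.η⁻¹ * (X.R ^ i * P.M) := by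
  rw [← Matrix.mul_assoc, P.MT_inv, Matrix.mul_assoc, P.MRpow]

theorem C_M (i : ℕ) : X.η⁻¹ * X.R ^ i * P.M = X.η⁻¹ * (X.R ^ i * P.M) := by
  rw [Matrix.mul_assoc]

theorem C_sg {i : ℕ} {a b : ι} (h : (X.η⁻¹ * X.R ^ i) a b ≠ 0) : X.sg a = X.sg b := by
  rw [Matrix.mul_apply] at h
  obtain ⟨x, -, hx⟩ := Finset.exists_ne_zero_of_sum_ne_zero h
  rw [X.inv_sg (left_ne_zero_of_mul hx), X.Rpow_sg (right_ne_zero_of_mul hx)]

theorem Mη_swap (a c : ι) : (P.M * X.η) a c = X.sg a * (P.M * X.η) c a := by
  conv_lhs => rw [P.Mη]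
  rw [Matrix.mul_apply, Matrix.mul_apply, Finset.mul_sum]
  refine Finset.sum_congr rfl fun y _ => ?_
  rw [X.η_swap a y, Matrix.transpose_apply]
  ring

/-- First exceptional matrix identity. -/
theorem exc_mat1 (i : ℕ) (b c : ι) :
    ∑ a, (X.η⁻¹ * X.R ^ i) a b * (P.M * X.η) a c * X.sg b = (X.R ^ i * P.M) c b := by
  have h1 : ∀ a, (X.η⁻¹ * X.R ^ i) a b * (P.M * X.η) a c * X.sg b =
      (P.M * X.η) c a * (X.η⁻¹ * X.R ^ i) a b := by
    intro a
    by_cases h : (X.η⁻¹ * X.R ^ i) a b = 0
    · rw [h]; ring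
    · rw [P.Mη_swap a c, ← C_sg h]
      have := X.sg_sq a
      linear_combination (P.M * X.η) c a * (X.η⁻¹ * X.R ^ i) a b * this
  simp only [h1]
  have h2 := (Matrix.mul_apply (M := P.M * X.η) (N := X.η⁻¹ * X.R ^ i) (i := c) (k := b)).symm
  rw [h2]
  have h3 : P.M * X.η * (X.η⁻¹ * X.R ^ i) = P.M * X.R ^ i := by
    rw [Matrix.mul_assoc, ← Matrix.mul_assoc X.η, X.η_mul_invC, Matrix.one_mul]
  rw [h3, P.MRpow]

/-- Second exceptional matrix identity. -/
theorem exc_mat2 (i : ℕ) (a c : ι) :
    ∑ b, (X.η⁻¹ * X.R ^ i) a b * (P.M * X.η) b c = (X.R ^ i * P.M) c a := by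
  have h2 := (Matrix.mul_apply (M := X.η⁻¹ * X.R ^ i) (N := P.M * X.η) (i := a) (k := c)).symm
  rw [h2]
  have h3 : X.η⁻¹ * X.R ^ i * (P.M * X.η) = (X.R ^ i * P.M)ᵀ := by
    have e : X.η⁻¹ * X.R ^ i * (P.M * X.η) = X.η⁻¹ * (X.R ^ i * P.M * X.η) := by
      simp only [Matrix.mul_assoc]
    rw [e, P.RM_adj, ← Matrix.mul_assoc, X.inv_mul_ηC, Matrix.one_mul]
  rw [h3, Matrix.transpose_apply]

/-- Lowering in the first insertion. -/
theorem dbl_lower_left (K i m : ℕ) (l : List (ι × ℕ)) (g : ℕ) (β : B) (n : ℕ) :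
    dbl X (X.R ^ i) (K + 1) i (fun a => -X.μ a - ((m + 1 : ℕ) : ℂ) - 1 / 2)
      (fun a b => lower P.M (a, m + 1) (fun z => G.quad g β z (b, n) l)) =
    dbl X (X.R ^ i * P.M) (K + 1) i (fun a => -X.μ a - m - 1 / 2 + P.s - 1)
      (fun a b => G.quad g β (a, m) (b, n) l) := by
  unfold dbl
  have h1 : ∀ a b, br (-X.μ a - ((m + 1 : ℕ) : ℂ) - 1 / 2) (K + 1) i * (X.η⁻¹ * X.R ^ i) a b *
      lower P.M (a, m + 1) (fun z => G.quad g β z (b, n) l) =
      ∑ c, br (-X.μ c - m - 1 / 2 + P.s - 1) (K + 1) i *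
        (P.M a c * (X.η⁻¹ * X.R ^ i) a b) * G.quad g β (c, m) (b, n) l := by
    intro a b
    rw [lower_eq, if_neg (Nat.succ_ne_zero m), Finset.mul_sum]
    refine Finset.sum_congr rfl fun c _ => ?_
    by_cases h : P.M a c = 0
    · simp [h]
    · rw [P.M_μ a c h, Nat.add_sub_cancel]
      push_cast
      rw [show -X.μ a - ((m : ℂ) + 1) - 1 / 2 = -(X.μ a + P.s) - m - 1 / 2 + P.s - 1 from by ring]
      ring
  simp only [h1]
  have h2 : ∀ c b, br (-X.μ c - m - 1 / 2 + P.s - 1) (K + 1) i *
      (X.η⁻¹ * (X.R ^ i * P.M)) c b * G.quad g β (c, m) (b, n) l =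
      ∑ a, br (-X.μ c - m - 1 / 2 + P.s - 1) (K + 1) i *
        (P.M a c * (X.η⁻¹ * X.R ^ i) a b) * G.quad g β (c, m) (b, n) l := by
    intro c b
    rw [← P.MT_C, Matrix.mul_apply, Finset.mul_sum, Finset.sum_mul]
    rfl
  simp only [h2]
  rw [Finset.sum_comm]
  conv_rhs => rw [Finset.sum_comm]
  refine Finset.sum_congr rfl fun b _ => ?_
  rw [Finset.sum_comm]

/-- Lowering in the second insertion. -/
theorem dbl_lower_right (K i m : ℕ) (l : List (ι × ℕ)) (g : ℕ) (β : B) (n : ℕ) :
    dbl X (X.R ^ i) (K + 1) i (fun a => -X.μ a - m - 1 / 2)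
      (fun a b => lower P.M (b, n + 1) (fun z => G.quad g β (a, m) z l)) =
    dbl X (X.R ^ i * P.M) (K + 1) i (fun a => -X.μ a - m - 1 / 2)
      (fun a b => G.quad g β (a, m) (b, n) l) := by
  unfold dbl
  refine Finset.sum_congr rfl fun a _ => ?_
  have h1 : ∀ b, br (-X.μ a - m - 1 / 2) (K + 1) i * (X.η⁻¹ * X.R ^ i) a b *
      lower P.M (b, n + 1) (fun z => G.quad g β (a, m) z l) =
      ∑ c, br (-X.μ a - m - 1 / 2) (K + 1) i *
        ((X.η⁻¹ * X.R ^ i) a b * P.M b c) * G.quad g β (a, m) (c, n) l := by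
    intro b
    rw [lower_eq, if_neg (Nat.succ_ne_zero n), Finset.mul_sum]
    refine Finset.sum_congr rfl fun c _ => ?_
    rw [Nat.add_sub_cancel]
    ring
  simp only [h1]
  rw [Finset.sum_comm]
  refine Finset.sum_congr rfl fun c _ => ?_
  rw [← P.C_M, Matrix.mul_apply, Finset.mul_sum, Finset.sum_mul]

theorem first_exc (g : ℕ) (β : B) (a b : ι) (m n : ℕ) (l : List (ι × ℕ)) (hab : X.sg a = X.sg b) :
    split X.par l (fun I => (-1) ^ (X.par (b, n) * (I.map X.par).sum) *
      two (P.M * X.η) ((a, m) :: I)) (fun J => G.F g β ((b, n) :: J)) =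
    if m = 0 then act (fun z ψ => X.sg b * (if z.2 = 0 then (P.M * X.η) a z.1 else 0) * ψ (b, n)) l
      (G.F g β) else 0 := by
  simp only [two_cons]
  split_ifs with hm
  · rw [split_one_left (b, n) _ _ _ _ (G.sym g β)]
    · rfl
    · rintro ⟨c, k⟩ h
      simp only at h
      split_ifs at h with hk
      · rw [par_sg, par_sg, ← hab]
        exact (P.Mη_sg h).symm
      · exact absurd rfl h
  · simp only [mul_zero]
    rw [split_zero_left]

theorem second_exc (g : ℕ) (β : B) (a b : ι) (m n : ℕ) (l : List (ι × ℕ))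
    (hab : X.sg a = X.sg b) :
    split X.par l (fun I => (-1) ^ (X.par (b, n) * (I.map X.par).sum) * G.F g β ((a, m) :: I))
      (fun J => two (P.M * X.η) ((b, n) :: J)) =
    if n = 0 then act (fun z θ => (if z.2 = 0 then (P.M * X.η) b z.1 else 0) * θ (a, m)) l
      (G.F g β) else 0 := by
  simp only [two_cons]
  split_ifs with hn
  · rw [split_one_right (a, m) (b, n) _ _ _ _ _ (G.sym g β)]
    · rw [par_sg, par_sg, hab]
    · rintro ⟨c, k⟩ h
      simp only at h
      split_ifs at h with hk
      · rw [par_sg, par_sg]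
        exact (P.Mη_sg h).symm
      · exact absurd rfl h
  · rw [split_zero_right]

/-- The first exceptional contribution. -/
theorem exc_sum1 (K g : ℕ) (β : B) (l : List (ι × ℕ)) :
    trip (K + 1) (fun m n i => (-1) ^ (m + 1) *
      dbl X (X.R ^ i) (K + 1) i (fun a => -X.μ a - m - 1 / 2) (fun a b =>
        split X.par l (fun I => (-1) ^ (X.par (b, n) * (I.map X.par).sum) *
          two (P.M * X.η) ((a, m) :: I)) (fun J => G.F g β ((b, n) :: J)))) =
    - act (P.left K) l (G.F g β) := by
  have h1 : trip (K + 1) (fun m n i => (-1) ^ (m + 1) *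
      dbl X (X.R ^ i) (K + 1) i (fun a => -X.μ a - m - 1 / 2) (fun a b =>
        split X.par l (fun I => (-1) ^ (X.par (b, n) * (I.map X.par).sum) *
          two (P.M * X.η) ((a, m) :: I)) (fun J => G.F g β ((b, n) :: J)))) =
      trip (K + 1) (fun m n i => if m = 0 then (-1) ^ (m + 1) *
      dbl X (X.R ^ i) (K + 1) i (fun a => -X.μ a - m - 1 / 2) (fun a b =>
        act (fun z ψ => X.sg b * (if z.2 = 0 then (P.M * X.η) a z.1 else 0) * ψ (b, n)) l
          (G.F g β)) else 0) := by
    refine trip_congr fun m n i _ => ?_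
    simp only [dbl]
    by_cases hm : m = 0
    · rw [if_pos hm]
      congr 1
      refine Finset.sum_congr rfl fun a _ => Finset.sum_congr rfl fun b _ => ?_
      by_cases hc : (X.η⁻¹ * X.R ^ i) a b = 0
      · simp [hc]
      · rw [P.first_exc g β a b m n l (C_sg hc), if_pos hm]
    · rw [if_neg hm]
      refine mul_eq_zero_of_right _ (Finset.sum_eq_zero fun a _ => Finset.sum_eq_zero fun b _ => ?_)
      by_cases hc : (X.η⁻¹ * X.R ^ i) a b = 0
      · simp [hc]
      · rw [P.first_exc g β a b m n l (C_sg hc), if_neg hm, mul_zero]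
  rw [h1, trip_left_zero]
  have h2 : ∀ i, (-1 : ℂ) ^ (0 + 1) *
      dbl X (X.R ^ i) (K + 1) i (fun a => -X.μ a - ((0 : ℕ) : ℂ) - 1 / 2) (fun a b =>
        act (fun z ψ => X.sg b * (if z.2 = 0 then (P.M * X.η) a z.1 else 0) *
          ψ (b, K - 1 - i)) l (G.F g β)) =
      act (fun z ψ => ∑ a, ∑ b, (-1) * (br (-X.μ a - 1 / 2) (K + 1) i *
        (X.η⁻¹ * X.R ^ i) a b) * (X.sg b * (if z.2 = 0 then (P.M * X.η) a z.1 else 0) *
          ψ (b, K - 1 - i))) l (G.F g β) := by
    intro i
    rw [act_sum' Finset.univ (fun a z ψ => ∑ b, (-1) * (br (-X.μ a - 1 / 2) (K + 1) i *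
        (X.η⁻¹ * X.R ^ i) a b) * (X.sg b * (if z.2 = 0 then (P.M * X.η) a z.1 else 0) *
          ψ (b, K - 1 - i)))]
    unfold dbl
    rw [Finset.mul_sum]
    refine Finset.sum_congr rfl fun a _ => ?_
    rw [act_sum' Finset.univ (fun b z ψ => (-1) * (br (-X.μ a - 1 / 2) (K + 1) i *
        (X.η⁻¹ * X.R ^ i) a b) * (X.sg b * (if z.2 = 0 then (P.M * X.η) a z.1 else 0) *
          ψ (b, K - 1 - i))), Finset.mul_sum]
    refine Finset.sum_congr rfl fun b _ => ?_
    rw [act_smul' ((-1) * (br (-X.μ a - 1 / 2) (K + 1) i * (X.η⁻¹ * X.R ^ i) a b))]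
    push_cast
    rw [sub_zero]
    ring
  simp only [h2]
  rw [← act_sum' (range K) (fun i z ψ => ∑ a, ∑ b, (-1) * (br (-X.μ a - 1 / 2) (K + 1) i *
        (X.η⁻¹ * X.R ^ i) a b) * (X.sg b * (if z.2 = 0 then (P.M * X.η) a z.1 else 0) *
          ψ (b, K - 1 - i)))]
  have h3 : - act (P.left K) l (G.F g β) = act (fun z ψ => (-1) * P.left K z ψ) l (G.F g β) := by
    rw [act_smul']; ring
  rw [h3]
  refine act_congrC (fun z ψ => ?_) l _
  obtain ⟨c, k⟩ := z
  unfold left
  simp only
  by_cases hk : k = 0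
  · simp only [hk, if_true]
    rw [Finset.mul_sum]
    refine Finset.sum_congr rfl fun i _ => ?_
    rw [Finset.sum_comm, Finset.mul_sum, Finset.mul_sum]
    refine Finset.sum_congr rfl fun b _ => ?_
    rw [← P.exc_mat1 i b c, Finset.sum_mul, Finset.mul_sum, Finset.mul_sum]
    refine Finset.sum_congr rfl fun a _ => ?_
    by_cases hM : (P.M * X.η) a c = 0
    · simp [hM]
    · have := P.Mη_μ hM
      rw [show -X.μ a - 1 / 2 = X.μ c + P.s - 1 / 2 from by linear_combination -this]
      ring
  · simp [hk]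

/-- The second exceptional contribution. -/
theorem exc_sum2 (K g : ℕ) (β : B) (l : List (ι × ℕ)) :
    trip (K + 1) (fun m n i => (-1) ^ (m + 1) *
      dbl X (X.R ^ i) (K + 1) i (fun a => -X.μ a - m - 1 / 2) (fun a b =>
        split X.par l (fun I => (-1) ^ (X.par (b, n) * (I.map X.par).sum) *
          G.F g β ((a, m) :: I)) (fun J => two (P.M * X.η) ((b, n) :: J)))) =
    - act (P.left K) l (G.F g β) := by
  have h1 : trip (K + 1) (fun m n i => (-1) ^ (m + 1) *
      dbl X (X.R ^ i) (K + 1) i (fun a => -X.μ a - m - 1 / 2) (fun a b =>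
        split X.par l (fun I => (-1) ^ (X.par (b, n) * (I.map X.par).sum) *
          G.F g β ((a, m) :: I)) (fun J => two (P.M * X.η) ((b, n) :: J)))) =
      trip (K + 1) (fun m n i => if n = 0 then (-1) ^ (m + 1) *
      dbl X (X.R ^ i) (K + 1) i (fun a => -X.μ a - m - 1 / 2) (fun a b =>
        act (fun z θ => (if z.2 = 0 then (P.M * X.η) b z.1 else 0) * θ (a, m)) l
          (G.F g β)) else 0) := by
    refine trip_congr fun m n i _ => ?_
    simp only [dbl]
    by_cases hn : n = 0
    · rw [if_pos hn]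
      congr 1
      refine Finset.sum_congr rfl fun a _ => Finset.sum_congr rfl fun b _ => ?_
      by_cases hc : (X.η⁻¹ * X.R ^ i) a b = 0
      · simp [hc]
      · rw [P.second_exc g β a b m n l (C_sg hc), if_pos hn]
    · rw [if_neg hn]
      refine mul_eq_zero_of_right _ (Finset.sum_eq_zero fun a _ => Finset.sum_eq_zero fun b _ => ?_)
      by_cases hc : (X.η⁻¹ * X.R ^ i) a b = 0
      · simp [hc]
      · rw [P.second_exc g β a b m n l (C_sg hc), if_neg hn, mul_zero]
  rw [h1, trip_right_zero]
  have h2 : ∀ i, (-1 : ℂ) ^ (K - 1 - i + 1) *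
      dbl X (X.R ^ i) (K + 1) i (fun a => -X.μ a - ((K - 1 - i : ℕ) : ℂ) - 1 / 2) (fun a b =>
        act (fun z θ => (if z.2 = 0 then (P.M * X.η) b z.1 else 0) *
          θ (a, K - 1 - i)) l (G.F g β)) =
      act (fun z θ => ∑ a, ∑ b, (-1) ^ (K - 1 - i + 1) *
        (br (-X.μ a - ((K - 1 - i : ℕ) : ℂ) - 1 / 2) (K + 1) i *
        (X.η⁻¹ * X.R ^ i) a b) * ((if z.2 = 0 then (P.M * X.η) b z.1 else 0) *
          θ (a, K - 1 - i))) l (G.F g β) := by
    intro i
    rw [act_sum' Finset.univ (fun a z θ => ∑ b, (-1) ^ (K - 1 - i + 1) *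
        (br (-X.μ a - ((K - 1 - i : ℕ) : ℂ) - 1 / 2) (K + 1) i *
        (X.η⁻¹ * X.R ^ i) a b) * ((if z.2 = 0 then (P.M * X.η) b z.1 else 0) *
          θ (a, K - 1 - i)))]
    unfold dbl
    rw [Finset.mul_sum]
    refine Finset.sum_congr rfl fun a _ => ?_
    rw [act_sum' Finset.univ (fun b z θ => (-1) ^ (K - 1 - i + 1) *
        (br (-X.μ a - ((K - 1 - i : ℕ) : ℂ) - 1 / 2) (K + 1) i *
        (X.η⁻¹ * X.R ^ i) a b) * ((if z.2 = 0 then (P.M * X.η) b z.1 else 0) *
          θ (a, K - 1 - i))), Finset.mul_sum]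
    refine Finset.sum_congr rfl fun b _ => ?_
    rw [act_smul' ((-1) ^ (K - 1 - i + 1) *
        (br (-X.μ a - ((K - 1 - i : ℕ) : ℂ) - 1 / 2) (K + 1) i * (X.η⁻¹ * X.R ^ i) a b))]
    ring
  simp only [h2]
  rw [← act_sum' (range K) (fun i z θ => ∑ a, ∑ b, (-1) ^ (K - 1 - i + 1) *
        (br (-X.μ a - ((K - 1 - i : ℕ) : ℂ) - 1 / 2) (K + 1) i *
        (X.η⁻¹ * X.R ^ i) a b) * ((if z.2 = 0 then (P.M * X.η) b z.1 else 0) *
          θ (a, K - 1 - i)))]
  have h3 : - act (P.left K) l (G.F g β) = act (fun z ψ => (-1) * P.left K z ψ) l (G.F g β) := by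
    rw [act_smul']; ring
  rw [h3]
  refine act_congrC (fun z θ => ?_) l _
  obtain ⟨c, k⟩ := z
  unfold left
  simp only
  by_cases hk : k = 0
  · simp only [hk, if_true]
    rw [Finset.mul_sum]
    refine Finset.sum_congr rfl fun i hi => ?_
    have hi' := Finset.mem_range.1 hi
    rw [Finset.mul_sum, Finset.mul_sum]
    refine Finset.sum_congr rfl fun a _ => ?_
    have h4 : ∑ b, (-1 : ℂ) ^ (K - 1 - i + 1) *
        (br (-X.μ a - ((K - 1 - i : ℕ) : ℂ) - 1 / 2) (K + 1) i * (X.η⁻¹ * X.R ^ i) a b) *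
        ((P.M * X.η) b c * θ (a, K - 1 - i)) =
        (-1 : ℂ) ^ (K - 1 - i + 1) * br (-X.μ a - ((K - 1 - i : ℕ) : ℂ) - 1 / 2) (K + 1) i *
        (X.R ^ i * P.M) c a * θ (a, K - 1 - i) := by
      rw [← P.exc_mat2 i a c, Finset.mul_sum, Finset.sum_mul]
      exact Finset.sum_congr rfl fun b _ => by ring
    rw [h4]
    by_cases hM : (X.R ^ i * P.M) c a = 0
    · simp [hM]
    · have h5 := P.RM_μ hM
      have h6 : ((K - 1 - i : ℕ) : ℂ) = (K : ℂ) - 1 - i := by
        rw [Nat.sub_sub, Nat.cast_sub (by omega)]; push_cast; ring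
      have h7 := br_reflect (X.μ c + P.s - 1 / 2) (K + 1) i
      have h8 : -X.μ a - ((K - 1 - i : ℕ) : ℂ) - 1 / 2 =
          -(X.μ c + P.s - 1 / 2) - ((K + 1 : ℕ) : ℂ) + 1 := by
        rw [h5, h6]; push_cast; ring
      rw [h8, h7]
      have h9 : (-1 : ℂ) ^ (K - 1 - i + 1) * (-1) ^ (K + 1 + i) = -1 := by
        rw [← pow_add, show K - 1 - i + 1 + (K + 1 + i) = 2 * K + 1 from by omega, pow_succ,
          pow_mul]
        norm_num
      linear_combination (br (X.μ c + P.s - 1 / 2) (K + 1) i * (X.R ^ i * P.M) c a *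
        θ (a, K - 1 - i)) * h9
  · simp [hk]

end Pun

end Vale.Agent.P269
end
end

section

section

namespace Vale.Agent.P269

set_option linter.unusedSectionVars false

open Finset Polynomial Matrix

variable {ι B : Type} [Fintype ι] [DecidableEq ι] [AddCommMonoid B]
variable [DecidableEq B] [HasAntidiagonal B] {X : Target ι B}
variable {G : GWTheory X} (P : Pun G)

theorem two_len (N : Matrix ι ι ℂ) (J : List (ι × ℕ)) (h : J.length ≠ 2) : two N J = 0 :=
  two_zero_of_length h

namespace Pun

noncomputable def excE (K g : ℕ) (β : B) (l : List (ι × ℕ)) : ℂ :=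
  trip (K + 1) (fun m n i => (-1) ^ (m + 1) *
    dbl X (X.R ^ i) (K + 1) i (fun a => -X.μ a - m - 1 / 2) (fun a b =>
      if g = 1 ∧ β = 0 then two (P.M * X.η) ((a, m) :: (b, n) :: l) else 0))

/-- (I3) the quadratic term. -/
theorem cC_punct (K g : ℕ) (β : B) (l : List (ι × ℕ)) :
    G.cC 1 (K + 1) g β ((P.a0, 0) :: l) = P.dg β * G.cC 1 (K + 1) g β l +
      act (lower P.M) l (fun J => G.cC 1 (K + 1) g β J) +
      (1 - P.s) * (K + 1) * G.cC P.M K g β l - 2 * act (P.left K) l (G.F g β) +
      P.excE K g β l := by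
  have hc : ∀ (N : Matrix ι ι ℂ) (K : ℕ) (J : List (ι × ℕ)), G.cC N K g β J =
      trip K (fun m n i => (-1) ^ (m + 1) * dbl X (X.R ^ i * N) K i
        (fun a => -X.μ a - m - 1 / 2) (fun a b => G.quad g β (a, m) (b, n) J)) :=
    fun N K J => rfl
  simp only [hc, Matrix.mul_one]
  rw [act_trip P.ev.fin]
  have h1 : trip (K + 1) (fun m n i => (-1) ^ (m + 1) * dbl X (X.R ^ i) (K + 1) i
        (fun a => -X.μ a - m - 1 / 2)
        (fun a b => G.quad g β (a, m) (b, n) ((P.a0, 0) :: l))) =
      trip (K + 1) (fun m n i =>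
        (P.dg β * ((-1) ^ (m + 1) * dbl X (X.R ^ i) (K + 1) i
          (fun a => -X.μ a - m - 1 / 2) (fun a b => G.quad g β (a, m) (b, n) l)) +
        act (lower P.M) l (fun J => (-1) ^ (m + 1) * dbl X (X.R ^ i) (K + 1) i
          (fun a => -X.μ a - m - 1 / 2) (fun a b => G.quad g β (a, m) (b, n) J))) +
        ((if m = 0 then 0 else (-1) ^ (m + 1) * dbl X (X.R ^ i) (K + 1) i
          (fun a => -X.μ a - m - 1 / 2)
          (fun a b => lower P.M (a, m) (fun z => G.quad g β z (b, n) l))) +
        (if n = 0 then 0 else (-1) ^ (m + 1) * dbl X (X.R ^ i) (K + 1) i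
          (fun a => -X.μ a - m - 1 / 2)
          (fun a b => lower P.M (b, n) (fun z => G.quad g β (a, m) z l)))) +
        (((-1) ^ (m + 1) * dbl X (X.R ^ i) (K + 1) i (fun a => -X.μ a - m - 1 / 2) (fun a b =>
          split X.par l (fun I => (-1) ^ (X.par (b, n) * (I.map X.par).sum) *
            two (P.M * X.η) ((a, m) :: I)) (fun J => G.F g β ((b, n) :: J))) +
        (-1) ^ (m + 1) * dbl X (X.R ^ i) (K + 1) i (fun a => -X.μ a - m - 1 / 2) (fun a b =>
          split X.par l (fun I => (-1) ^ (X.par (b, n) * (I.map X.par).sum) *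
            G.F g β ((a, m) :: I)) (fun J => two (P.M * X.η) ((b, n) :: J)))) +
        (-1) ^ (m + 1) * dbl X (X.R ^ i) (K + 1) i (fun a => -X.μ a - m - 1 / 2) (fun a b =>
          if g = 1 ∧ β = 0 then two (P.M * X.η) ((a, m) :: (b, n) :: l) else 0))) := by
    refine trip_congr fun m n i _ => ?_
    rw [act_smulC P.ev.fin, act_dbl P.ev.fin]
    have e1 : (fun a b => G.quad g β (a, m) (b, n) ((P.a0, 0) :: l)) = fun a b =>
        ((((P.dg β * G.quad g β (a, m) (b, n) l +
        act (lower P.M) l (fun J => G.quad g β (a, m) (b, n) J)) +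
        lower P.M (a, m) (fun z => G.quad g β z (b, n) l)) +
        lower P.M (b, n) (fun z => G.quad g β (a, m) z l)) +
        (((if g = 1 ∧ β = 0 then two (P.M * X.η) ((a, m) :: (b, n) :: l) else 0) +
        split X.par l (fun I => (-1) ^ (X.par (b, n) * (I.map X.par).sum) *
            two (P.M * X.η) ((a, m) :: I)) (fun J => G.F g β ((b, n) :: J))) +
        split X.par l (fun I => (-1) ^ (X.par (b, n) * (I.map X.par).sum) *
            G.F g β ((a, m) :: I)) (fun J => two (P.M * X.η) ((b, n) :: J)))) := by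
      funext a b
      rw [P.quad_punct]
      rfl
    rw [e1, dbl_add, dbl_add, dbl_add, dbl_add, dbl_add, dbl_add, dbl_smul]
    have e2 : dbl X (X.R ^ i) (K + 1) i (fun a => -X.μ a - m - 1 / 2)
        (fun a b => lower P.M (a, m) (fun z => G.quad g β z (b, n) l)) =
        if m = 0 then 0 else dbl X (X.R ^ i) (K + 1) i (fun a => -X.μ a - m - 1 / 2)
        (fun a b => lower P.M (a, m) (fun z => G.quad g β z (b, n) l)) := by
      split_ifs with hm
      · subst hm
        simp only [dbl]
        refine Finset.sum_eq_zero fun a _ => Finset.sum_eq_zero fun b _ => ?_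
        rw [show lower P.M (a, 0) (fun z => G.quad g β z (b, n) l) = 0 from rfl, mul_zero]
      · rfl
    have e3 : dbl X (X.R ^ i) (K + 1) i (fun a => -X.μ a - m - 1 / 2)
        (fun a b => lower P.M (b, n) (fun z => G.quad g β (a, m) z l)) =
        if n = 0 then 0 else dbl X (X.R ^ i) (K + 1) i (fun a => -X.μ a - m - 1 / 2)
        (fun a b => lower P.M (b, n) (fun z => G.quad g β (a, m) z l)) := by
      split_ifs with hn
      · subst hn
        simp only [dbl]
        refine Finset.sum_eq_zero fun a _ => Finset.sum_eq_zero fun b _ => ?_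
        rw [show lower P.M (b, 0) (fun z => G.quad g β (a, m) z l) = 0 from rfl, mul_zero]
      · rfl
    rw [e2, e3]
    split_ifs <;> ring
  rw [h1, trip_add, trip_add, trip_add, trip_add, trip_add, trip_add, trip_smul, P.exc_sum1,
    P.exc_sum2, trip_shift_left K (fun m n i => (-1) ^ (m + 1) * dbl X (X.R ^ i) (K + 1) i
          (fun a => -X.μ a - m - 1 / 2)
          (fun a b => lower P.M (a, m) (fun z => G.quad g β z (b, n) l))),
    trip_shift_right K (fun m n i => (-1) ^ (m + 1) * dbl X (X.R ^ i) (K + 1) i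
          (fun a => -X.μ a - m - 1 / 2)
          (fun a b => lower P.M (b, n) (fun z => G.quad g β (a, m) z l)))]
  have h2 : trip K (fun m n i => (-1) ^ (m + 1 + 1) * dbl X (X.R ^ i) (K + 1) i
          (fun a => -X.μ a - ((m + 1 : ℕ) : ℂ) - 1 / 2)
          (fun a b => lower P.M (a, m + 1) (fun z => G.quad g β z (b, n) l))) +
      trip K (fun m n i => (-1) ^ (m + 1) * dbl X (X.R ^ i) (K + 1) i
          (fun a => -X.μ a - m - 1 / 2)
          (fun a b => lower P.M (b, n + 1) (fun z => G.quad g β (a, m) z l))) =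
      (1 - P.s) * (K + 1) * trip K (fun m n i => (-1) ^ (m + 1) * dbl X (X.R ^ i * P.M) K i
        (fun a => -X.μ a - m - 1 / 2) (fun a b => G.quad g β (a, m) (b, n) l)) := by
    rw [← trip_add, ← trip_smul]
    refine trip_congr fun m n i _ => ?_
    rw [P.dbl_lower_left, P.dbl_lower_right]
    have e4 : dbl X (X.R ^ i * P.M) (K + 1) i (fun a => -X.μ a - m - 1 / 2)
        (fun a b => G.quad g β (a, m) (b, n) l) -
        dbl X (X.R ^ i * P.M) (K + 1) i (fun a => -X.μ a - m - 1 / 2 + P.s - 1)
        (fun a b => G.quad g β (a, m) (b, n) l) =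
        (1 - P.s) * (K + 1) * dbl X (X.R ^ i * P.M) K i (fun a => -X.μ a - m - 1 / 2)
        (fun a b => G.quad g β (a, m) (b, n) l) := by
      unfold dbl
      rw [← Finset.sum_sub_distrib, Finset.mul_sum]
      refine Finset.sum_congr rfl fun a _ => ?_
      rw [← Finset.sum_sub_distrib, Finset.mul_sum]
      refine Finset.sum_congr rfl fun b _ => ?_
      have := P.br_s (-X.μ a - m - 1 / 2) K i
      linear_combination ((X.η⁻¹ * (X.R ^ i * P.M)) a b * G.quad g β (a, m) (b, n) l) * this
    rw [pow_succ _ (m + 1)]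
    linear_combination ((-1 : ℂ)) ^ (m + 1) * e4
  unfold excE
  linear_combination h2

theorem vT_at_zero (K : ℕ) (b : ι) (m : ℕ) (N : ι → ℂ) :
    vT X 1 (K + 1) (b, m) (fun z => if z.2 = 0 then N z.1 else 0) =
      if m = 0 then br (X.μ b + 1 / 2) (K + 1) K * ∑ x, (X.R ^ K) b x * N x
      else if m = 1 then ∑ x, (X.R ^ (K + 1)) b x * N x else 0 := by
  unfold vT
  simp only [Matrix.mul_one]
  split_ifs with h0 h1
  · subst h0
    rw [Finset.sum_eq_single K]
    · rw [if_pos (by omega)]
      simp only [Nat.cast_zero, add_zero]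
      congr 1
      refine Finset.sum_congr rfl fun x _ => ?_
      rw [if_pos (by omega)]
    · intro i hi hne
      have hi' := Finset.mem_range.1 hi
      by_cases h2 : i < 0 + (K + 1)
      · rw [if_pos h2]
        refine mul_eq_zero_of_right _ (Finset.sum_eq_zero fun x _ => ?_)
        rw [if_neg (by omega), mul_zero]
      · rw [if_neg h2]
    · intro h
      exact absurd (Finset.mem_range.2 (by omega)) h
  · subst h1
    rw [Finset.sum_eq_single (K + 1)]
    · rw [if_pos (by omega), br_self, one_mul]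
      refine Finset.sum_congr rfl fun x _ => ?_
      rw [if_pos (by omega)]
    · intro i hi hne
      have hi' := Finset.mem_range.1 hi
      by_cases h2 : i < 1 + (K + 1)
      · rw [if_pos h2]
        refine mul_eq_zero_of_right _ (Finset.sum_eq_zero fun x _ => ?_)
        rw [if_neg (by omega), mul_zero]
      · rw [if_neg h2]
    · intro h
      exact absurd (Finset.mem_range.2 (by omega)) h
  · refine Finset.sum_eq_zero fun i hi => ?_
    have hi' := Finset.mem_range.1 hi
    by_cases h2 : i < m + (K + 1)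
    · rw [if_pos h2]
      refine mul_eq_zero_of_right _ (Finset.sum_eq_zero fun x _ => ?_)
      rw [if_neg (by omega), mul_zero]
    · rw [if_neg h2]

theorem lower_at_zero (b : ι) (m : ℕ) (N : ι → ℂ) :
    lower P.M (b, m) (fun z => if z.2 = 0 then N z.1 else 0) =
      if m = 1 then ∑ x, P.M b x * N x else 0 := by
  rw [lower_eq]
  rcases m with _ | _ | m
  · simp
  · simp
  · simp

theorem mulT_apply (A C : Matrix ι ι ℂ) (b c : ι) : (A * Cᵀ) b c = ∑ x, C c x * A b x := by
  rw [Matrix.mul_apply]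
  exact Finset.sum_congr rfl fun x _ => by rw [Matrix.transpose_apply]; ring

/-- (I4) the classical term. -/
theorem two_punct (K : ℕ) (l : List (ι × ℕ)) :
    act (vT X 1 (K + 1)) l (two (P.M * X.η)) =
      act (lower P.M) l (two (X.R ^ (K + 1) * X.η)) +
      (1 - P.s) * (K + 1) * two (X.R ^ K * P.M * X.η) l := by
  by_cases hl : l.length = 2
  · obtain ⟨x, y, rfl⟩ := List.length_eq_two.1 hl
    obtain ⟨b, m⟩ := x
    obtain ⟨c, n⟩ := y
    simp only [act_cons, act_nil, add_zero]
    have f1 : ∀ N : Matrix ι ι ℂ, (fun z : ι × ℕ => two N [z, (c, n)]) =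
        fun z => if z.2 = 0 then (if n = 0 then N z.1 c else 0) else 0 := by
      intro N
      funext z
      obtain ⟨z1, z2⟩ := z
      rw [two_pair]
      by_cases h1 : z2 = 0 <;> by_cases h2 : n = 0 <;> simp [h1, h2]
    have f2 : ∀ N : Matrix ι ι ℂ, (fun z : ι × ℕ => two N [(b, m), z]) =
        fun z => if z.2 = 0 then (if m = 0 then N b z.1 else 0) else 0 := by
      intro N
      funext z
      obtain ⟨z1, z2⟩ := z
      rw [two_pair]
      by_cases h1 : z2 = 0 <;> by_cases h2 : m = 0 <;> simp [h1, h2]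
    rw [f1, f2, f1, f2, vT_at_zero K b m (fun x => if n = 0 then (P.M * X.η) x c else 0),
      vT_at_zero K c n (fun x => if m = 0 then (P.M * X.η) b x else 0),
      P.lower_at_zero b m (fun x => if n = 0 then (X.R ^ (K + 1) * X.η) x c else 0),
      P.lower_at_zero c n (fun x => if m = 0 then (X.R ^ (K + 1) * X.η) b x else 0), two_pair]
    have g1 : ∀ i, ∑ x, (X.R ^ i) b x * (P.M * X.η) x c = (X.R ^ i * P.M * X.η) b c := by
      intro i
      rw [Matrix.mul_assoc, Matrix.mul_apply (M := X.R ^ i)]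
    have g2 : ∀ i, ∑ x, (X.R ^ i) c x * (P.M * X.η) b x = (X.R ^ i * P.M * X.η) b c := by
      intro i
      rw [← mulT_apply, Matrix.mul_assoc, ← X.Rpow_adjC, ← Matrix.mul_assoc, P.MRpow]
    have g3 : ∑ x, P.M b x * (X.R ^ (K + 1) * X.η) x c = (X.R ^ (K + 1) * P.M * X.η) b c := by
      rw [← P.MRpow, Matrix.mul_assoc, Matrix.mul_apply (M := P.M)]
    have g4 : ∑ x, P.M c x * (X.R ^ (K + 1) * X.η) b x = (X.R ^ (K + 1) * P.M * X.η) b c := by
      rw [← mulT_apply, Matrix.mul_assoc, ← P.Mη, Matrix.mul_assoc]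
    by_cases hm : m = 0
    · subst hm
      by_cases hn : n = 0
      · subst hn
        simp only [if_true, zero_ne_one, if_false, and_self, zero_add]
        rw [g1, g2, br_pred, br_pred]
        by_cases h : (X.R ^ K * P.M * X.η) b c = 0
        · simp [h]
        · have := P.RMη_μ h
          linear_combination ((K : ℂ) + 1) * (X.R ^ K * P.M * X.η) b c * this
      · by_cases hn1 : n = 1
        · subst hn1
          simp only [if_true, zero_ne_one, if_false, one_ne_zero, and_false]
          rw [g2, g4]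
          simp
        · simp [hn, hn1]
    · by_cases hn : n = 0
      · subst hn
        by_cases hm1 : m = 1
        · subst hm1
          simp only [if_true, zero_ne_one, if_false, one_ne_zero, false_and]
          rw [g1, g3]
          simp
        · simp [hm, hm1]
      · simp [hm, hn]
  · rw [two_len _ l hl, act_congr_fun l _ (fun _ => 0), act_zeroC (vT_fin 1 (K + 1)),
      act_congr_fun l (two (X.R ^ (K + 1) * X.η)) (fun _ => 0), act_zeroC P.ev.fin]
    · ring
    · intro J hJ; exact two_len _ J (by omega)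
    · intro J hJ; exact two_len _ J (by omega)

theorem br_two_zero (x : ℂ) : br x 2 0 = (x + 1) * x := by
  rw [br_succ_zero, br_succ_zero, br_zero_right]
  simp

/-- (I5) the central term. -/
theorem excE_eq (K g : ℕ) (β : B) (l : List (ι × ℕ)) :
    1 / 2 * P.excE K g β l = (1 - P.s) * (K + 1) * GWTheory.eE X K g β l := by
  unfold excE GWTheory.eE
  by_cases hg : g = 1 ∧ β = 0
  · obtain ⟨hg1, hβ⟩ := hg
    subst hg1; subst hβ
    simp only [and_self, if_true]
    by_cases hl : l = []
    · subst hl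
      have h1 : trip (K + 1) (fun m n i => (-1) ^ (m + 1) *
          dbl X (X.R ^ i) (K + 1) i (fun a => -X.μ a - m - 1 / 2)
          (fun a b => two (P.M * X.η) [(a, m), (b, n)])) =
          trip (K + 1) (fun m n i => if m = 0 then (if n = 0 then (-1) ^ (m + 1) *
          dbl X (X.R ^ i) (K + 1) i (fun a => -X.μ a - m - 1 / 2)
          (fun a b => (P.M * X.η) a b) else 0) else 0) := by
        refine trip_congr fun m n i _ => ?_
        simp only [dbl, two_pair]
        by_cases hm : m = 0 <;> by_cases hn : n = 0 <;> simp [hm, hn]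
      rw [h1, trip_left_zero]
      rcases K with _ | k
      · simp
      · rw [Finset.sum_range_succ]
        have h2 : ∑ i ∈ range k, (if k + 1 - 1 - i = 0 then ((-1 : ℂ)) ^ (0 + 1) *
            dbl X (X.R ^ i) (k + 1 + 1) i (fun a => -X.μ a - ((0 : ℕ) : ℂ) - 1 / 2)
            (fun a b => (P.M * X.η) a b) else 0) = 0 := by
          refine Finset.sum_eq_zero fun i hi => ?_
          rw [if_neg (by have := Finset.mem_range.1 hi; omega)]
        rw [h2, zero_add, if_pos (by omega)]
        by_cases hk : k = 0 ∧ P.s = 0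
        · obtain ⟨hk0, hs⟩ := hk
          subst hk0
          have hM : P.M = 1 := by
            rcases P.s_or with ⟨-, h⟩ | h
            · exact h
            · rw [hs] at h; exact absurd h zero_ne_one
          rw [hs, hM]
          simp only [dbl, pow_zero, Matrix.mul_one, Matrix.one_mul]
          rw [if_pos (by simp)]
          have h3 : ∀ a, ∑ b, br (-X.μ a - ((0 : ℕ) : ℂ) - 1 / 2) (0 + 1 + 1) 0 * X.η⁻¹ a b *
              X.η a b = X.sg a * X.μ a ^ 2 - 1 / 4 * X.sg a := by
            intro a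
            have h4 : ∑ b, X.η⁻¹ a b * X.η b a = 1 := by
              rw [← Matrix.mul_apply, X.inv_mul_ηC, Matrix.one_apply_eq]
            have h5 : ∀ b, br (-X.μ a - ((0 : ℕ) : ℂ) - 1 / 2) (0 + 1 + 1) 0 * X.η⁻¹ a b *
                X.η a b = (X.sg a * (X.μ a ^ 2 - 1 / 4)) * (X.η⁻¹ a b * X.η b a) := by
              intro b
              rw [show (0 + 1 + 1 : ℕ) = 2 from rfl, br_two_zero, X.η_swap a b]
              push_cast
              ring
            simp only [h5]
            rw [← Finset.mul_sum, h4]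
            ring
          simp only [h3]
          rw [Finset.sum_sub_distrib, ← Finset.mul_sum]
          unfold Target.χ Target.strμ Target.sg
          push_cast
          ring
        · have h3 : dbl X (X.R ^ k) (k + 1 + 1) k (fun a => -X.μ a - ((0 : ℕ) : ℂ) - 1 / 2)
              (fun a b => (P.M * X.η) a b) = 0 := by
            unfold dbl
            refine Finset.sum_eq_zero fun a _ => Finset.sum_eq_zero fun b _ => ?_
            by_cases h4 : (P.M * X.η) a b = 0
            · simp [h4]
            · by_cases h5 : (X.η⁻¹ * X.R ^ k) a b = 0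
              · simp [h5]
              · exfalso
                have h6 := P.Mη_μ h4
                rw [Matrix.mul_apply] at h5
                obtain ⟨x, -, hx⟩ := Finset.exists_ne_zero_of_sum_ne_zero h5
                have h7 := inv_μ (left_ne_zero_of_mul hx)
                have h8 := Rpow_μ (right_ne_zero_of_mul hx)
                have h9 : (k : ℂ) + P.s = 0 := by linear_combination h6 - h7 - h8
                rcases P.s_or with ⟨hs, -⟩ | hs
                · rw [hs, add_zero] at h9
                  exact hk ⟨by exact_mod_cast h9, hs⟩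
                · rw [hs] at h9
                  have : ((k + 1 : ℕ) : ℂ) = 0 := by push_cast; exact h9
                  exact absurd this (Nat.cast_ne_zero.2 (Nat.succ_ne_zero k))
          rw [h3]
          rcases P.s_or with ⟨hs, -⟩ | hs
          · have : k ≠ 0 := fun h => hk ⟨h, hs⟩
            rw [if_neg (by rintro ⟨h, -⟩; omega)]
            ring
          · rw [hs]; ring
    · have h1 : trip (K + 1) (fun m n i => (-1) ^ (m + 1) *
          dbl X (X.R ^ i) (K + 1) i (fun a => -X.μ a - m - 1 / 2)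
          (fun a b => two (P.M * X.η) ((a, m) :: (b, n) :: l))) = 0 := by
        have h2 : trip (K + 1) (fun m n i => (-1) ^ (m + 1) *
          dbl X (X.R ^ i) (K + 1) i (fun a => -X.μ a - m - 1 / 2)
          (fun a b => two (P.M * X.η) ((a, m) :: (b, n) :: l))) =
          trip (K + 1) (fun _ _ _ => (0 : ℂ) * 0) := by
          refine trip_congr fun m n i _ => ?_
          simp only [dbl]
          rw [mul_zero]
          refine mul_eq_zero_of_right _
            (Finset.sum_eq_zero fun a _ => Finset.sum_eq_zero fun b _ => ?_)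
          rw [two_len, mul_zero]
          have : l.length ≠ 0 := by simpa using hl
          simp only [List.length_cons]
          omega
        rw [h2, trip_smul, zero_mul]
      rw [h1, if_neg (by rintro ⟨-, -, -, h⟩; exact hl h)]
      ring
  · rw [if_neg (by rintro ⟨-, h1, h2, -⟩; exact hg ⟨h1, h2⟩)]
    simp only [hg, if_false]
    have h2 : trip (K + 1) (fun m n i => (-1) ^ (m + 1) *
          dbl X (X.R ^ i) (K + 1) i (fun a => -X.μ a - m - 1 / 2)
          (fun a b => (0 : ℂ))) =
          trip (K + 1) (fun _ _ _ => (0 : ℂ) * 0) := by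
      refine trip_congr fun m n i _ => ?_
      simp [dbl]
    rw [h2, trip_smul]
    ring

/-- The puncture equation for the Virasoro coefficients. -/
theorem vir_punct (K g : ℕ) (β : B) (l : List (ι × ℕ)) :
    G.vir (K + 1) g β ((P.a0, 0) :: l) = P.dg β * G.vir (K + 1) g β l +
      act (lower P.M) l (fun J => G.vir (K + 1) g β J) +
      (1 - P.s) * (K + 1) * G.virM P.M K g β l := by
  simp only [G.vir_eq]
  unfold GWTheory.virM
  have hf := P.ev.fin
  have e1 : (fun J => -G.tT 1 (K + 1) g β J + act (vT X 1 (K + 1)) J (G.F g β) +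
      1 / 2 * G.cC 1 (K + 1) g β J +
      (if g = 0 ∧ β = 0 then two (X.R ^ (K + 1) * 1 * X.η) J else 0) +
      GWTheory.eE X (K + 1) g β J) = fun J => (((-1) * G.tT 1 (K + 1) g β J +
      act (vT X 1 (K + 1)) J (G.F g β)) + 1 / 2 * G.cC 1 (K + 1) g β J) +
      (if g = 0 ∧ β = 0 then two (X.R ^ (K + 1) * X.η) J else 0) +
      GWTheory.eE X (K + 1) g β J := by
    funext J
    rw [Matrix.mul_one]
    ring
  rw [e1, act_add hf, act_add hf, act_add hf, act_add hf, act_smulC hf, act_smulC hf]
  have e2 : act (lower P.M) l (fun J => if g = 0 ∧ β = 0 then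
      two (X.R ^ (K + 1) * X.η) J else 0) =
      if g = 0 ∧ β = 0 then act (lower P.M) l (two (X.R ^ (K + 1) * X.η)) else 0 := by
    split_ifs
    · rfl
    · rw [act_zeroC hf]
  have e3 : act (lower P.M) l (fun J => GWTheory.eE X (K + 1) g β J) = 0 := by
    cases l with
    | nil => rfl
    | cons x l =>
      rw [act_congr_fun (x :: l) _ (fun _ => 0), act_zeroC hf]
      intro J hJ
      unfold GWTheory.eE
      rw [if_neg]
      rintro ⟨-, -, -, h⟩
      rw [h] at hJ
      simp at hJ
  have e4 : GWTheory.eE X (K + 1) g β ((P.a0, 0) :: l) = 0 := by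
    unfold GWTheory.eE
    rw [if_neg]
    rintro ⟨-, -, -, h⟩
    simp at h
  have e5 : P.dg β * GWTheory.eE X (K + 1) g β l = 0 := by
    unfold GWTheory.eE
    split_ifs with h
    · rw [h.2.2.1, map_zero, zero_mul]
    · rw [mul_zero]
  have e6 : P.dg β * (if g = 0 ∧ β = 0 then two (X.R ^ (K + 1) * X.η) l else 0) = 0 := by
    split_ifs with h
    · rw [h.2, map_zero, zero_mul]
    · rw [mul_zero]
  have e7 : (if g = 0 ∧ β = 0 then act (vT X 1 (K + 1)) l (two (P.M * X.η)) else 0) =
      (if g = 0 ∧ β = 0 then act (lower P.M) l (two (X.R ^ (K + 1) * X.η)) else 0) +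
      (1 - P.s) * (K + 1) * (if g = 0 ∧ β = 0 then two (X.R ^ K * P.M * X.η) l else 0) := by
    split_ifs with h
    · exact P.two_punct K l
    · ring
  have e8 : (∑ i ∈ range (K + 1), br (X.μ X.e + 3 / 2) (K + 1) i *
        ∑ b, (X.R ^ i * P.M) X.e b * G.F g β ((b, K - i) :: l)) -
      (∑ i ∈ range (K + 1), br (X.μ X.e + P.s + 1 / 2) (K + 1) i *
        ∑ b, (X.R ^ i * P.M) X.e b * G.F g β ((b, K - i) :: l)) =
      (1 - P.s) * (K + 1) * G.tT P.M K g β l := by
    unfold GWTheory.tT
    rw [← Finset.sum_sub_distrib, Finset.mul_sum]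
    refine Finset.sum_congr rfl fun i _ => ?_
    have := P.br_s (X.μ X.e + 3 / 2) K i
    rw [show X.μ X.e + 3 / 2 + P.s - 1 = X.μ X.e + P.s + 1 / 2 from by ring] at this
    linear_combination (∑ b, (X.R ^ i * P.M) X.e b * G.F g β ((b, K - i) :: l)) * this
  have e9 := P.excE_eq K g β l
  rw [e2, e3, e4, P.tT_punct, P.act_punct, P.cC_punct, e7, Matrix.mul_one]
  linear_combination e9 - e8 - e5 - e6

end Pun

end Vale.Agent.P269
end
end

section

section

namespace Vale.Agent.P269

set_option linter.unusedSectionVars false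

open Finset Polynomial Matrix

variable {ι B : Type} [Fintype ι] [DecidableEq ι] [AddCommMonoid B]
variable [DecidableEq B] [HasAntidiagonal B] {X : Target ι B}

/-- The string equation as a puncture equation. -/
noncomputable def strPun (G : GWTheory X) : Pun G where
  a0 := X.e
  M := 1
  s := 0
  dg := 0
  ε := 0
  s_or := Or.inl ⟨rfl, rfl⟩
  even := by rw [X.e_type.1, X.e_type.2]; exact ⟨0, rfl⟩
  μ0 := by rw [add_zero]
  M_μ := by
    intro b c h
    rw [Matrix.one_apply] at h
    split_ifs at h with hbc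
    · rw [hbc, add_zero]
    · exact absurd rfl h
  M_sg := by
    intro b c h
    rw [Matrix.one_apply] at h
    split_ifs at h with hbc
    · rw [hbc]
    · exact absurd rfl h
  MR := by rw [Matrix.one_mul, Matrix.mul_one]
  Mη := by rw [Matrix.transpose_one, Matrix.one_mul, Matrix.mul_one]
  row := by
    intro x
    rw [Matrix.one_apply]
    by_cases h : X.e = x
    · rw [if_pos h, if_pos h.symm]
    · rw [if_neg h, if_neg (fun h' => h h'.symm)]
  F_eq := by
    intro g β l
    rw [G.string, Matrix.one_mul]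
    simp

/-- The divisor equation as a puncture equation. -/
noncomputable def divPun (G : GWTheory X) (a : ι) (ha : X.p a = 1 ∧ X.q a = 1) : Pun G where
  a0 := a
  M := X.cup a
  s := 1
  dg := X.deg a
  ε := -X.t a / 24
  s_or := Or.inr rfl
  even := by rw [ha.1, ha.2]; exact ⟨1, rfl⟩
  μ0 := by
    unfold Target.μ
    rw [ha.1, X.e_type.1]
    push_cast
    ring
  M_μ := by
    intro b c h
    have h1 := (X.cup_type a b c h).1
    unfold Target.μ
    rw [h1, ha.1]
    push_cast
    ring
  M_sg := by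
    intro b c h
    obtain ⟨h1, h2⟩ := X.cup_type a b c h
    exact X.sg_of_add_even ⟨X.p b + X.q b + 1, by rw [h1, h2, ha.1, ha.2]; ring⟩
  MR := X.cup_R_comm (by rw [ha.1, ha.2]; exact ⟨1, rfl⟩)
  Mη := X.cup_adjC (by rw [ha.1, ha.2]; exact ⟨1, rfl⟩)
  row := by
    intro x
    have he : Even (X.p a + X.q a) := by rw [ha.1, ha.2]; exact ⟨1, rfl⟩
    rw [X.even_comm he, X.cup_unit, Matrix.one_apply]
    by_cases h : a = x
    · rw [if_pos h, if_pos h.symm]
    · rw [if_neg h, if_neg (fun h' => h h'.symm)]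
  F_eq := G.divisor a ha

variable (G : GWTheory X)

namespace GWTheory

/-- `[L_{-1}, L_K] = -(K+1) L_{K-1}` in coefficient form. -/
theorem vir_string (K g : ℕ) (β : B) (l : List (ι × ℕ)) :
    G.vir (K + 1) g β ((X.e, 0) :: l) =
      act (lower 1) l (fun J => G.vir (K + 1) g β J) + (K + 1) * G.vir K g β l := by
  have h := (strPun G).vir_punct K g β l
  have h1 : (strPun G).a0 = X.e := rfl
  have h2 : (strPun G).M = 1 := rfl
  have h3 : (strPun G).s = 0 := rfl
  have h4 : (strPun G).dg = 0 := rfl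
  rw [h1, h2, h3, h4] at h
  rw [h, G.vir_eq K]
  simp

/-- The divisor equation for the Virasoro coefficients. -/
theorem vir_divisor (a : ι) (ha : X.p a = 1 ∧ X.q a = 1) (K g : ℕ) (β : B) (l : List (ι × ℕ)) :
    G.vir (K + 1) g β ((a, 0) :: l) = X.deg a β * G.vir (K + 1) g β l +
      act (lower (X.cup a)) l (fun J => G.vir (K + 1) g β J) := by
  have h := (divPun G a ha).vir_punct K g β l
  have h1 : (divPun G a ha).a0 = a := rfl
  have h2 : (divPun G a ha).M = X.cup a := rfl
  have h3 : (divPun G a ha).s = 1 := rfl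
  have h4 : (divPun G a ha).dg = X.deg a := rfl
  rw [h1, h2, h3, h4] at h
  rw [h]
  ring

end GWTheory

end Vale.Agent.P269
end
end

section

section

namespace Vale.Agent.P269

open Finset Polynomial

variable {ι B : Type} [Fintype ι] [DecidableEq ι] [AddCommMonoid B]
variable [DecidableEq B] [HasAntidiagonal B] {X : Target ι B}

namespace GWTheory

variable (G : GWTheory X)

theorem stringId : G.StringId := fun K g β l => G.vir_string K g β l

theorem divId : G.DivId := by
  intro a ha K g β l
  cases K with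
  | zero =>
    rw [G.vir_zero g β, G.vir_zero g β, mul_zero, zero_add]
    exact (act_eq_zero _ (lower_zero _) l _ (fun J _ => G.vir_zero g β J)).symm
  | succ K => exact G.vir_divisor a ha K g β l

theorem main_reduced (h2 : ∀ a, X.p a + X.q a = 2 → X.p a = 1 ∧ X.q a = 1) (g : ℕ) (β : B) :
    (∀ K l, G.vir K g β l = 0) ↔ ∀ s ∈ X.reducedSet g β, G.vir (s.1 + 1) g β s.2 = 0 := by
  constructor
  · intro h s _
    exact h _ _
  · intro h
    refine G.reduced G.stringId G.divId h2 g β ?_
    intro k l h1 h3 h4 h5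
    exact h (k, l) ⟨h1, h3, h4, h5⟩

end GWTheory

end Vale.Agent.P269
end
end

section

section

namespace Vale.Agent.P269

open Finset Polynomial

variable {ι B : Type} [Fintype ι] [DecidableEq ι] [AddCommMonoid B]
variable [DecidableEq B] [HasAntidiagonal B] {X : Target ι B}

namespace GWTheory

variable (G : GWTheory X)

/-- The genus-zero topological recursion relation. -/
def TRR : Prop := ∀ (β : B) (a : ι) (m : ℕ) (y z : ι × ℕ) (l : List (ι × ℕ)),
  G.F 0 β ((a, m + 1) :: y :: z :: l) = ∑ b ∈ antidiagonal β, ∑ e, ∑ f, X.η⁻¹ e f *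
    split X.par l (fun I => (-1) ^ ((X.par y + X.par z + X.par (f, 0)) * (I.map X.par).sum) *
        G.F 0 b.1 ((a, m) :: (e, 0) :: I))
      (fun J => G.F 0 b.2 ((f, 0) :: y :: z :: J))

/-- First derivatives of the genus-zero potential. -/
def F1 (x : ι × ℕ) : B → List (ι × ℕ) → ℂ := fun β l => G.F 0 β (x :: l)

/-- Second derivatives of the genus-zero potential. -/
def F2 (x y : ι × ℕ) : B → List (ι × ℕ) → ℂ := fun β l => G.F 0 β (x :: y :: l)

theorem F_par (g : ℕ) (β : B) : PL X.par 0 (G.F g β) := by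
  intro l h
  obtain ⟨h1, h2⟩ := G.dimension g β l h
  have e : ((l.map X.par).sum : ℤ) = 2 * (l.map fun x => (x.2 : ℤ) + X.p x.1).sum -
      2 * (l.map fun x => (x.2 : ℤ)).sum +
      ((l.map fun x => (x.2 : ℤ) + X.q x.1).sum - (l.map fun x => (x.2 : ℤ) + X.p x.1).sum) := by
    clear h h1 h2
    induction l with
    | nil => simp
    | cons x l ih =>
      simp only [List.map_cons, List.sum_cons, Nat.cast_add, ih, Target.par]
      ring
  rw [h1, h2] at e
  omega

theorem F1_PS (x : ι × ℕ) : PS X.par (X.par x) (G.F1 x) := by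
  intro β
  have := (G.F_par 0 β).cons x
  rwa [zero_add] at this

theorem F2_PS (x y : ι × ℕ) : PS X.par (X.par x + X.par y) (G.F2 x y) := by
  intro β
  exact (G.F1_PS x β).cons y

theorem F3_PS (x y z : ι × ℕ) : PS X.par (X.par x + X.par y + X.par z)
    (fun β l => G.F2 x y β (z :: l)) := by
  intro β
  exact (G.F2_PS x y β).cons z

theorem F1_SSS (x : ι × ℕ) : SSS X.par (G.F1 x) := fun β => (G.F_SS 0 β).cons x

theorem F2_SSS (x y : ι × ℕ) : SSS X.par (G.F2 x y) := fun β => ((G.F_SS 0 β).cons x).cons y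

theorem par_lift (x : ι × ℕ) : X.par (x.1, x.2 + 1) = X.par x := rfl

theorem F_swap2 (β : B) (x y : ι × ℕ) (l : List (ι × ℕ)) :
    G.F 0 β (x :: y :: l) = (-1) ^ (X.par x * X.par y) * G.F 0 β (y :: x :: l) := by
  have := G.swap 0 β [] x y l
  simpa using this

/-- The recursion in product form. -/
theorem TRR.star1 (hT : G.TRR) (x y u : ι × ℕ) (β : B) (l : List (ι × ℕ)) :
    G.F 0 β ((x.1, x.2 + 1) :: y :: u :: l) = ∑ e, ∑ f, X.η⁻¹ e f *
      star X.par (fun β J => G.F2 (f, 0) y β (u :: J)) (G.F2 x (e, 0)) β l := by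
  rw [hT β x.1 x.2 y u l, Finset.sum_comm]
  refine Finset.sum_congr rfl fun e _ => ?_
  rw [Finset.sum_comm]
  refine Finset.sum_congr rfl fun f _ => ?_
  rw [star_comm (G.F3_PS (f, 0) y u) (G.F2_PS x (e, 0)), star, Finset.mul_sum, Finset.mul_sum]
  refine Finset.sum_congr rfl fun b _ => ?_
  congr 1
  rw [← split_smul_left]
  apply split_congr
  · intro I
    have h := (G.F2_PS x (e, 0) b.1).sign (X.par y + X.par u + X.par (f, 0)) I
    simp only [F2] at h ⊢
    rw [h]
    congr 1
    apply neg_one_pow_congr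
    congr 1
    ring
  · intro J; rfl

theorem inv_par {e f : ι} (h : X.η⁻¹ e f ≠ 0) : X.par (e, 0) % 2 = X.par (f, 0) % 2 := by
  obtain ⟨h1, h2⟩ := X.inv_type e f h
  simp only [Target.par]
  omega

theorem sign_aux (x y u e f : ℕ) (h : e % 2 = f % 2) :
    ((-1 : ℂ)) ^ (x * y) * ((-1) ^ e * ((-1) ^ (e * x) * ((-1) ^ (y * f) *
      (-1) ^ ((x + e + u) * (f + y))))) = (-1) ^ (u * (f + y)) := by
  rw [← pow_add, ← pow_add, ← pow_add, ← pow_add]
  apply neg_one_pow_congr
  rcases Nat.mod_two_eq_zero_or_one x with hx | hx <;>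
  rcases Nat.mod_two_eq_zero_or_one y with hy | hy <;>
  rcases Nat.mod_two_eq_zero_or_one u with hu | hu <;>
  rcases Nat.mod_two_eq_zero_or_one f with hf | hf <;>
  · rw [hf] at h
    simp [Nat.add_mod, Nat.mul_mod, hx, hy, hu, hf, h]

theorem TRR.star2 (hT : G.TRR) (x y u : ι × ℕ) (β : B) (l : List (ι × ℕ)) :
    G.F 0 β (x :: (y.1, y.2 + 1) :: u :: l) = ∑ e, ∑ f, X.η⁻¹ e f *
      ((-1) ^ (X.par u * (X.par (f, 0) + X.par y)) *
      star X.par (G.F2 (f, 0) y) (fun β J => G.F2 x (e, 0) β (u :: J)) β l) := by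
  rw [G.F_swap2, hT.star1, Finset.sum_comm, Finset.mul_sum]
  refine Finset.sum_congr rfl fun e _ => ?_
  rw [Finset.mul_sum]
  refine Finset.sum_congr rfl fun f _ => ?_
  rw [X.inv_swap f e]
  by_cases h : X.η⁻¹ e f = 0
  · simp [h]
  · have h1 : star X.par (fun β J => G.F2 (e, 0) x β (u :: J)) (G.F2 y (f, 0)) β l =
        (-1) ^ (X.par (e, 0) * X.par x) * ((-1) ^ (X.par y * X.par (f, 0)) *
        star X.par (fun β J => G.F2 x (e, 0) β (u :: J)) (G.F2 (f, 0) y) β l) := by
      rw [← star_smul_right, ← star_smul_left]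
      apply star_congr
      · intro β I; exact G.F_swap2 β (e, 0) x (u :: I)
      · intro β J; exact G.F_swap2 β y (f, 0) J
    rw [h1, star_comm (G.F3_PS x (e, 0) u) (G.F2_PS (f, 0) y)]
    have h2 := sign_aux (X.par x) (X.par y) (X.par u) (X.par (e, 0)) (X.par (f, 0)) (inv_par h)
    have h3 : X.sg e = (-1) ^ X.par (e, 0) := rfl
    rw [h3, par_lift]
    linear_combination (X.η⁻¹ e f *
      star X.par (G.F2 (f, 0) y) (fun β J => G.F2 x (e, 0) β (u :: J)) β l) * h2

/-- The integrated recursion. -/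
theorem TRR.quad (hT : G.TRR) (x y : ι × ℕ) (β : B) (l : List (ι × ℕ)) :
    G.F2 (x.1, x.2 + 1) y β l + G.F2 x (y.1, y.2 + 1) β l =
      ∑ e, ∑ f, X.η⁻¹ e f * star X.par (G.F2 (f, 0) y) (G.F2 x (e, 0)) β l := by
  rcases l with _ | ⟨u, l⟩
  · have hp : X.par (X.e, 0) % 2 = 0 := by simp [Target.par, X.e_type.1, X.e_type.2]
    have hp0 : X.par (X.e, 0) = 0 := by simp [Target.par, X.e_type.1, X.e_type.2]
    have h1 := TRR.star2 G hT (x.1, x.2 + 1) y (X.e, 0) β []
    have h2 : G.F 0 β [(x.1, x.2 + 1), (y.1, y.2 + 1), (X.e, 0)] =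
        G.F2 x (y.1, y.2 + 1) β [] + G.F2 (x.1, x.2 + 1) y β [] := by
      have := (G.F_SS 0 β).front hp [(x.1, x.2 + 1), (y.1, y.2 + 1)] []
      simp only [List.cons_append, List.nil_append] at this
      rw [this, G.string]
      simp [act, lower, two, F2, Matrix.one_apply]
    rw [h2] at h1
    rw [add_comm, h1]
    refine Finset.sum_congr rfl fun e _ => Finset.sum_congr rfl fun f _ => ?_
    rw [hp0, zero_mul, pow_zero, one_mul]
    congr 1
    unfold star
    refine Finset.sum_congr rfl fun b _ => ?_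
    simp only [split]
    congr 1
    have := (G.F_SS 0 b.2).front hp [(x.1, x.2 + 1), (e, 0)] []
    simp only [List.cons_append, List.nil_append] at this
    simp only [F2]
    rw [this, G.string]
    simp [act, lower, two, Matrix.one_apply]
  · have h1 := TRR.star1 G hT x y u β l
    have h2 := TRR.star2 G hT x y u β l
    simp only [F2] at h1 h2 ⊢
    rw [h1, h2, ← Finset.sum_add_distrib]
    refine Finset.sum_congr rfl fun e _ => ?_
    rw [← Finset.sum_add_distrib]
    refine Finset.sum_congr rfl fun f _ => ?_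
    have h3 := (G.F2_PS (f, 0) y).star_cons (G.F2 x (e, 0)) β u l
    simp only [F2] at h3
    rw [h3]
    ring

end GWTheory

end Vale.Agent.P269
end
end

section

section

namespace Vale.Agent.P269

open Finset Polynomial

variable {ι B : Type} [Fintype ι] [DecidableEq ι] [AddCommMonoid B]
variable [DecidableEq B] [HasAntidiagonal B]

/-- A vector of the loop space with coefficients in the ring of series. -/
structure Vec (X : Target ι B) where
  Ψ : (ι × ℕ → B → List (ι × ℕ) → ℂ) → B → List (ι × ℕ) → ℂ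
  m : ι × ℕ → B → List (ι × ℕ) → ℂ
  add : ∀ G G' β l, Ψ (fun y β l => G y β l + G' y β l) β l = Ψ G β l + Ψ G' β l
  smul : ∀ (c : ℂ) G β l, Ψ (fun y β l => c * G y β l) β l = c * Ψ G β l
  right : ∀ G h β l, Ψ (fun y => star X.par (G y) h) β l = star X.par (Ψ G) h β l

variable {X : Target ι B}

namespace Vec

variable (w : Vec X)

theorem zero (β : B) (l : List (ι × ℕ)) : w.Ψ (fun _ _ _ => 0) β l = 0 := by
  have := w.smul 0 (fun _ _ _ => 0) β l
  simpa using this

theorem congr {G G' : ι × ℕ → B → List (ι × ℕ) → ℂ} (h : ∀ y β l, G y β l = G' y β l)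
    (β : B) (l : List (ι × ℕ)) : w.Ψ G β l = w.Ψ G' β l := by
  have : G = G' := by funext y β l; exact h y β l
  rw [this]

theorem sum {κ : Type} (s : Finset κ) (G : κ → ι × ℕ → B → List (ι × ℕ) → ℂ) (β : B)
    (l : List (ι × ℕ)) :
    w.Ψ (fun y β l => ∑ k ∈ s, G k y β l) β l = ∑ k ∈ s, w.Ψ (G k) β l := by
  classical
  induction s using Finset.induction_on with
  | empty => simpa using w.zero β l
  | insert k s hk ih =>
    simp only [Finset.sum_insert hk]
    rw [w.add, ih]

/-- Multiplication by `z`. -/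
noncomputable def zV (w : Vec X) : Vec X where
  Ψ G β l := w.Ψ (fun y => G (y.1, y.2 + 1)) β l -
    ∑ a, ∑ c, X.η⁻¹ a c * star X.par (w.m (c, 0)) (G (a, 0)) β l
  m x β l := - w.m (x.1, x.2 + 1) β l
  add G G' β l := by
    rw [w.add]
    simp only [star_add_right, mul_add, Finset.sum_add_distrib]
    ring
  smul c G β l := by
    rw [w.smul]
    simp only [star_smul_right, mul_sub, Finset.mul_sum]
    congr 1
    refine Finset.sum_congr rfl fun a _ => Finset.sum_congr rfl fun b _ => ?_
    ring
  right G h β l := by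
    have e1 : star X.par (fun β l => w.Ψ (fun y => G (y.1, y.2 + 1)) β l -
        ∑ a, ∑ c, X.η⁻¹ a c * star X.par (w.m (c, 0)) (G (a, 0)) β l) h β l =
        star X.par (w.Ψ (fun y => G (y.1, y.2 + 1))) h β l -
        ∑ a, ∑ c, X.η⁻¹ a c * star X.par (star X.par (w.m (c, 0)) (G (a, 0))) h β l := by
      have h1 := star_add_left (π := X.par) (w.Ψ (fun y => G (y.1, y.2 + 1)))
        (fun β l => (-1) * ∑ a, ∑ c, X.η⁻¹ a c * star X.par (w.m (c, 0)) (G (a, 0)) β l) h β l
      rw [star_smul_left] at h1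
      have h2 := star_sum_left (π := X.par) Finset.univ
        (fun a β l => ∑ c, X.η⁻¹ a c * star X.par (w.m (c, 0)) (G (a, 0)) β l) h β l
      have h3 : ∀ a, star X.par (fun β l => ∑ c, X.η⁻¹ a c *
          star X.par (w.m (c, 0)) (G (a, 0)) β l) h β l = ∑ c, X.η⁻¹ a c *
          star X.par (star X.par (w.m (c, 0)) (G (a, 0))) h β l := by
        intro a
        rw [star_sum_left (π := X.par) Finset.univ
          (fun c β l => X.η⁻¹ a c * star X.par (w.m (c, 0)) (G (a, 0)) β l) h β l]
        exact Finset.sum_congr rfl fun c _ => star_smul_left _ _ _ _ _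
      rw [h2, Finset.sum_congr rfl fun a _ => h3 a] at h1
      rw [sub_eq_add_neg, ← neg_one_mul, ← h1]
      apply star_congr
      · intro β l; ring
      · intro β l; rfl
    rw [e1, w.right]
    congr 1
    refine Finset.sum_congr rfl fun a _ => Finset.sum_congr rfl fun c _ => ?_
    rw [star_assoc]

/-- The element `(R^K η)_{xy}` for primary insertions. -/
noncomputable def ru (X : Target ι B) (K : ℕ) (x y : ι × ℕ) : B → List (ι × ℕ) → ℂ :=
  fun β l => (if y.2 = 0 then (X.R ^ K * X.η) x.1 y.1 else 0) * unitS (ι × ℕ) B β l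

/-- `Lop` on families of series. -/
noncomputable def lo (X : Target ι B) (K : ℕ) (G : ι × ℕ → B → List (ι × ℕ) → ℂ) :
    ι × ℕ → B → List (ι × ℕ) → ℂ :=
  fun x β l => GWTheory.Lop X K x (fun y => G y β l)

theorem Lop_op (X : Target ι B) (K : ℕ) : Op X.par (GWTheory.Lop X K) where
  add x φ ψ := by
    simp only [GWTheory.Lop, mul_add, Finset.sum_add_distrib, ← Finset.sum_add_distrib]
    refine Finset.sum_congr rfl fun i _ => ?_
    split_ifs
    · rw [Finset.sum_add_distrib, mul_add]
    · simp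
  par x φ ψ c h := GWTheory.Lop_par K x φ ψ c h

theorem lo_star (K : ℕ) (G : ι × ℕ → B → List (ι × ℕ) → ℂ) (h : B → List (ι × ℕ) → ℂ)
    (x : ι × ℕ) (β : B) (l : List (ι × ℕ)) :
    lo X K (fun y => star X.par (G y) h) x β l = star X.par (lo X K G x) h β l := by
  unfold lo star
  rw [(Lop_op X K).sum]
  refine Finset.sum_congr rfl fun b _ => ?_
  exact ((Lop_op X K).split_left x l (fun y => G y b.1) (h b.2)).symm

theorem star_lo (K : ℕ) (G : ι × ℕ → B → List (ι × ℕ) → ℂ) (h : B → List (ι × ℕ) → ℂ)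
    (x : ι × ℕ) (β : B) (l : List (ι × ℕ)) :
    star X.par h (lo X K G x) β l = lo X K (fun y => star X.par h (G y)) x β l := by
  unfold lo star
  rw [(Lop_op X K).sum]
  refine Finset.sum_congr rfl fun b _ => ?_
  exact ((Lop_op X K).split x l (h b.1) (fun y => G y b.2))

/-- The action of `l_0`. -/
noncomputable def lV (w : Vec X) : Vec X where
  Ψ G β l := w.Ψ (lo X 1 G) β l
  m x β l := - GWTheory.Lop X 1 x (fun y => w.m y β l) -
    if x.2 = 0 then w.Ψ (ru X 1 x) β l else 0
  add G G' β l := by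
    rw [← w.add]
    apply w.congr
    intro y β l
    exact (Lop_op X 1).add y _ _
  smul c G β l := by
    rw [← w.smul]
    apply w.congr
    intro y β l
    exact (Lop_op X 1).smul y c _
  right G h β l := by
    rw [← w.right]
    apply w.congr
    intro y β l
    exact lo_star 1 G h y β l

end Vec

namespace GWTheory

variable (G : GWTheory X)

/-- Tangency to the cone. -/
def InT (w : Vec X) : Prop := ∀ x β l, w.m x β l = w.Ψ (G.F2 x) β l

theorem zV_inT (hT : G.TRR) (w : Vec X) (hw : G.InT w) : G.InT w.zV := by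
  intro x β l
  simp only [Vec.zV]
  have h1 : ∀ a c, star X.par (w.m (c, 0)) (G.F2 x (a, 0)) β l =
      w.Ψ (fun y => star X.par (G.F2 (c, 0) y) (G.F2 x (a, 0))) β l := by
    intro a c
    rw [w.right]
    apply star_congr
    · intro β I; exact hw (c, 0) β I
    · intro β J; rfl
  have h2 : ∑ a, ∑ c, X.η⁻¹ a c * star X.par (w.m (c, 0)) (G.F2 x (a, 0)) β l =
      w.Ψ (fun y β l => G.F2 (x.1, x.2 + 1) y β l + G.F2 x (y.1, y.2 + 1) β l) β l := by
    have e1 : w.Ψ (fun y β l => G.F2 (x.1, x.2 + 1) y β l + G.F2 x (y.1, y.2 + 1) β l) β l =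
        w.Ψ (fun y β l => ∑ e, ∑ f, X.η⁻¹ e f *
          star X.par (G.F2 (f, 0) y) (G.F2 x (e, 0)) β l) β l := by
      apply w.congr
      intro y β l
      exact TRR.quad G hT x y β l
    rw [e1, w.sum Finset.univ (fun e y β l => ∑ f, X.η⁻¹ e f *
          star X.par (G.F2 (f, 0) y) (G.F2 x (e, 0)) β l)]
    refine Finset.sum_congr rfl fun a _ => ?_
    rw [w.sum Finset.univ (fun f y β l => X.η⁻¹ a f *
          star X.par (G.F2 (f, 0) y) (G.F2 x (a, 0)) β l)]
    refine Finset.sum_congr rfl fun c _ => ?_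
    rw [h1, w.smul]
  rw [h2, w.add, hw]
  ring

end GWTheory

end Vale.Agent.P269
end
end

section

section

namespace Vale.Agent.P269

open Finset Polynomial

variable {ι B : Type} [Fintype ι] [DecidableEq ι] [AddCommMonoid B]
variable [DecidableEq B] [HasAntidiagonal B] {X : Target ι B}

/-- The Euler derivation. -/
noncomputable def Eu (X : Target ι B) (P : B → List (ι × ℕ) → ℂ) : B → List (ι × ℕ) → ℂ :=
  fun β l => act (GWTheory.Lop X 1) l (P β) -
    ((X.μ X.e + 3 / 2) * P β ((X.e, 1) :: l) + ∑ b, X.γ b * P β ((b, 0) :: l))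

namespace GWTheory

variable (G : GWTheory X)

theorem vir_one_g0 (β : B) (l : List (ι × ℕ)) : act (Lop X 1) l (G.F 0 β) -
    ((X.μ X.e + 3 / 2) * G.F 0 β ((X.e, 1) :: l) + ∑ b, X.γ b * G.F 0 β ((b, 0) :: l)) +
    (if β = 0 then two (X.R * X.η) l else 0) = 0 := by
  have h := G.vir_one 0 β l
  unfold vir at h
  rw [act_Lop] at h
  simp only [Finset.sum_range_succ, Finset.sum_range_zero, zero_add, br_one_zero, br_one_one,
    pow_zero, pow_one, Nat.sub_zero, Nat.sub_self, one_mul, X.R_e] at h
  have e3 : ∑ b, (1 : Matrix ι ι ℂ) X.e b * G.F 0 β ((b, 1) :: l) = G.F 0 β ((X.e, 1) :: l) := by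
    simp [Matrix.one_apply]
  rw [e3] at h
  simp at h
  linear_combination h

theorem front2 (β : B) (u x y : ι × ℕ) (hu : X.par u % 2 = 0) (l : List (ι × ℕ)) :
    G.F 0 β (x :: y :: u :: l) = G.F 0 β (u :: x :: y :: l) := by
  have := (G.F_SS 0 β).front hu [x, y] l
  simpa using this

/-- Homogeneity of the second derivatives. -/
theorem Eu_F2 (x y : ι × ℕ) (β : B) (l : List (ι × ℕ)) :
    Eu X (G.F2 x y) β l + Lop X 1 x (fun x' => G.F2 x' y β l) +
      Lop X 1 y (fun y' => G.F2 x y' β l) +
      (if x.2 = 0 then Vec.ru X 1 x y β l else 0) = 0 := by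
  have h := G.vir_one_g0 β (x :: y :: l)
  have hp1 : X.par (X.e, 1) % 2 = 0 := by simp [Target.par, X.e_type.1, X.e_type.2]
  have h1 : G.F 0 β ((X.e, 1) :: x :: y :: l) = G.F2 x y β ((X.e, 1) :: l) :=
    (G.front2 β (X.e, 1) x y hp1 l).symm
  have h2 : ∑ b, X.γ b * G.F 0 β ((b, 0) :: x :: y :: l) =
      ∑ b, X.γ b * G.F2 x y β ((b, 0) :: l) := by
    refine Finset.sum_congr rfl fun b _ => ?_
    by_cases hb : X.γ b = 0
    · simp [hb]
    · have hb' := X.γ_type b hb
      have hp : X.par (b, 0) % 2 = 0 := by simp [Target.par, hb'.1, hb'.2]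
      rw [← G.front2 β (b, 0) x y hp l]
      rfl
  rw [h1, h2, act, act] at h
  have h3 : (if β = 0 then two (X.R * X.η) (x :: y :: l) else 0) =
      (if x.2 = 0 then Vec.ru X 1 x y β l else 0) := by
    obtain ⟨a, m⟩ := x
    obtain ⟨b, n⟩ := y
    unfold Vec.ru unitS
    rw [pow_one]
    rcases l with _ | ⟨z, l⟩
    · rw [two_pair]
      by_cases hβ : β = 0 <;> by_cases hm : m = 0 <;> by_cases hn : n = 0 <;>
        simp [hβ, hm, hn]
    · rw [two_long]
      simp
  rw [h3] at h
  have h4 : act (Lop X 1) l (fun J => G.F 0 β (x :: y :: J)) =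
    act (Lop X 1) l (G.F2 x y β) := rfl
  have h5 : Lop X 1 x (fun x' => G.F 0 β (x' :: y :: l)) =
    Lop X 1 x (fun x' => G.F2 x' y β l) := rfl
  have h6 : Lop X 1 y (fun y' => G.F 0 β (x :: y' :: l)) =
    Lop X 1 y (fun y' => G.F2 x y' β l) := rfl
  rw [h4, h5, h6] at h
  unfold Eu
  linear_combination h

theorem Eu_TRR (hT : G.TRR) (x y : ι × ℕ) (β : B) (l : List (ι × ℕ)) :
    Eu X (G.F2 x (y.1, y.2 + 1)) β l =
      ∑ e, ∑ f, X.η⁻¹ e f * star X.par (G.F2 (f, 0) y) (Eu X (G.F2 x (e, 0))) β l := by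
  have key : ∀ (u : ι × ℕ) (β : B) (I : List (ι × ℕ)),
      G.F2 x (y.1, y.2 + 1) β (u :: I) = ∑ k ∈ (Finset.univ : Finset (ι × ι)),
      (-1) ^ (X.par u * (X.par (k.2, 0) + X.par y)) *
      star X.par (fun β I => X.η⁻¹ k.1 k.2 * G.F2 (k.2, 0) y β I)
        (fun β J => G.F2 x (k.1, 0) β (u :: J)) β I := by
    intro u β I
    have := TRR.star2 G hT x y u β I
    rw [show G.F2 x (y.1, y.2 + 1) β (u :: I) = G.F 0 β (x :: (y.1, y.2 + 1) :: u :: I) from rfl,
      this, ← Finset.univ_product_univ, Finset.sum_product]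
    refine Finset.sum_congr rfl fun e _ => Finset.sum_congr rfl fun f _ => ?_
    rw [star_smul_left]
    ring
  have hact := act_star_right (Vec.Lop_op X 1) (Finset.univ : Finset (ι × ι))
    (G.F2 x (y.1, y.2 + 1)) (G.F2_SSS _ _)
    (fun k β I => X.η⁻¹ k.1 k.2 * G.F2 (k.2, 0) y β I) (fun k => G.F2 x (k.1, 0))
    (fun k => X.par (k.2, 0) + X.par y)
    (fun k _ β I hI => G.F2_PS (k.2, 0) y β I (right_ne_zero_of_mul hI))
    (fun k _ => G.F2_SSS _ _) key β l
  have heven : ∀ u : ι × ℕ, X.par u % 2 = 0 → G.F2 x (y.1, y.2 + 1) β (u :: l) =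
      ∑ k ∈ (Finset.univ : Finset (ι × ι)),
      star X.par (fun β I => X.η⁻¹ k.1 k.2 * G.F2 (k.2, 0) y β I)
        (fun β J => G.F2 x (k.1, 0) β (u :: J)) β l := by
    intro u hu
    rw [key u β l]
    refine Finset.sum_congr rfl fun k _ => ?_
    rw [neg_one_pow_congr (a := X.par u * (X.par (k.2, 0) + X.par y)) (b := 0)
      (by rw [Nat.mul_mod, hu]; simp)]
    ring
  have hp1 : X.par (X.e, 1) % 2 = 0 := by simp [Target.par, X.e_type.1, X.e_type.2]
  have h2 : ∑ b, X.γ b * G.F2 x (y.1, y.2 + 1) β ((b, 0) :: l) =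
      ∑ k ∈ (Finset.univ : Finset (ι × ι)),
      star X.par (fun β I => X.η⁻¹ k.1 k.2 * G.F2 (k.2, 0) y β I)
        (fun β J => ∑ b, X.γ b * G.F2 x (k.1, 0) β ((b, 0) :: J)) β l := by
    have e1 : ∀ k : ι × ι, star X.par (fun β I => X.η⁻¹ k.1 k.2 * G.F2 (k.2, 0) y β I)
        (fun β J => ∑ b, X.γ b * G.F2 x (k.1, 0) β ((b, 0) :: J)) β l =
        ∑ b, X.γ b * star X.par (fun β I => X.η⁻¹ k.1 k.2 * G.F2 (k.2, 0) y β I)
        (fun β J => G.F2 x (k.1, 0) β ((b, 0) :: J)) β l := by
      intro k
      rw [star_sum_right (π := X.par) Finset.univ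
        (fun β I => X.η⁻¹ k.1 k.2 * G.F2 (k.2, 0) y β I)
        (fun b β J => X.γ b * G.F2 x (k.1, 0) β ((b, 0) :: J)) β l]
      exact Finset.sum_congr rfl fun b _ => star_smul_right _ _ _ _ _
    rw [Finset.sum_congr rfl fun k _ => e1 k, Finset.sum_comm]
    refine Finset.sum_congr rfl fun b _ => ?_
    rw [← Finset.mul_sum]
    by_cases hb : X.γ b = 0
    · simp [hb]
    · have hb' := X.γ_type b hb
      have hp : X.par (b, 0) % 2 = 0 := by simp [Target.par, hb'.1, hb'.2]
      rw [heven (b, 0) hp]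
  unfold Eu
  rw [hact, heven _ hp1, h2, ← Finset.univ_product_univ, Finset.sum_product,
    Finset.sum_product, Finset.sum_product, Finset.mul_sum, ← Finset.sum_add_distrib,
    ← Finset.sum_sub_distrib]
  refine Finset.sum_congr rfl fun e _ => ?_
  rw [Finset.mul_sum, ← Finset.sum_add_distrib, ← Finset.sum_sub_distrib]
  refine Finset.sum_congr rfl fun f _ => ?_
  have e2 : star X.par (G.F2 (f, 0) y) (Eu X (G.F2 x (e, 0))) β l =
      star X.par (G.F2 (f, 0) y) (fun β J => act (Lop X 1) J (G.F2 x (e, 0) β)) β l -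
      ((X.μ X.e + 3 / 2) * star X.par (G.F2 (f, 0) y)
        (fun β J => G.F2 x (e, 0) β ((X.e, 1) :: J)) β l +
      star X.par (G.F2 (f, 0) y)
        (fun β J => ∑ b, X.γ b * G.F2 x (e, 0) β ((b, 0) :: J)) β l) := by
    have a1 := star_add_right (π := X.par) (G.F2 (f, 0) y)
      (fun β J => act (Lop X 1) J (G.F2 x (e, 0) β))
      (fun β J => (-1) * ((X.μ X.e + 3 / 2) * G.F2 x (e, 0) β ((X.e, 1) :: J) +
        ∑ b, X.γ b * G.F2 x (e, 0) β ((b, 0) :: J))) β l
    have a2 := star_smul_right (π := X.par) (-1) (G.F2 (f, 0) y)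
      (fun β J => (X.μ X.e + 3 / 2) * G.F2 x (e, 0) β ((X.e, 1) :: J) +
        ∑ b, X.γ b * G.F2 x (e, 0) β ((b, 0) :: J)) β l
    have a3 := star_add_right (π := X.par) (G.F2 (f, 0) y)
      (fun β J => (X.μ X.e + 3 / 2) * G.F2 x (e, 0) β ((X.e, 1) :: J))
      (fun β J => ∑ b, X.γ b * G.F2 x (e, 0) β ((b, 0) :: J)) β l
    have a4 := star_smul_right (π := X.par) (X.μ X.e + 3 / 2) (G.F2 (f, 0) y)
      (fun β J => G.F2 x (e, 0) β ((X.e, 1) :: J)) β l
    have a5 : star X.par (G.F2 (f, 0) y) (Eu X (G.F2 x (e, 0))) β l =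
        star X.par (G.F2 (f, 0) y) (fun β J => act (Lop X 1) J (G.F2 x (e, 0) β) +
        (-1) * ((X.μ X.e + 3 / 2) * G.F2 x (e, 0) β ((X.e, 1) :: J) +
        ∑ b, X.γ b * G.F2 x (e, 0) β ((b, 0) :: J))) β l := by
      apply star_congr
      · intro β I; rfl
      · intro β J; unfold Eu; ring
    rw [a5, a1, a2, a3, a4]
    ring
  have e3 : star X.par (G.F2 (f, 0) y) (fun β l => act (Lop X 1) l (G.F2 x (e, 0) β) -
      ((X.μ X.e + 3 / 2) * G.F2 x (e, 0) β ((X.e, 1) :: l) +
        ∑ b, X.γ b * G.F2 x (e, 0) β ((b, 0) :: l))) β l =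
      star X.par (G.F2 (f, 0) y) (Eu X (G.F2 x (e, 0))) β l := rfl
  rw [e3, e2]
  simp only [star_smul_left]
  ring

/-- `l_0` preserves tangency when the Euler derivative is annihilated. -/
theorem lV_inT (w : Vec X) (hw : G.InT w)
    (hE : ∀ x β l, w.Ψ (fun y => Eu X (G.F2 x y)) β l = 0) : G.InT w.lV := by
  intro x β l
  simp only [Vec.lV]
  have h1 : w.Ψ (Vec.lo X 1 (G.F2 x)) β l = w.Ψ (fun y β l =>
      (-1) * Eu X (G.F2 x y) β l + ((-1) * Lop X 1 x (fun x' => G.F2 x' y β l) +
      (-1) * (if x.2 = 0 then Vec.ru X 1 x y β l else 0))) β l := by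
    apply w.congr
    intro y β l
    have := G.Eu_F2 x y β l
    simp only [Vec.lo]
    linear_combination this
  have h2 : w.Ψ (fun y β l => Lop X 1 x (fun x' => G.F2 x' y β l)) β l =
      Lop X 1 x (fun x' => w.m x' β l) := by
    have e1 : (fun x' => w.m x' β l) = fun x' => w.Ψ (G.F2 x') β l := by
      funext x'; exact hw x' β l
    rw [e1]
    unfold Lop
    rw [w.sum (range (1 + 1)) (fun i y β l => if i < x.2 + 1 then
      br (X.μ x.1 + x.2 + 1 / 2) 1 i *
      ∑ b, (X.R ^ i) x.1 b * G.F2 (b, x.2 + 1 - 1 - i) y β l else 0)]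
    refine Finset.sum_congr rfl fun i _ => ?_
    by_cases hi : i < x.2 + 1
    · simp only [hi, if_true]
      rw [w.smul, w.sum Finset.univ (fun b y β l => (X.R ^ i) x.1 b *
        G.F2 (b, x.2 + 1 - 1 - i) y β l)]
      congr 1
      refine Finset.sum_congr rfl fun b _ => ?_
      rw [w.smul]
    · simp only [hi, if_false]
      exact w.zero β l
  have h3 : w.Ψ (fun y β l => if x.2 = 0 then Vec.ru X 1 x y β l else 0) β l =
      if x.2 = 0 then w.Ψ (Vec.ru X 1 x) β l else 0 := by
    by_cases hx : x.2 = 0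
    · simp only [hx, if_true]
    · simp only [hx, if_false]
      exact w.zero β l
  rw [h1, w.add, w.smul, w.add, w.smul, w.smul, hE, h2, h3]
  ring

/-- Givental's argument: if `w` is tangent then so is `l_0 z w`. -/
theorem lz_inT (hT : G.TRR) (w : Vec X) (hw : G.InT w) : G.InT w.zV.lV := by
  apply G.lV_inT _ (G.zV_inT hT w hw)
  intro x β l
  simp only [Vec.zV]
  have h1 : ∀ a c, star X.par (w.m (c, 0)) (Eu X (G.F2 x (a, 0))) β l =
      w.Ψ (fun y => star X.par (G.F2 (c, 0) y) (Eu X (G.F2 x (a, 0)))) β l := by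
    intro a c
    rw [w.right]
    apply star_congr
    · intro β I; exact hw (c, 0) β I
    · intro β J; rfl
  have h2 : w.Ψ (fun y => Eu X (G.F2 x (y.1, y.2 + 1))) β l =
      ∑ a, ∑ c, X.η⁻¹ a c * star X.par (w.m (c, 0)) (Eu X (G.F2 x (a, 0))) β l := by
    have e1 : w.Ψ (fun y => Eu X (G.F2 x (y.1, y.2 + 1))) β l =
        w.Ψ (fun y β l => ∑ e, ∑ f, X.η⁻¹ e f *
          star X.par (G.F2 (f, 0) y) (Eu X (G.F2 x (e, 0))) β l) β l := by
      apply w.congr
      intro y β l
      exact G.Eu_TRR hT x y β l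
    rw [e1, w.sum Finset.univ (fun e y β l => ∑ f, X.η⁻¹ e f *
          star X.par (G.F2 (f, 0) y) (Eu X (G.F2 x (e, 0))) β l)]
    refine Finset.sum_congr rfl fun a _ => ?_
    rw [w.sum Finset.univ (fun f y β l => X.η⁻¹ a f *
          star X.par (G.F2 (f, 0) y) (Eu X (G.F2 x (a, 0))) β l)]
    refine Finset.sum_congr rfl fun c _ => ?_
    rw [h1, w.smul]
  rw [h2, sub_self]

end GWTheory

end Vale.Agent.P269
end
end

section

section

namespace Vale.Agent.P269

open Finset Polynomial

theorem br_low_zero (x : ℂ) (K : ℕ) : br x (K + 1) 0 = x * br (x + 1) K 0 := by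
  have h := brP_succ' (x + 1) K
  rw [add_sub_cancel_right] at h
  simp only [br_eq]
  rw [h, mul_add, Polynomial.coeff_add, Polynomial.coeff_mul_C, Polynomial.mul_coeff_zero]
  simp
  ring

theorem br_low_succ (x : ℂ) (K i : ℕ) :
    br x (K + 1) (i + 1) = br (x + 1) K i + x * br (x + 1) K (i + 1) := by
  have h := brP_succ' (x + 1) K
  rw [add_sub_cancel_right] at h
  simp only [br_eq]
  rw [h, mul_add, Polynomial.coeff_add, Polynomial.coeff_mul_C, Polynomial.coeff_mul_X]
  ring

theorem trip_swap23 (K : ℕ) (f : ℕ → ℕ → ℕ → ℂ) :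
    trip K f = trip K (fun m n i => f m i n) := by
  unfold trip
  refine Finset.sum_congr rfl fun m _ => ?_
  rw [Finset.sum_comm]
  refine Finset.sum_congr rfl fun n _ => Finset.sum_congr rfl fun i _ => ?_
  rw [show m + i + n + 2 = m + n + i + 2 from by ring]

theorem trip_shift_i (K : ℕ) (f : ℕ → ℕ → ℕ → ℂ) :
    trip (K + 1) (fun m n i => if i = 0 then 0 else f m n i) =
      trip K (fun m n i => f m n (i + 1)) := by
  rw [trip_swap23, trip_shift_right K (fun m n i => f m i n), trip_swap23]

variable {ι B : Type} [Fintype ι] [DecidableEq ι] [AddCommMonoid B]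
variable [DecidableEq B] [HasAntidiagonal B] {X : Target ι B}

namespace Target

variable (X : Target ι B)

theorem μ_of_Rpow {i : ℕ} {a b : ι} (h : (X.R ^ i) a b ≠ 0) : X.μ b = X.μ a + i := by
  have := (X.Rpow_type i a b h).1
  simp only [μ, this]
  push_cast
  ring

theorem μ_of_inv {a b : ι} (h : X.η⁻¹ a b ≠ 0) : X.μ b = - X.μ a := by
  have := (X.inv_type a b h).1
  have h1 : (X.p a : ℂ) + X.p b = X.r := by exact_mod_cast this
  simp only [μ]
  linear_combination h1

theorem μ_of_inv_mul {i : ℕ} {a b : ι} (h : (X.η⁻¹ * X.R ^ i) a b ≠ 0) :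
    X.μ b = i - X.μ a := by
  have := (X.inv_mul_Rpow_type i a b h).1
  have h1 : (X.p a : ℂ) + X.p b = X.r + i := by exact_mod_cast this
  simp only [μ]
  linear_combination h1

theorem inv_mul_Rpow (i : ℕ) : X.η⁻¹ * X.R ^ i = (X.R ^ i).transpose * X.η⁻¹ := by
  have h := X.Rpow_adj i
  calc X.η⁻¹ * X.R ^ i = X.η⁻¹ * (X.R ^ i * X.η) * X.η⁻¹ := by
        rw [Matrix.mul_assoc, Matrix.mul_assoc, X.η_mul_inv, Matrix.mul_one]
    _ = X.η⁻¹ * (X.η * (X.R ^ i).transpose) * X.η⁻¹ := by rw [h]
    _ = _ := by rw [← Matrix.mul_assoc, X.inv_mul_η, Matrix.one_mul]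

theorem inv_mul_Rpow_swap (i : ℕ) (a b : ι) :
    (X.η⁻¹ * X.R ^ i) a b = X.sg b * (X.η⁻¹ * X.R ^ i) b a := by
  conv_lhs => rw [X.inv_mul_Rpow i]
  rw [Matrix.mul_apply, Matrix.mul_apply, Finset.mul_sum]
  refine Finset.sum_congr rfl fun c _ => ?_
  rw [Matrix.transpose_apply, X.inv_swap c b]
  ring

theorem inv_Rpow_η (i : ℕ) (a y : ι) :
    ∑ c, X.η⁻¹ a c * (X.R ^ i * X.η) c y = (X.R ^ i) y a := by
  rw [← Matrix.mul_apply, X.Rpow_adj i, ← Matrix.mul_assoc, X.inv_mul_η, Matrix.one_mul,
    Matrix.transpose_apply]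

end Target

namespace GWTheory

theorem Lop_one (a : ι) (m : ℕ) (φ : ι × ℕ → ℂ) : Lop X 1 (a, m) φ =
    (X.μ a + m + 1 / 2) * φ (a, m) + if m = 0 then 0 else ∑ b, X.R a b * φ (b, m - 1) := by
  rcases m with _ | m
  · simp [Lop, Finset.sum_range_succ, br_one_zero, Matrix.one_apply]
  · simp [Lop, Finset.sum_range_succ, br_one_zero, br_one_one, Matrix.one_apply]

theorem Lop_one_succ (a : ι) (m : ℕ) (φ : ι × ℕ → ℂ) : Lop X 1 (a, m + 1) φ =
    (X.μ a + m + 3 / 2) * φ (a, m + 1) + ∑ b, X.R a b * φ (b, m) := by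
  rw [Lop_one]
  simp
  left
  ring

/-- A general expansion of `Lop (K + 1)`. -/
theorem Lop_succ_expand (K : ℕ) (a : ι) (m : ℕ) (φ : ι × ℕ → ℂ) (c d : ℂ)
    (p q : ℕ → ℂ) (h0 : br (X.μ a + m + 1 / 2) (K + 1) 0 = c * p 0)
    (hs : ∀ i, br (X.μ a + m + 1 / 2) (K + 1) (i + 1) = q i + c * p (i + 1))
    (hp : p (K + 1) = 0) (hd : d = 0) :
    Lop X (K + 1) (a, m) φ + d =
      c * ∑ i ∈ range (K + 1), p i * ∑ b, (X.R ^ i) a b * φ (b, m + K - i) +
      ∑ i ∈ range (K + 1), if i < m + K then
        q i * ∑ b, (X.R ^ (i + 1)) a b * φ (b, m + K - 1 - i) else 0 := by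
  subst hd
  rw [add_zero]
  unfold Lop
  rw [Finset.sum_range_succ']
  have e1 : ∀ i ∈ range (K + 1), (if i + 1 < m + (K + 1) then
      br (X.μ a + m + 1 / 2) (K + 1) (i + 1) *
      ∑ b, (X.R ^ (i + 1)) a b * φ (b, m + (K + 1) - 1 - (i + 1)) else 0) =
      (if i < m + K then
        q i * ∑ b, (X.R ^ (i + 1)) a b * φ (b, m + K - 1 - i) else 0) +
      c * (if i + 1 < K + 1 then
        p (i + 1) * ∑ b, (X.R ^ (i + 1)) a b * φ (b, m + K - (i + 1)) else 0) := by
    intro i hi
    rw [mem_range] at hi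
    rw [hs i]
    have n1 : m + (K + 1) - 1 - (i + 1) = m + K - 1 - i := by omega
    have n2 : m + K - (i + 1) = m + K - 1 - i := by omega
    rw [n1, n2]
    by_cases h1 : i < m + K
    · rw [if_pos (by omega), if_pos h1]
      by_cases h2 : i + 1 < K + 1
      · rw [if_pos h2]; ring
      · rw [if_neg h2]
        have : i + 1 = K + 1 := by omega
        rw [this, hp]; ring
    · rw [if_neg (by omega), if_neg h1, if_neg (by omega)]; ring
  rw [Finset.sum_congr rfl e1, Finset.sum_add_distrib, ← Finset.mul_sum]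
  have e2 : ∑ i ∈ range (K + 1), (if i + 1 < K + 1 then
        p (i + 1) * ∑ b, (X.R ^ (i + 1)) a b * φ (b, m + K - (i + 1)) else 0) =
      ∑ i ∈ range K, p (i + 1) * ∑ b, (X.R ^ (i + 1)) a b * φ (b, m + K - (i + 1)) := by
    rw [Finset.sum_range_succ, if_neg (by omega), add_zero]
    refine Finset.sum_congr rfl fun i hi => ?_
    rw [mem_range] at hi
    rw [if_pos (by omega)]
  rw [e2, Finset.sum_range_succ' (fun i => p i * ∑ b, (X.R ^ i) a b * φ (b, m + K - i))]
  simp only [h0]
  rw [if_pos (by omega)]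
  have n3 : m + (K + 1) - 1 - 0 = m + K - 0 := by omega
  rw [n3]
  ring

theorem Lop_low (K : ℕ) (x : ι × ℕ) (φ : ι × ℕ → ℂ) : Lop X (K + 1) x φ =
    Lop X 1 x (fun x' => Lop X K (x'.1, x'.2 + 1) φ) +
      if x.2 = 0 then ∑ c, X.R x.1 c * Lop X K (c, 0) φ else 0 := by
  obtain ⟨a, m⟩ := x
  have h := Lop_succ_expand (X := X) K a m φ (X.μ a + m + 1 / 2) 0
    (fun i => br (X.μ a + m + 1 / 2 + 1) K i) (fun i => br (X.μ a + m + 1 / 2 + 1) K i)
    (br_low_zero _ K) (fun i => br_low_succ _ K i) (br_gt _ (Nat.lt_succ_self K)) rfl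
  rw [add_zero] at h
  rw [h]
  have e1 : ∑ i ∈ range (K + 1), br (X.μ a + m + 1 / 2 + 1) K i *
      ∑ b, (X.R ^ i) a b * φ (b, m + K - i) = Lop X K (a, m + 1) φ := by
    unfold Lop
    refine Finset.sum_congr rfl fun i hi => ?_
    rw [mem_range] at hi
    rw [if_pos (by simp only; omega)]
    have n1 : m + 1 + K - 1 - i = m + K - i := by omega
    simp only [n1]
    congr 2
    push_cast
    ring
  have e2 : ∑ c, X.R a c * Lop X K (c, m) φ = ∑ i ∈ range (K + 1), (if i < m + K then
        br (X.μ a + m + 1 / 2 + 1) K i *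
          ∑ b, (X.R ^ (i + 1)) a b * φ (b, m + K - 1 - i) else 0) := by
    unfold Lop
    simp only [Finset.mul_sum]
    rw [Finset.sum_comm]
    refine Finset.sum_congr rfl fun i _ => ?_
    by_cases hi : i < m + K
    · simp only [hi, if_true, Finset.mul_sum]
      rw [Finset.sum_comm]
      refine Finset.sum_congr rfl fun b _ => ?_
      rw [pow_succ', Matrix.mul_apply, Finset.sum_mul, Finset.mul_sum]
      refine Finset.sum_congr rfl fun c _ => ?_
      by_cases hc : X.R a c = 0
      · simp [hc]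
      · have hμ := X.μ_of_Rpow (i := 1) (a := a) (b := c) (by rwa [pow_one])
        rw [hμ]
        push_cast
        rw [show X.μ a + 1 + m + 1 / 2 = X.μ a + m + 1 / 2 + 1 by ring]
        ring
    · simp [hi]
  rw [e1, ← e2, Lop_one]
  rcases m with _ | m
  · simp
  · simp

theorem Lop_high (K : ℕ) (x : ι × ℕ) (φ : ι × ℕ → ℂ) : Lop X (K + 1) x φ =
    Lop X K x (fun y => Lop X 1 (y.1, y.2 + 1) φ) +
      if x.2 = 0 then ∑ a, (X.R ^ K) x.1 a * Lop X 1 (a, 0) φ else 0 := by
  obtain ⟨a, m⟩ := x
  have h := Lop_succ_expand (X := X) K a m φ (X.μ a + m + 1 / 2 + K) 0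
    (fun i => br (X.μ a + m + 1 / 2) K i) (fun i => br (X.μ a + m + 1 / 2) K i)
    (br_succ_zero _ K) (fun i => br_succ_succ _ K i) (br_gt _ (Nat.lt_succ_self K)) rfl
  rw [add_zero] at h
  rw [h]
  have e1 : Lop X K (a, m) (fun y => Lop X 1 (y.1, y.2 + 1) φ) =
      (X.μ a + m + 1 / 2 + K) * ∑ i ∈ range (K + 1), (if i < m + K then
        br (X.μ a + m + 1 / 2) K i * ∑ b, (X.R ^ i) a b * φ (b, m + K - i) else 0) +
      ∑ i ∈ range (K + 1), (if i < m + K then
        br (X.μ a + m + 1 / 2) K i *
          ∑ b, (X.R ^ (i + 1)) a b * φ (b, m + K - 1 - i) else 0) := by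
    unfold Lop
    rw [Finset.mul_sum, ← Finset.sum_add_distrib]
    refine Finset.sum_congr rfl fun i _ => ?_
    by_cases hi : i < m + K
    · simp only [hi, if_true]
      have f1 : ∀ b, (X.R ^ i) a b * Lop X 1 (b, m + K - 1 - i + 1) φ =
          (X.μ a + m + 1 / 2 + K) * ((X.R ^ i) a b * φ (b, m + K - i)) +
          ∑ c, (X.R ^ i) a b * X.R b c * φ (c, m + K - 1 - i) := by
        intro b
        by_cases hb : (X.R ^ i) a b = 0
        · simp [hb]
        · rw [Lop_one_succ, X.μ_of_Rpow hb]
          have n1 : m + K - 1 - i + 1 = m + K - i := by omega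
          have n2 : ((m + K - 1 - i : ℕ) : ℂ) = m + K - 1 - i := by
            rw [Nat.sub_sub, Nat.cast_sub (by omega)]; push_cast; ring
          rw [n1, n2, mul_add, Finset.mul_sum]
          congr 1
          · ring
          · exact Finset.sum_congr rfl fun c _ => by ring
      have f2 : ∑ b, (X.R ^ i) a b * Lop X 1 (b, m + K - 1 - i + 1) φ =
          (X.μ a + m + 1 / 2 + K) * ∑ b, (X.R ^ i) a b * φ (b, m + K - i) +
          ∑ b, (X.R ^ (i + 1)) a b * φ (b, m + K - 1 - i) := by
        rw [Finset.sum_congr rfl fun b _ => f1 b, Finset.sum_add_distrib, ← Finset.mul_sum,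
          Finset.sum_comm]
        congr 1
        refine Finset.sum_congr rfl fun c _ => ?_
        rw [pow_succ, Matrix.mul_apply, Finset.sum_mul]
      have f3 : ∑ b, (X.R ^ i) a b * Lop X 1 (b, m + K - 1 - i + 1) φ =
        ∑ b, (X.R ^ i) (a, m).1 b * (fun y : ι × ℕ => Lop X 1 (y.1, y.2 + 1) φ)
          (b, (a, m).2 + K - 1 - i) := rfl
      unfold Lop at f2
      rw [f2]
      ring
    · simp [hi]
  rw [e1]
  have e2 : (X.μ a + m + 1 / 2 + K) * ∑ i ∈ range (K + 1), (if i < m + K then
        br (X.μ a + m + 1 / 2) K i * ∑ b, (X.R ^ i) a b * φ (b, m + K - i) else 0) +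
      (if m = 0 then ∑ b, (X.R ^ K) a b * Lop X 1 (b, 0) φ else 0) =
      (X.μ a + m + 1 / 2 + K) * ∑ i ∈ range (K + 1),
        br (X.μ a + m + 1 / 2) K i * ∑ b, (X.R ^ i) a b * φ (b, m + K - i) := by
    rcases m with _ | m
    · simp only [if_true]
      rw [Finset.sum_range_succ, Finset.sum_range_succ, if_neg (by omega), br_self]
      have g1 : ∀ i ∈ range K, (if i < 0 + K then
          br (X.μ a + ((0 : ℕ) : ℂ) + 1 / 2) K i * ∑ b, (X.R ^ i) a b * φ (b, 0 + K - i) else 0) =
          br (X.μ a + ((0 : ℕ) : ℂ) + 1 / 2) K i * ∑ b, (X.R ^ i) a b * φ (b, 0 + K - i) := by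
        intro i hi
        rw [mem_range] at hi
        rw [if_pos (by omega)]
      rw [Finset.sum_congr rfl g1]
      have g2 : ∑ b, (X.R ^ K) a b * Lop X 1 (b, 0) φ =
          (X.μ a + ((0 : ℕ) : ℂ) + 1 / 2 + K) * ∑ b, (X.R ^ K) a b * φ (b, 0 + K - K) := by
        rw [Finset.mul_sum]
        refine Finset.sum_congr rfl fun b _ => ?_
        by_cases hb : (X.R ^ K) a b = 0
        · simp [hb]
        · rw [Lop_one, X.μ_of_Rpow hb]
          simp
          ring
      rw [g2]
      ring
    · simp only [Nat.add_one_ne_zero, if_false, add_zero]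
      congr 1
      refine Finset.sum_congr rfl fun i hi => ?_
      rw [mem_range] at hi
      rw [if_pos (by omega)]
  rw [← e2]
  ring

end GWTheory

end Vale.Agent.P269
end
end

section

section

namespace Vale.Agent.P269

open Finset Polynomial

variable {ι B : Type} [Fintype ι] [DecidableEq ι] [AddCommMonoid B]
variable [DecidableEq B] [HasAntidiagonal B] {X : Target ι B}

namespace GWTheory

/-- The quadratic form of `L_{K-1}` evaluated on a kernel `S`. -/
noncomputable def QK (X : Target ι B) (K : ℕ) (S : ι × ℕ → ι × ℕ → ℂ) : ℂ :=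
  trip K (fun m n i => (-1) ^ (m + 1) * ∑ a, ∑ b, br (-X.μ a - m - 1 / 2) K i *
    (X.η⁻¹ * X.R ^ i) a b * (X.sg b * S (a, m) (b, n)))

/-- The recursion for the quadratic form. -/
theorem QK_succ (K : ℕ) (S : ι × ℕ → ι × ℕ → ℂ) : QK X (K + 1) S =
    QK X K (fun x y => Lop X 1 (y.1, y.2 + 1) (S x)) +
    ∑ a, ∑ c, X.η⁻¹ a c * Lop X K (c, 0) (fun d => Lop X 1 (a, 0) (S d)) := by
  set A : ℕ → ℕ → ℕ → ℂ := fun m n i => (-1) ^ (m + 1) * ∑ a, ∑ b,
    (-X.μ a - m - 1 / 2 + K) * br (-X.μ a - m - 1 / 2) K i *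
    (X.η⁻¹ * X.R ^ i) a b * (X.sg b * S (a, m) (b, n)) with hA
  set C : ℕ → ℕ → ℕ → ℂ := fun m n i => (-1) ^ (m + 1) * ∑ a, ∑ b,
    br (-X.μ a - m - 1 / 2) K (i - 1) *
    (X.η⁻¹ * X.R ^ i) a b * (X.sg b * S (a, m) (b, n)) with hC
  have e1 : QK X (K + 1) S = trip (K + 1) A +
      trip (K + 1) (fun m n i => if i = 0 then 0 else C m n i) := by
    rw [← trip_add]
    unfold QK
    apply trip_congr
    intro m n i _
    simp only [hA, hC]
    rcases i with _ | i
    · simp only [if_true, add_zero]
      congr 1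
      refine Finset.sum_congr rfl fun a _ => Finset.sum_congr rfl fun b _ => ?_
      rw [br_succ_zero]
    · simp only [Nat.add_one_ne_zero, if_false, ← mul_add, ← Finset.sum_add_distrib]
      congr 1
      refine Finset.sum_congr rfl fun a _ => Finset.sum_congr rfl fun b _ => ?_
      rw [br_succ_succ, Nat.add_sub_cancel]
      ring
  have e2 : trip (K + 1) A = trip (K + 1) (fun m n i => if n = 0 then 0 else A m n i) +
      trip (K + 1) (fun m n i => if n = 0 then A m n i else 0) := by
    rw [← trip_add]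
    apply trip_congr
    intro m n i _
    split_ifs <;> simp
  have e3 : QK X K (fun x y => Lop X 1 (y.1, y.2 + 1) (S x)) =
      trip K (fun m n i => A m (n + 1) i) + trip K (fun m n i => C m n (i + 1)) := by
    rw [← trip_add]
    unfold QK
    apply trip_congr
    intro m n i hK
    simp only [hA, hC, Nat.add_sub_cancel, ← mul_add]
    congr 1
    have f1 : ∑ a, ∑ b, br (-X.μ a - m - 1 / 2) K i * (X.η⁻¹ * X.R ^ (i + 1)) a b *
        (X.sg b * S (a, m) (b, n)) = ∑ a, ∑ b, ∑ c, br (-X.μ a - m - 1 / 2) K i *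
        (X.η⁻¹ * X.R ^ i) a b * X.R b c * (X.sg b * S (a, m) (c, n)) := by
      refine Finset.sum_congr rfl fun a _ => ?_
      rw [Finset.sum_comm]
      refine Finset.sum_congr rfl fun c _ => ?_
      rw [pow_succ, ← Matrix.mul_assoc, Matrix.mul_apply, Finset.mul_sum, Finset.sum_mul]
      refine Finset.sum_congr rfl fun b _ => ?_
      by_cases hb : X.R b c = 0
      · simp [hb]
      · have := X.Rpow_sg (i := 1) (a := b) (b := c) (by rwa [pow_one])
        rw [this]
        ring
    rw [f1, ← Finset.sum_add_distrib]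
    refine Finset.sum_congr rfl fun a _ => ?_
    rw [← Finset.sum_add_distrib]
    refine Finset.sum_congr rfl fun b _ => ?_
    by_cases hb : (X.η⁻¹ * X.R ^ i) a b = 0
    · simp [hb]
    · rw [Lop_one_succ, X.μ_of_inv_mul hb]
      have hKc : (K : ℂ) = m + n + i + 2 := by rw [← hK]; push_cast; ring
      have f2 : ∑ c, br (-X.μ a - m - 1 / 2) K i *
          (X.η⁻¹ * X.R ^ i) a b * X.R b c * (X.sg b * S (a, m) (c, n)) =
          br (-X.μ a - m - 1 / 2) K i * (X.η⁻¹ * X.R ^ i) a b * (X.sg b *
            ∑ c, X.R b c * S (a, m) (c, n)) := by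
        rw [Finset.mul_sum, Finset.mul_sum]
        exact Finset.sum_congr rfl fun c _ => by ring
      rw [f2]
      rw [show (-X.μ a - m - 1 / 2 + K : ℂ) = i - X.μ a + n + 3 / 2 by rw [hKc]; ring]
      ring
  have e4 : trip (K + 1) (fun m n i => if n = 0 then A m n i else 0) =
      ∑ a, ∑ c, X.η⁻¹ a c * Lop X K (c, 0) (fun d => Lop X 1 (a, 0) (S d)) := by
    rw [trip_right_zero K A]
    have f1 : ∀ a c, X.η⁻¹ a c * Lop X K (c, 0) (fun d => Lop X 1 (a, 0) (S d)) =
        ∑ i ∈ range K, ∑ d, (X.μ a + 1 / 2) * br (-X.μ a + 1 / 2) K i *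
          (X.η⁻¹ a c * (X.R ^ i) c d) * S (d, K - 1 - i) (a, 0) := by
      intro a c
      unfold Lop
      rw [Finset.sum_range_succ, if_neg (by simp), add_zero, Finset.mul_sum]
      refine Finset.sum_congr rfl fun i hi => ?_
      rw [mem_range] at hi
      rw [if_pos (by simp only; omega), Finset.mul_sum, Finset.mul_sum]
      refine Finset.sum_congr rfl fun d _ => ?_
      by_cases h : X.η⁻¹ a c = 0
      · simp [h]
      · have n1 : (c, 0).2 + K - 1 - i = K - 1 - i := by simp
        simp only [X.μ_of_inv h]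
        have g1 := Lop_one (X := X) a 0 (S (d, 0 + K - 1 - i))
        unfold Lop at g1
        rw [g1]
        simp
        ring
    rw [Finset.sum_congr rfl fun a _ => Finset.sum_congr rfl fun c _ => f1 a c]
    have f2 : ∑ a, ∑ c, ∑ i ∈ range K, ∑ d, (X.μ a + 1 / 2) * br (-X.μ a + 1 / 2) K i *
          (X.η⁻¹ a c * (X.R ^ i) c d) * S (d, K - 1 - i) (a, 0) =
        ∑ i ∈ range K, ∑ a, ∑ d, (X.μ a + 1 / 2) * br (-X.μ a + 1 / 2) K i *
          (X.η⁻¹ * X.R ^ i) a d * S (d, K - 1 - i) (a, 0) := by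
      have g1 : ∀ a, ∑ c, ∑ i ∈ range K, ∑ d, (X.μ a + 1 / 2) * br (-X.μ a + 1 / 2) K i *
          (X.η⁻¹ a c * (X.R ^ i) c d) * S (d, K - 1 - i) (a, 0) =
          ∑ i ∈ range K, ∑ d, (X.μ a + 1 / 2) * br (-X.μ a + 1 / 2) K i *
          (X.η⁻¹ * X.R ^ i) a d * S (d, K - 1 - i) (a, 0) := by
        intro a
        rw [Finset.sum_comm]
        refine Finset.sum_congr rfl fun i _ => ?_
        rw [Finset.sum_comm]
        refine Finset.sum_congr rfl fun d _ => ?_
        rw [Matrix.mul_apply, Finset.mul_sum, Finset.sum_mul]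
      rw [Finset.sum_congr rfl fun a _ => g1 a, Finset.sum_comm]
    rw [f2]
    refine Finset.sum_congr rfl fun i hi => ?_
    rw [mem_range] at hi
    simp only [hA]
    rw [Finset.mul_sum, Finset.sum_comm (γ := ι) (s := Finset.univ) (t := Finset.univ)
      (f := fun a d => (X.μ a + 1 / 2) * br (-X.μ a + 1 / 2) K i *
          (X.η⁻¹ * X.R ^ i) a d * S (d, K - 1 - i) (a, 0))]
    refine Finset.sum_congr rfl fun a _ => ?_
    rw [Finset.mul_sum]
    refine Finset.sum_congr rfl fun b _ => ?_
    have hsw := X.inv_mul_Rpow_swap i b a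
    by_cases hb : (X.η⁻¹ * X.R ^ i) a b = 0
    · rw [hsw, hb]; ring
    · have hμ := X.μ_of_inv_mul hb
      have hs : X.sg b = X.sg a := by
        have ht := X.inv_mul_Rpow_type i a b hb
        exact X.sg_of_add_even ⟨X.r + i, by omega⟩
      have hm : ((K - 1 - i : ℕ) : ℂ) = K - 1 - i := by
        rw [Nat.sub_sub, Nat.cast_sub (by omega)]; push_cast; ring
      have hx : (-X.μ b + 1 / 2 : ℂ) = -(-X.μ a - (K - 1 - i : ℕ) - 1 / 2) - K + 1 := by
        rw [hμ, hm]; ring
      have hr := br_reflect (-X.μ a - (K - 1 - i : ℕ) - 1 / 2) K i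
      have hsg : ((-1 : ℂ)) ^ (K - 1 - i + 1) = (-1) ^ (K + i) :=
        neg_one_pow_congr (by omega)
      rw [hx, hr, hsw, hsg, hs]
      have hμ2 : (X.μ b + 1 / 2 : ℂ) = -X.μ a - (K - 1 - i : ℕ) - 1 / 2 + K := by
        rw [hμ, hm]; ring
      rw [hμ2]
      ring
  rw [e1, e2, trip_shift_right K A, trip_shift_i K C, e3, e4]
  ring

end GWTheory

end Vale.Agent.P269
end
end

section

section

namespace Vale.Agent.P269

open Finset Polynomial

section general

variable {A B : Type} [AddCommMonoid B] [DecidableEq B] [HasAntidiagonal B] {π : A → ℕ}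

theorem Th_sum {κ : Type} (s : Finset κ) (l : List A) (H : κ → A → List A → ℂ) :
    Th π l (fun z I => ∑ k ∈ s, H k z I) = ∑ k ∈ s, Th π l (H k) := by
  classical
  induction s using Finset.induction_on with
  | empty =>
    have := Th_smul (π := π) l 0 (fun _ _ => 0)
    simpa using this
  | insert k s hk ih =>
    simp only [Finset.sum_insert hk, Th_add, ih]

theorem split_unit_right (l : List A) : ∀ f : List A → ℂ,
    split π l f (fun I => if I.length = 0 then 1 else 0) = f l := by
  induction l with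
  | nil => intro f; simp [split]
  | cons x l ih =>
    intro f
    simp only [split]
    rw [ih]
    have e : (fun J : List A => if (x :: J).length = 0 then (1 : ℂ) else 0) = fun _ => 0 := by
      funext J; simp
    rw [e, split_zero_right', add_zero]

theorem star_unit_right (h : B → List A → ℂ) (β : B) (l : List A) :
    star π h (unitS A B) β l = h β l := by
  unfold star unitS
  rw [Finset.sum_eq_single (β, 0)]
  · simp only [true_and]
    exact split_unit_right l (h β)
  · intro b hb hne
    have hb1 : b.2 ≠ 0 := by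
      intro h0
      apply hne
      rw [HasAntidiagonal.mem_antidiagonal, h0, add_zero] at hb
      exact Prod.ext hb h0
    simp only [hb1, false_and, if_false]
    exact split_zero_right' l _
  · intro hn
    exact absurd (HasAntidiagonal.mem_antidiagonal.2 (by simp)) hn

end general

variable {ι B : Type} [Fintype ι] [DecidableEq ι] [AddCommMonoid B]
variable [DecidableEq B] [HasAntidiagonal B] {X : Target ι B}

/-- The functional of the point of the cone. -/
noncomputable def Ψf (X : Target ι B) (G : ι × ℕ → B → List (ι × ℕ) → ℂ) :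
    B → List (ι × ℕ) → ℂ :=
  fun β l => Th X.par l (fun z => G z β) - G (X.e, 1) β l

theorem Ψf_congr {G G' : ι × ℕ → B → List (ι × ℕ) → ℂ} (h : ∀ y β l, G y β l = G' y β l)
    (β : B) (l : List (ι × ℕ)) : Ψf X G β l = Ψf X G' β l := by
  have : G = G' := by funext y β l; exact h y β l
  rw [this]

theorem Ψf_add (G G' : ι × ℕ → B → List (ι × ℕ) → ℂ) (β : B) (l : List (ι × ℕ)) :
    Ψf X (fun y β l => G y β l + G' y β l) β l = Ψf X G β l + Ψf X G' β l := by
  unfold Ψf
  rw [Th_add]; ring

theorem Ψf_smul (c : ℂ) (G : ι × ℕ → B → List (ι × ℕ) → ℂ) (β : B) (l : List (ι × ℕ)) :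
    Ψf X (fun y β l => c * G y β l) β l = c * Ψf X G β l := by
  unfold Ψf
  rw [Th_smul]; ring

theorem Ψf_sum {κ : Type} (s : Finset κ) (G : κ → ι × ℕ → B → List (ι × ℕ) → ℂ) (β : B)
    (l : List (ι × ℕ)) :
    Ψf X (fun y β l => ∑ k ∈ s, G k y β l) β l = ∑ k ∈ s, Ψf X (G k) β l := by
  unfold Ψf
  rw [Th_sum, Finset.sum_sub_distrib]

theorem Ψf_right (G : ι × ℕ → B → List (ι × ℕ) → ℂ) (h : B → List (ι × ℕ) → ℂ) (β : B)
    (l : List (ι × ℕ)) :
    Ψf X (fun y => star X.par (G y) h) β l = star X.par (Ψf X G) h β l := by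
  have e1 : star X.par (Ψf X G) h β l =
      star X.par (fun β I => Th X.par I (fun z => G z β)) h β l -
      star X.par (G (X.e, 1)) h β l := by
    have h1 := star_add_left (π := X.par) (fun β I => Th X.par I (fun z => G z β))
      (fun β I => (-1) * G (X.e, 1) β I) h β l
    rw [star_smul_left] at h1
    rw [sub_eq_add_neg, ← neg_one_mul, ← h1]
    apply star_congr
    · intro β I; unfold Ψf; ring
    · intro β I; rfl
  rw [e1]
  unfold Ψf
  congr 1
  have h2 := Th_sum (π := X.par) (antidiagonal β) l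
    (fun b z I => split X.par I (G z b.1) (h b.2))
  refine Eq.trans h2 ?_
  exact Finset.sum_congr rfl fun b _ => Th_split_left l (fun z => G z b.1) (h b.2)

namespace GWTheory

variable (G : GWTheory X)

/-- The point of the cone. -/
noncomputable def fV : Vec X where
  Ψ := Ψf X
  m := G.F1
  add := Ψf_add
  smul := Ψf_smul
  right := Ψf_right

/-- The vectors `l_k f`, `k = n`. -/
noncomputable def Wn (G : GWTheory X) : ℕ → Vec X
  | 0 => G.fV.lV
  | n + 1 => (Wn G n).zV.lV

/-- The quadratic part of the functional. -/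
noncomputable def Qf (K : ℕ) (H : ι × ℕ → B → List (ι × ℕ) → ℂ) : B → List (ι × ℕ) → ℂ :=
  fun β l => QK X K (fun x y => star X.par (G.F1 x) (H y) β l)

theorem Qf_succ_aux (K : ℕ) (H : ι × ℕ → B → List (ι × ℕ) → ℂ) (a c : ι) (β : B)
    (l : List (ι × ℕ)) :
    Lop X K (c, 0) (fun d => Lop X 1 (a, 0) (fun y => star X.par (G.F1 d) (H y) β l)) =
      star X.par (fun β l => Lop X K (c, 0) (fun y => G.F1 y β l)) (Vec.lo X 1 H (a, 0)) β l := by
  have h1 : star X.par (fun β l => Lop X K (c, 0) (fun y => G.F1 y β l))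
      (Vec.lo X 1 H (a, 0)) β l =
      Lop X K (c, 0) (fun d => star X.par (G.F1 d) (Vec.lo X 1 H (a, 0)) β l) :=
    (Vec.lo_star K (fun d => G.F1 d) (Vec.lo X 1 H (a, 0)) (c, 0) β l).symm
  have h2 : ∀ d, Lop X 1 (a, 0) (fun y => star X.par (G.F1 d) (H y) β l) =
      star X.par (G.F1 d) (Vec.lo X 1 H (a, 0)) β l :=
    fun d => (Vec.star_lo (X := X) 1 H (G.F1 d) (a, 0) β l).symm
  rw [h1]
  exact congrArg (Lop X K (c, 0)) (_root_.funext h2)

theorem Qf_succ (K : ℕ) (H : ι × ℕ → B → List (ι × ℕ) → ℂ) (β : B) (l : List (ι × ℕ)) :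
    G.Qf (K + 1) H β l = G.Qf K (fun y => Vec.lo X 1 H (y.1, y.2 + 1)) β l +
    ∑ a, ∑ c, X.η⁻¹ a c *
      star X.par (fun β l => Lop X K (c, 0) (fun y => G.F1 y β l)) (Vec.lo X 1 H (a, 0)) β l := by
  have h0 := QK_succ (X := X) K (fun x y => star X.par (G.F1 x) (H y) β l)
  have h1 : QK X K (fun x y => Lop X 1 (y.1, y.2 + 1)
      (fun y => star X.par (G.F1 x) (H y) β l)) =
      QK X K (fun x y => star X.par (G.F1 x) (Vec.lo X 1 H (y.1, y.2 + 1)) β l) :=
    congrArg (QK X K) (_root_.funext fun x => _root_.funext fun y =>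
      (Vec.star_lo (X := X) 1 H (G.F1 x) (y.1, y.2 + 1) β l).symm)
  have h2 : G.Qf (K + 1) H β l = QK X (K + 1) (fun x y => star X.par (G.F1 x) (H y) β l) := rfl
  have h3 : G.Qf K (fun y => Vec.lo X 1 H (y.1, y.2 + 1)) β l =
    QK X K (fun x y => star X.par (G.F1 x) (Vec.lo X 1 H (y.1, y.2 + 1)) β l) := rfl
  rw [h2, h3, h0, h1]
  refine congrArg₂ (· + ·) rfl ?_
  refine Finset.sum_congr rfl fun a _ => Finset.sum_congr rfl fun c _ => ?_
  exact congrArg (fun z => X.η⁻¹ a c * z) (G.Qf_succ_aux K H a c β l)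

theorem Wn_zero_Ψ (H : ι × ℕ → B → List (ι × ℕ) → ℂ) (β : B) (l : List (ι × ℕ)) :
    (G.Wn 0).Ψ H β l = Ψf X (Vec.lo X 1 H) β l := rfl

theorem Wn_zero_m (x : ι × ℕ) (β : B) (l : List (ι × ℕ)) :
    (G.Wn 0).m x β l = - Lop X 1 x (fun y => G.F1 y β l) -
      if x.2 = 0 then Ψf X (Vec.ru X 1 x) β l else 0 := rfl

theorem Wn_succ_Ψ (n : ℕ) (H : ι × ℕ → B → List (ι × ℕ) → ℂ) (β : B) (l : List (ι × ℕ)) :
    (G.Wn (n + 1)).Ψ H β l = (G.Wn n).Ψ (fun y => Vec.lo X 1 H (y.1, y.2 + 1)) β l -
      ∑ a, ∑ c, X.η⁻¹ a c * star X.par ((G.Wn n).m (c, 0)) (Vec.lo X 1 H (a, 0)) β l := rfl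

theorem Wn_succ_m (n : ℕ) (x : ι × ℕ) (β : B) (l : List (ι × ℕ)) :
    (G.Wn (n + 1)).m x β l = - Lop X 1 x (fun y => - (G.Wn n).m (y.1, y.2 + 1) β l) -
      if x.2 = 0 then ((G.Wn n).Ψ (fun y => Vec.ru X 1 x (y.1, y.2 + 1)) β l -
      ∑ a, ∑ c, X.η⁻¹ a c * star X.par ((G.Wn n).m (c, 0)) (Vec.ru X 1 x (a, 0)) β l)
      else 0 := rfl

theorem Ψf_lo_succ (K : ℕ) (H : ι × ℕ → B → List (ι × ℕ) → ℂ) (β : B) (l : List (ι × ℕ)) :
    Ψf X (Vec.lo X (K + 1) H) β l =
      Ψf X (Vec.lo X K (fun y => Vec.lo X 1 H (y.1, y.2 + 1))) β l +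
      ∑ a, ∑ c, X.η⁻¹ a c * Ψf X (fun y β l =>
        (if y.2 = 0 then (X.R ^ K * X.η) c y.1 else 0) * Vec.lo X 1 H (a, 0) β l) β l := by
  have h1 : ∑ a, ∑ c, X.η⁻¹ a c * Ψf X (fun y β l =>
      (if y.2 = 0 then (X.R ^ K * X.η) c y.1 else 0) * Vec.lo X 1 H (a, 0) β l) β l =
      Ψf X (fun y β l => ∑ a, ∑ c, X.η⁻¹ a c *
        ((if y.2 = 0 then (X.R ^ K * X.η) c y.1 else 0) *
          Vec.lo X 1 H (a, 0) β l)) β l := by
    rw [Ψf_sum Finset.univ (fun a y β l => ∑ c, X.η⁻¹ a c *
        ((if y.2 = 0 then (X.R ^ K * X.η) c y.1 else 0) * Vec.lo X 1 H (a, 0) β l))]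
    refine Finset.sum_congr rfl fun a _ => ?_
    rw [Ψf_sum Finset.univ (fun c y β l => X.η⁻¹ a c *
        ((if y.2 = 0 then (X.R ^ K * X.η) c y.1 else 0) * Vec.lo X 1 H (a, 0) β l))]
    refine Finset.sum_congr rfl fun c _ => ?_
    rw [Ψf_smul]
  rw [h1, ← Ψf_add]
  apply Ψf_congr
  intro y β l
  simp only [Vec.lo]
  rw [Lop_high]
  congr 1
  by_cases hy : y.2 = 0
  · simp only [hy, if_true]
    refine Finset.sum_congr rfl fun a _ => ?_
    rw [← X.inv_Rpow_η K a y.1, Finset.sum_mul]
    exact Finset.sum_congr rfl fun c _ => by ring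
  · simp [hy]

theorem Ψf_ru_star (K : ℕ) (c : ι) (h : B → List (ι × ℕ) → ℂ) (β : B) (l : List (ι × ℕ)) :
    star X.par (Ψf X (Vec.ru X K (c, 0))) h β l =
      Ψf X (fun y β l => (if y.2 = 0 then (X.R ^ K * X.η) c y.1 else 0) * h β l) β l := by
  rw [← Ψf_right]
  apply Ψf_congr
  intro y β l
  have := star_smul_left (π := X.par) (if y.2 = 0 then (X.R ^ K * X.η) c y.1 else 0)
    (unitS (ι × ℕ) B) h β l
  rw [star_unit_left] at this
  exact this

theorem Wn_star (n : ℕ)
    (ih : ∀ x β l, (G.Wn n).m x β l = - Lop X (n + 1) x (fun y => G.F1 y β l) -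
      if x.2 = 0 then Ψf X (Vec.ru X (n + 1) x) β l else 0) (c : ι)
    (h : B → List (ι × ℕ) → ℂ) (β : B) (l : List (ι × ℕ)) :
    star X.par ((G.Wn n).m (c, 0)) h β l =
      - star X.par (fun β l => Lop X (n + 1) (c, 0) (fun y => G.F1 y β l)) h β l -
      Ψf X (fun y β l => (if y.2 = 0 then (X.R ^ (n + 1) * X.η) c y.1 else 0) * h β l) β l := by
  have h1 := star_add_left (π := X.par)
    (fun β l => (-1) * Lop X (n + 1) (c, 0) (fun y => G.F1 y β l))
    (fun β l => (-1) * Ψf X (Vec.ru X (n + 1) (c, 0)) β l) h β l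
  rw [star_smul_left, star_smul_left (π := X.par) (-1) (Ψf X (Vec.ru X (n + 1) (c, 0))),
    Ψf_ru_star] at h1
  have h3 : star X.par ((G.Wn n).m (c, 0)) h β l =
      star X.par (fun β l => (-1) * Lop X (n + 1) (c, 0) (fun y => G.F1 y β l) +
        (-1) * Ψf X (Vec.ru X (n + 1) (c, 0)) β l) h β l := by
    apply star_congr
    · intro β I
      rw [ih]
      simp only [if_true]
      ring
    · intro β I; rfl
  rw [h3, h1]
  ring

/-- Induction step for the functional. -/
theorem Wn_step_Ψ (n : ℕ)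
    (ih1 : ∀ H β l, (G.Wn n).Ψ H β l =
      Ψf X (Vec.lo X (n + 1) H) β l + G.Qf (n + 1) H β l)
    (ih2 : ∀ x β l, (G.Wn n).m x β l = - Lop X (n + 1) x (fun y => G.F1 y β l) -
      if x.2 = 0 then Ψf X (Vec.ru X (n + 1) x) β l else 0)
    (H : ι × ℕ → B → List (ι × ℕ) → ℂ) (β : B) (l : List (ι × ℕ)) :
    (G.Wn (n + 1)).Ψ H β l = Ψf X (Vec.lo X (n + 1 + 1) H) β l + G.Qf (n + 1 + 1) H β l := by
  rw [Wn_succ_Ψ, ih1, Qf_succ G (n + 1) H, Ψf_lo_succ (n + 1) H]
  have e1 : ∑ a, ∑ c, X.η⁻¹ a c *
      star X.par ((G.Wn n).m (c, 0)) (Vec.lo X 1 H (a, 0)) β l =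
      - ∑ a, ∑ c, X.η⁻¹ a c *
        star X.par (fun β l => Lop X (n + 1) (c, 0) (fun y => G.F1 y β l))
          (Vec.lo X 1 H (a, 0)) β l -
      ∑ a, ∑ c, X.η⁻¹ a c *
        Ψf X (fun y β l => (if y.2 = 0 then (X.R ^ (n + 1) * X.η) c y.1 else 0) *
          Vec.lo X 1 H (a, 0) β l) β l := by
    rw [← Finset.sum_neg_distrib, ← Finset.sum_sub_distrib]
    refine Finset.sum_congr rfl fun a _ => ?_
    rw [← Finset.sum_neg_distrib, ← Finset.sum_sub_distrib]
    refine Finset.sum_congr rfl fun c _ => ?_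
    rw [Wn_star G n ih2]
    ring
  rw [e1]
  ring

theorem Ψf_ru_succ (K : ℕ) (x : ι × ℕ) (β : B) (l : List (ι × ℕ)) :
    Ψf X (Vec.ru X (K + 1) x) β l = ∑ c, X.R x.1 c * Ψf X (Vec.ru X K (c, 0)) β l := by
  have h1 : ∑ c, X.R x.1 c * Ψf X (Vec.ru X K (c, 0)) β l =
      Ψf X (fun y β l => ∑ c, X.R x.1 c * Vec.ru X K (c, 0) y β l) β l := by
    rw [Ψf_sum Finset.univ (fun c y β l => X.R x.1 c * Vec.ru X K (c, 0) y β l)]
    exact Finset.sum_congr rfl fun c _ => (Ψf_smul _ _ _ _).symm
  rw [h1]
  apply Ψf_congr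
  intro y β l
  simp only [Vec.ru]
  rw [pow_succ', Matrix.mul_assoc, Matrix.mul_apply]
  split_ifs
  · rw [Finset.sum_mul]
    exact Finset.sum_congr rfl fun c _ => by ring
  · simp

theorem Wn_ru_star (n : ℕ) (x : ι × ℕ) (a c : ι) (β : B) (l : List (ι × ℕ)) :
    star X.par ((G.Wn n).m (c, 0)) (Vec.ru X 1 x (a, 0)) β l =
      (X.R * X.η) x.1 a * (G.Wn n).m (c, 0) β l := by
  have := star_smul_right (π := X.par) ((X.R * X.η) x.1 a) ((G.Wn n).m (c, 0))
    (unitS (ι × ℕ) B) β l
  rw [star_unit_right] at this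
  rw [← this]
  apply star_congr
  · intro β I; rfl
  · intro β I; simp [Vec.ru]

/-- Induction step for the negative part. -/
theorem Wn_step_m (n : ℕ)
    (ih2 : ∀ x β l, (G.Wn n).m x β l = - Lop X (n + 1) x (fun y => G.F1 y β l) -
      if x.2 = 0 then Ψf X (Vec.ru X (n + 1) x) β l else 0)
    (x : ι × ℕ) (β : B) (l : List (ι × ℕ)) :
    (G.Wn (n + 1)).m x β l = - Lop X (n + 1 + 1) x (fun y => G.F1 y β l) -
      if x.2 = 0 then Ψf X (Vec.ru X (n + 1 + 1) x) β l else 0 := by
  rw [Wn_succ_m]
  have e1 : Lop X 1 x (fun y => - (G.Wn n).m (y.1, y.2 + 1) β l) =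
      Lop X 1 x (fun y => Lop X (n + 1) (y.1, y.2 + 1) (fun y => G.F1 y β l)) := by
    congr 1
    funext y
    rw [ih2]
    simp
  have e2 : (G.Wn n).Ψ (fun y => Vec.ru X 1 x (y.1, y.2 + 1)) β l = 0 := by
    rw [← (G.Wn n).zero β l]
    apply (G.Wn n).congr
    intro y β l
    simp [Vec.ru]
  have e4 : ∑ a, ∑ c, X.η⁻¹ a c * star X.par ((G.Wn n).m (c, 0)) (Vec.ru X 1 x (a, 0)) β l =
      ∑ c, X.R x.1 c * (G.Wn n).m (c, 0) β l := by
    rw [Finset.sum_comm]
    refine Finset.sum_congr rfl fun c _ => ?_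
    have h1 : X.R x.1 c = ∑ a, (X.R * X.η) x.1 a * X.η⁻¹ a c := by
      rw [← Matrix.mul_apply, Matrix.mul_assoc, X.η_mul_inv, Matrix.mul_one]
    rw [h1, Finset.sum_mul]
    refine Finset.sum_congr rfl fun a _ => ?_
    rw [Wn_ru_star]; ring
  rw [e1, e2, e4, Lop_low (n + 1) x]
  by_cases hx : x.2 = 0
  · simp only [hx, if_true, zero_sub]
    rw [Ψf_ru_succ (n + 1) x]
    have e6 : ∑ c, X.R x.1 c * (G.Wn n).m (c, 0) β l =
        - ∑ c, X.R x.1 c * Lop X (n + 1) (c, 0) (fun y => G.F1 y β l) -
        ∑ c, X.R x.1 c * Ψf X (Vec.ru X (n + 1) (c, 0)) β l := by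
      rw [← Finset.sum_neg_distrib, ← Finset.sum_sub_distrib]
      refine Finset.sum_congr rfl fun c _ => ?_
      rw [ih2]
      simp only [if_true]
      ring
    rw [e6]
    ring
  · simp [hx]

/-- Explicit form of the functional and of the negative part of `l_k f`. -/
theorem Wn_explicit (n : ℕ) :
    (∀ H β l, (G.Wn n).Ψ H β l = Ψf X (Vec.lo X (n + 1) H) β l + G.Qf (n + 1) H β l) ∧
    (∀ x β l, (G.Wn n).m x β l = - Lop X (n + 1) x (fun y => G.F1 y β l) -
      if x.2 = 0 then Ψf X (Vec.ru X (n + 1) x) β l else 0) := by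
  induction n with
  | zero =>
    constructor
    · intro H β l
      have : G.Qf (0 + 1) H β l = 0 := by
        unfold Qf QK trip
        simp
      rw [this, add_zero]
      exact G.Wn_zero_Ψ H β l
    · intro x β l
      exact G.Wn_zero_m x β l
  | succ n ih => exact ⟨G.Wn_step_Ψ n ih.1 ih.2, G.Wn_step_m n ih.2⟩

end GWTheory

end Vale.Agent.P269
end
end

section

section

namespace Vale.Agent.P269

open Finset Polynomial

section general

variable {A : Type} {π : A → ℕ}

theorem Th_zero (l : List A) : ∀ (H : A → List A → ℂ), (∀ z I, H z I = 0) → Th π l H = 0 := by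
  induction l with
  | nil => intro H _; rfl
  | cons x l ih =>
    intro H h
    simp only [Th]
    rw [h, ih _ (fun z I => by rw [h, mul_zero]), add_zero]

theorem Th_long (z w : A) (l : List A) (H : A → List A → ℂ) (hH : ∀ z I, I ≠ [] → H z I = 0) :
    Th π (z :: w :: l) H = 0 := by
  simp only [Th]
  rw [hH z _ (by simp), hH w _ (by simp), mul_zero, Th_zero l _ (fun z I => by
    rw [hH z _ (by simp), mul_zero, mul_zero])]
  ring

end general

variable {ι B : Type} [Fintype ι] [DecidableEq ι] [AddCommMonoid B]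
variable [DecidableEq B] [HasAntidiagonal B] {X : Target ι B}

namespace GWTheory

variable (G : GWTheory X)

theorem Ψf_ru (K : ℕ) (x : ι × ℕ) (hx : x.2 = 0) (β : B) (l : List (ι × ℕ)) :
    Ψf X (Vec.ru X K x) β l = if β = 0 then two (X.R ^ K * X.η) (x :: l) else 0 := by
  obtain ⟨a, m⟩ := x
  simp only at hx
  subst hx
  unfold Ψf
  have h1 : Vec.ru X K (a, 0) (X.e, 1) β l = 0 := by simp [Vec.ru]
  rw [h1, sub_zero]
  rcases l with _ | ⟨z, _ | ⟨w, l⟩⟩
  · simp [Th]
  · obtain ⟨b, n⟩ := z
    rw [two_pair]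
    simp only [Th, Vec.ru, unitS]
    by_cases hβ : β = 0 <;> by_cases hn : n = 0 <;> simp [hβ, hn]
  · rw [two_long, Th_long]
    · simp
    · intro z I hI
      have : I.length ≠ 0 := fun h => hI (List.eq_nil_of_length_eq_zero h)
      simp [Vec.ru, unitS, this]

theorem Ψf_lo (K : ℕ) (x : ι × ℕ) (β : B) (l : List (ι × ℕ)) :
    Ψf X (Vec.lo X K (G.F2 x)) β l = act (Lop X K) l (G.F1 x β) -
      ∑ i ∈ range (K + 1), br (X.μ X.e + 3 / 2) K i *
        ∑ b, (X.R ^ i) X.e b * G.F 0 β ((b, K - i) :: x :: l) := by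
  unfold Ψf
  have h1 : act (Lop X K) l (G.F1 x β) = Th X.par l (fun z => Vec.lo X K (G.F2 x) z β) := by
    rw [act_eq_Th (Vec.Lop_op X K) l (G.F1 x β) (G.F1_SSS x β)]
    rfl
  have h2 : Vec.lo X K (G.F2 x) (X.e, 1) β l =
      ∑ i ∈ range (K + 1), br (X.μ X.e + 3 / 2) K i *
        ∑ b, (X.R ^ i) X.e b * G.F 0 β ((b, K - i) :: x :: l) := by
    unfold Vec.lo Lop
    refine Finset.sum_congr rfl fun i hi => ?_
    rw [mem_range] at hi
    rw [if_pos (by simp only; omega)]
    have e1 : (X.μ X.e + ((1 : ℕ) : ℂ) + 1 / 2) = X.μ X.e + 3 / 2 := by push_cast; ring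
    simp only
    rw [e1]
    congr 1
    refine Finset.sum_congr rfl fun b _ => ?_
    by_cases hb : (X.R ^ i) X.e b = 0
    · rw [hb, zero_mul, zero_mul]
    · have ht := X.Rpow_type i X.e b hb
      have he := X.e_type
      rw [show 1 + K - 1 - i = K - i by omega]
      congr 1
      have hp : X.par (b, K - i) % 2 = 0 := by simp only [Target.par]; omega
      have := (G.F_SS 0 β).front hp [x] l
      exact this
  rw [h1, h2]

theorem quad0 (x y : ι × ℕ) (β : B) (l : List (ι × ℕ)) :
    G.quad 0 β x y l = (-1) ^ (X.par y * X.par x) * star X.par (G.F1 x) (G.F1 y) β l := by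
  unfold quad star
  rw [if_pos rfl, zero_add, Finset.Nat.antidiagonal_zero, Finset.sum_singleton, Finset.mul_sum]
  refine Finset.sum_congr rfl fun b _ => ?_
  rw [← split_smul_left]
  apply split_congr
  · intro I
    exact (G.F1_PS x b.1).sign (X.par y) I
  · intro J; rfl

/-- The derivative of the quadratic term. -/
theorem quad0_cons (x y u : ι × ℕ) (hxy : X.par x % 2 = X.par y % 2) (β : B)
    (l : List (ι × ℕ)) : G.quad 0 β x y (u :: l) =
      star X.par (G.F1 y) (G.F2 u x) β l +
      (-1) ^ X.par x * star X.par (G.F1 x) (G.F2 u y) β l := by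
  rw [quad0, (G.F1_PS x).star_cons]
  have h1 : star X.par (fun β I => G.F1 x β (u :: I)) (G.F1 y) β l =
      (-1) ^ ((X.par x + X.par u) * X.par y) * ((-1) ^ (X.par x * X.par u) *
        star X.par (G.F1 y) (G.F2 u x) β l) := by
    have e1 := star_comm (G.F2_PS x u) (G.F1_PS y) β l
    have e2 : star X.par (G.F1 y) (G.F2 x u) β l = (-1) ^ (X.par x * X.par u) *
        star X.par (G.F1 y) (G.F2 u x) β l := by
      rw [← star_smul_right]
      apply star_congr
      · intro β I; rfl
      · intro β J; exact G.F_swap2 β x u J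
    rw [e2] at e1
    exact e1
  have h2 : star X.par (G.F1 x) (fun β J => G.F1 y β (u :: J)) β l =
      (-1) ^ (X.par y * X.par u) * star X.par (G.F1 x) (G.F2 u y) β l := by
    rw [← star_smul_right]
    apply star_congr
    · intro β I; rfl
    · intro β J; exact G.F_swap2 β y u J
  rw [h1, h2, mul_add]
  have s1 : ((-1 : ℂ)) ^ (X.par y * X.par x) * ((-1) ^ ((X.par x + X.par u) * X.par y) *
      (-1) ^ (X.par x * X.par u)) = 1 := by
    rw [← pow_add, ← pow_add]
    rw [neg_one_pow_congr (b := 0), pow_zero]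
    rcases Nat.mod_two_eq_zero_or_one (X.par x) with hx | hx <;>
    rcases Nat.mod_two_eq_zero_or_one (X.par u) with hu | hu <;>
    · rw [hx] at hxy
      simp [Nat.add_mod, Nat.mul_mod, hx, hu, ← hxy]
  have s2 : ((-1 : ℂ)) ^ (X.par y * X.par x) * ((-1) ^ (X.par u * X.par x) *
      (-1) ^ (X.par y * X.par u)) = (-1) ^ X.par x := by
    rw [← pow_add, ← pow_add]
    apply neg_one_pow_congr
    rcases Nat.mod_two_eq_zero_or_one (X.par x) with hx | hx <;>
    rcases Nat.mod_two_eq_zero_or_one (X.par u) with hu | hu <;>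
    · rw [hx] at hxy
      simp [Nat.add_mod, Nat.mul_mod, hx, hu, ← hxy]
  linear_combination (star X.par (G.F1 y) (G.F2 u x) β l) * s1 +
    (star X.par (G.F1 x) (G.F2 u y) β l) * s2

theorem coef_swap {m n i K : ℕ} (h : m + n + i + 2 = K) (a b : ι) :
    (-1 : ℂ) ^ (n + 1) * (br (-X.μ b - n - 1 / 2) K i * (X.η⁻¹ * X.R ^ i) b a) =
      (-1) ^ (m + 1) * (br (-X.μ a - m - 1 / 2) K i * (X.η⁻¹ * X.R ^ i) a b * X.sg b) := by
  have hsw := X.inv_mul_Rpow_swap i b a
  by_cases hb : (X.η⁻¹ * X.R ^ i) a b = 0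
  · rw [hsw, hb]; ring
  · have hμ := X.μ_of_inv_mul hb
    have hs : X.sg b = X.sg a := by
      have ht := X.inv_mul_Rpow_type i a b hb
      exact X.sg_of_add_even ⟨X.r + i, by omega⟩
    have hK : (K : ℂ) = m + n + i + 2 := by rw [← h]; push_cast; ring
    have hx : (-X.μ b - n - 1 / 2 : ℂ) = -(-X.μ a - m - 1 / 2) - K + 1 := by
      rw [hμ, hK]; ring
    have hsg : ((-1 : ℂ)) ^ (n + 1) * (-1) ^ (K + i) = (-1) ^ (m + 1) := by
      rw [← pow_add]
      exact neg_one_pow_congr (by omega)
    rw [hx, br_reflect, hsw, hs, ← hsg]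
    ring

/-- The quadratic term of `L_{K-1}` in genus zero. -/
theorem quad_term (K : ℕ) (u : ι × ℕ) (β : B) (l : List (ι × ℕ)) :
    1 / 2 * ∑ m ∈ range K, ∑ n ∈ range K, ∑ i ∈ range K, (if m + n + i + 2 = K then
      (-1) ^ (m + 1) * ∑ a, ∑ b, br (-X.μ a - m - 1 / 2) K i * (X.η⁻¹ * X.R ^ i) a b *
        G.quad 0 β (a, m) (b, n) (u :: l) else 0) = G.Qf K (G.F2 u) β l := by
  have h1 : ∑ m ∈ range K, ∑ n ∈ range K, ∑ i ∈ range K, (if m + n + i + 2 = K then
      (-1) ^ (m + 1) * ∑ a, ∑ b, br (-X.μ a - m - 1 / 2) K i * (X.η⁻¹ * X.R ^ i) a b *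
        G.quad 0 β (a, m) (b, n) (u :: l) else 0) =
      trip K (fun m n i => (-1) ^ (m + 1) * ∑ a, ∑ b, br (-X.μ a - m - 1 / 2) K i *
        (X.η⁻¹ * X.R ^ i) a b * star X.par (G.F1 (b, n)) (G.F2 u (a, m)) β l) +
      trip K (fun m n i => (-1) ^ (m + 1) * ∑ a, ∑ b, br (-X.μ a - m - 1 / 2) K i *
        (X.η⁻¹ * X.R ^ i) a b * (X.sg b * star X.par (G.F1 (a, m)) (G.F2 u (b, n)) β l)) := by
    rw [← trip_add]
    apply trip_congr
    intro m n i _
    rw [← mul_add, ← Finset.sum_add_distrib]
    congr 1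
    refine Finset.sum_congr rfl fun a _ => ?_
    rw [← Finset.sum_add_distrib]
    refine Finset.sum_congr rfl fun b _ => ?_
    by_cases hb : (X.η⁻¹ * X.R ^ i) a b = 0
    · rw [hb]; ring
    · have ht := X.inv_mul_Rpow_type i a b hb
      have hp : X.par (a, m) % 2 = X.par (b, n) % 2 := by simp only [Target.par]; omega
      rw [quad0_cons G (a, m) (b, n) u hp]
      have hs : ((-1 : ℂ)) ^ X.par (a, m) = X.sg b := by
        have : X.sg b = (-1) ^ X.par (b, n) := rfl
        rw [this]
        exact neg_one_pow_congr hp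
      rw [hs]
      ring
  have h2 : trip K (fun m n i => (-1) ^ (m + 1) * ∑ a, ∑ b, br (-X.μ a - m - 1 / 2) K i *
        (X.η⁻¹ * X.R ^ i) a b * star X.par (G.F1 (b, n)) (G.F2 u (a, m)) β l) =
      trip K (fun m n i => (-1) ^ (m + 1) * ∑ a, ∑ b, br (-X.μ a - m - 1 / 2) K i *
        (X.η⁻¹ * X.R ^ i) a b * (X.sg b * star X.par (G.F1 (a, m)) (G.F2 u (b, n)) β l)) := by
    rw [trip_swap]
    apply trip_congr
    intro m n i hK
    rw [Finset.sum_comm, Finset.mul_sum, Finset.mul_sum]
    refine Finset.sum_congr rfl fun a _ => ?_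
    rw [Finset.mul_sum, Finset.mul_sum]
    refine Finset.sum_congr rfl fun b _ => ?_
    have := coef_swap (X := X) hK a b
    linear_combination (star X.par (G.F1 (a, m)) (G.F2 u (b, n)) β l) * this
  rw [h1, h2]
  have h3 : G.Qf K (G.F2 u) β l =
      trip K (fun m n i => (-1) ^ (m + 1) * ∑ a, ∑ b, br (-X.μ a - m - 1 / 2) K i *
        (X.η⁻¹ * X.R ^ i) a b * (X.sg b * star X.par (G.F1 (a, m)) (G.F2 u (b, n)) β l)) := rfl
  rw [h3]
  ring

/-- `L_{K-1}` in genus zero, at a nonempty list of insertions. -/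
theorem vir0_cons (K : ℕ) (x : ι × ℕ) (β : B) (l : List (ι × ℕ)) :
    G.vir K 0 β (x :: l) = Lop X K x (fun y => G.F1 y β l) +
      (if x.2 = 0 then Ψf X (Vec.ru X K x) β l else 0) +
      (Ψf X (Vec.lo X K (G.F2 x)) β l + G.Qf K (G.F2 x) β l) := by
  have h1 : (if x.2 = 0 then Ψf X (Vec.ru X K x) β l else 0) =
      if (0 : ℕ) = 0 ∧ β = 0 then two (X.R ^ K * X.η) (x :: l) else 0 := by
    by_cases hx : x.2 = 0
    · rw [if_pos hx, Ψf_ru K x hx]
      simp
    · rw [if_neg hx]
      obtain ⟨a, m⟩ := x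
      obtain ⟨m, rfl⟩ := Nat.exists_eq_succ_of_ne_zero hx
      rw [two_succ, ite_self]
  have h2 : act (Lop X K) (x :: l) (G.F 0 β) = Lop X K x (fun y => G.F1 y β l) +
      act (Lop X K) l (G.F1 x β) := rfl
  rw [h1, Ψf_lo, ← quad_term]
  unfold vir
  rw [act_Lop, h2]
  simp only [Nat.zero_ne_one, and_false, false_and, if_false, add_zero]
  ring

theorem InT_Wn_iff (n : ℕ) :
    G.InT (G.Wn n) ↔ ∀ x β l, G.vir (n + 1) 0 β (x :: l) = 0 := by
  constructor
  · intro h x β l
    have h1 := h x β l
    rw [(G.Wn_explicit n).1, (G.Wn_explicit n).2] at h1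
    rw [vir0_cons]
    linear_combination -h1
  · intro h x β l
    have h1 := h x β l
    rw [vir0_cons] at h1
    rw [(G.Wn_explicit n).1, (G.Wn_explicit n).2]
    linear_combination -h1

/-- **Genus zero Virasoro constraints** follow from the topological recursion relation. -/
theorem genus_zero (hT : G.TRR) (K : ℕ) (β : B) (l : List (ι × ℕ)) : G.vir K 0 β l = 0 := by
  have key : ∀ n, G.InT (G.Wn n) := by
    intro n
    induction n with
    | zero => exact (G.InT_Wn_iff 0).2 fun x β l => G.vir_one 0 β (x :: l)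
    | succ n ih => exact G.lz_inT hT (G.Wn n) ih
  rcases K with _ | K
  · exact G.vir_zero 0 β l
  · rcases l with _ | ⟨x, l⟩
    · have h1 := G.vir_dilaton (K + 1) 0 β []
      rw [(G.InT_Wn_iff K).1 (key K)] at h1
      simp at h1
      exact h1
    · exact (G.InT_Wn_iff K).1 (key K) x β l

end GWTheory

end Vale.Agent.P269
end
end

section

section

namespace Vale.Agent.P269

open Finset Polynomial

variable {ι B : Type} [Fintype ι] [DecidableEq ι] [AddCommMonoid B]

namespace Target

variable (X : Target ι B)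

end Target

variable [DecidableEq B] [HasAntidiagonal B] {X : Target ι B}

namespace GWTheory

variable (G : GWTheory X)

end GWTheory

end Vale.Agent.P269
end
end

section

section

namespace Vale.Agent.P269.CI2

open Finset

variable {n : ℕ}

namespace Data

variable (X : Data n)

theorem eq_h_of_type (a : Fin n) (ha : X.p a + X.q a = 2) : a = X.h := by
  by_contra hne
  by_cases he : a = X.e
  · subst he
    have := X.e_type
    omega
  · have := X.other a he hne
    omega

/-- The general target attached to complete intersection data. -/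
noncomputable def toTarget : Target (Fin n) ℕ where
  r := X.r
  p := X.p
  q := X.q
  e := X.e
  e_type := X.e_type
  two_le := by
    intro a ha
    by_cases h : a = X.h
    · subst h
      have := X.h_type
      omega
    · have := X.other a ha h
      omega
  cup := X.cup
  cup_type := X.cup_type
  cup_unit := X.cup_one
  cup_comm := X.cup_comm
  cup_assoc := X.cup_assoc
  η := X.η
  η_type := X.η_type
  η_comm := X.η_comm
  η_frob := X.η_frob
  η_unit := X.η_unit
  γ := fun a => if a = X.h then (X.κ : ℂ) else 0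
  γ_type := by
    intro a ha
    by_cases h : a = X.h
    · subst h
      exact X.h_type
    · simp [h] at ha
  deg := fun a => if a = X.h then Nat.castAddMonoidHom ℂ else 0
  c := (AddMonoidHom.mulLeft X.κ).comp (Nat.castAddMonoidHom ℤ)
  c_eq := by
    intro β
    rw [Finset.sum_eq_single X.h]
    · simp
    · intro b _ hb
      simp [hb]
    · simp
  t := fun a => if a = X.h then X.t else 0
  LW := by
    rw [X.wood]
    congr 1
    rw [Finset.sum_eq_single X.h]
    · have : (X.κ : ℂ) = (X.N : ℂ) + 1 - X.ds.sum := by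
        unfold κ
        rw [Int.cast_sub, Int.cast_add, Int.cast_natCast, Int.cast_natCast, Int.cast_one]
      simp only [if_true, this]
      ring
    · intro b _ hb
      simp [hb]
    · simp

theorem toTarget_R : X.toTarget.R = X.R := by
  unfold Target.R R
  rw [Finset.sum_eq_single X.h]
  · change (if X.h = X.h then (X.κ : ℂ) else 0) • X.cup X.h = _
    rw [if_pos rfl]
  · intro b _ hb
    change (if b = X.h then (X.κ : ℂ) else 0) • X.cup b = _
    rw [if_neg hb, zero_smul]
  · simp

end Data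

theorem act_eq (T : Fin n × ℕ → (Fin n × ℕ → ℂ) → ℂ) (l : List (Fin n × ℕ))
    (f : List (Fin n × ℕ) → ℂ) : act T l f = P269.act T l f := by
  induction l generalizing f with
  | nil =>
    unfold act P269.act
    exact Finset.sum_empty
  | cons x l ih =>
    have h1 : P269.act T (x :: l) f =
        T x (fun y => f (y :: l)) + P269.act T l (fun J => f (x :: J)) := rfl
    rw [h1, ← ih]
    unfold act
    exact Fin.sum_univ_succ (n := l.length)
      (fun j => T ((x :: l).get j) fun y => f ((x :: l).set j y))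

theorem split_eq (π : Fin n × ℕ → ℕ) (l : List (Fin n × ℕ)) (f g : List (Fin n × ℕ) → ℂ) :
    split π l f g = P269.split π l f g := by
  induction l generalizing f g with
  | nil => rfl
  | cons x l ih =>
    have h1 : P269.split π (x :: l) f g = P269.split π l (fun I => f (x :: I)) g +
      P269.split π l (fun I => (-1) ^ (π x * (I.map π).sum) * f I) (fun J => g (x :: J)) := rfl
    have h2 : split π (x :: l) f g = split π l (fun I => f (x :: I)) g +
      split π l (fun I => (-1) ^ (π x * (I.map π).sum) * f I) (fun J => g (x :: J)) := rfl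
    rw [h1, h2, ih, ih]

theorem lower_eq (M : Matrix (Fin n) (Fin n) ℂ) : lower M = P269.lower M := rfl

theorem two_eq (M : Matrix (Fin n) (Fin n) ℂ) (l : List (Fin n × ℕ)) :
    two M l = P269.two M l := by
  unfold two P269.two
  refine Finset.sum_congr rfl fun a _ => Finset.sum_congr rfl fun b _ => ?_
  by_cases h : l = [(a, 0), (b, 0)]
  · rw [if_pos h]
  · rw [if_neg h]

theorem br_eq (x : ℂ) (K i : ℕ) : br x K i = P269.br x K i := rfl

theorem Data.wt_eq (X : Data n) : X.wt = X.toTarget.wt := by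
  funext x
  unfold Data.wt Data.par Target.wt
  push_cast
  change _ = 2 * (x.2 : ℤ) + X.p x.1 + X.q x.1 - 2
  ring

theorem Data.reducedSet_eq (X : Data n) (g d : ℕ) :
    X.reducedSet g d = X.toTarget.reducedSet g d := by
  unfold Data.reducedSet Target.reducedSet
  rw [X.wt_eq]
  rfl

theorem Data.reducedSet_finite (X : Data n) (g d : ℕ) : (X.reducedSet g d).Finite := by
  rw [X.reducedSet_eq]
  exact X.toTarget.reducedSet_finite g d

namespace GW

variable {X : Data n} (G : GW X)

/-- The general theory attached to a theory for complete intersection data. -/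
noncomputable def toTheory : GWTheory X.toTarget where
  F := G.F
  swap := G.swap
  unstable := G.unstable
  dimension := G.dimension
  string := by
    intro g β l
    have h := G.string g β l
    rw [act_eq, lower_eq, two_eq] at h
    exact h
  dilaton := G.dilaton
  divisor := by
    intro a ha g β l
    have ha' : a = X.h := by
      apply X.eq_h_of_type
      have h1 : X.p a = 1 := ha.1
      have h2 : X.q a = 1 := ha.2
      omega
    subst ha'
    have h := G.divisor g β l
    rw [act_eq, lower_eq, two_eq] at h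
    have h1 : X.toTarget.deg X.h β = (β : ℂ) := by
      change (if X.h = X.h then Nat.castAddMonoidHom ℂ else 0) β = _
      rw [if_pos rfl]
      rfl
    have h2 : X.toTarget.t X.h = X.t := by
      change (if X.h = X.h then X.t else 0) = _
      rw [if_pos rfl]
    rw [h1, h2]
    exact h

theorem toTheory_quad (g d : ℕ) (x y : Fin n × ℕ) (l : List (Fin n × ℕ)) :
    G.toTheory.quad g d x y l = G.quad g d x y l := by
  unfold GWTheory.quad quad
  simp only [split_eq]
  rfl

theorem toTheory_vir (K g d : ℕ) (l : List (Fin n × ℕ)) :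
    G.toTheory.vir K g d l = G.vir K g d l := by
  unfold GWTheory.vir vir
  simp only [X.toTarget_R, toTheory_quad, act_eq, two_eq, br_eq]
  rfl

theorem toTheory_TRR : G.toTheory.TRR := by
  intro d a m y z l
  have h := G.trr d a m y z l
  simp only [split_eq] at h
  exact h

theorem vir_genus_zero (K d : ℕ) (l : List (Fin n × ℕ)) : G.vir K 0 d l = 0 := by
  rw [← G.toTheory_vir]
  exact G.toTheory.genus_zero G.toTheory_TRR K d l

theorem vir_of_vdim_le (g d : ℕ) (h : X.vdim g d ≤ 0) (K : ℕ) (l : List (Fin n × ℕ)) :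
    G.vir K g d l = 0 := by
  rw [← G.toTheory_vir]
  exact G.toTheory.range_theorem G.toTheory.stringId g d h K l

theorem vir_nef (h1 : X.N + 1 ≤ X.ds.sum) (K g d : ℕ) (l : List (Fin n × ℕ)) :
    G.vir K g d l = 0 := by
  rcases Nat.eq_zero_or_pos g with rfl | hg
  · exact G.vir_genus_zero K d l
  · apply G.vir_of_vdim_le
    have hd := X.dim
    have hk : X.κ ≤ 0 := by
      unfold Data.κ
      omega
    have h4 : X.κ * (d : ℤ) ≤ 0 := mul_nonpos_of_nonpos_of_nonneg hk (Int.natCast_nonneg _)
    unfold Data.vdim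
    have h5 : (1 - (g : ℤ)) * ((X.r : ℤ) - 3) ≤ 0 := by
      apply mul_nonpos_of_nonpos_of_nonneg
      · omega
      · omega
    omega

theorem vir_single (g d V : ℕ) (hV : X.vdim g d = V) :
    (∀ K l, G.vir K g d l = 0) ↔ ∀ l, G.vir (V + 1) g d l = 0 := by
  have := G.toTheory.single_operator G.toTheory.stringId g d V hV
  simpa only [toTheory_vir] using this

theorem vir_reduced (g d : ℕ) : (∀ K l, G.vir K g d l = 0) ↔
    ∀ s ∈ X.reducedSet g d, G.vir (s.1 + 1) g d s.2 = 0 := by
  have h2 : ∀ a, X.toTarget.p a + X.toTarget.q a = 2 →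
      X.toTarget.p a = 1 ∧ X.toTarget.q a = 1 := by
    intro a ha
    have := X.eq_h_of_type a ha
    subst this
    exact X.h_type
  have := G.toTheory.main_reduced h2 g d
  simp only [toTheory_vir] at this
  rw [X.reducedSet_eq]
  exact this

end GW

end Vale.Agent.P269.CI2
end
end
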